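import Crest.Agent.R175.VdL

/-! Row 175: the invariant chain of cosets; the irreducible non-spherical case. -/

set_option autoImplicit false
set_option linter.unusedSectionVars false

namespace Crest.R175

open Crest.GroupTheory

variable {S : Type} [Fintype S] [DecidableEq S] {M : CoxeterMatrix S}

namespace Setup

variable {𝒮 : Setup M} {X : Set S}

theorem Framed.DD_mul (hF : 𝒮.Framed X) {a : ArtinGroup M} (ha : a ∈ AX M X) (x : ArtinGroup M) :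
    𝒮.DD (a * x) = 𝒮.DD x := by
  funext s
  simp only [DD, dimS, hF.inv a ha x]

theorem Framed.ht_mul (hF : 𝒮.Framed X) {a : ArtinGroup M} (ha : a ∈ AX M X) (Y : Set S)
    (x : ArtinGroup M) : 𝒮.ht Y (a * x) = 𝒮.ht Y x := by
  rw [ht, ht, hF.DD_mul ha]

theorem Framed.terminal_mul (hF : 𝒮.Framed X) {a : ArtinGroup M} (ha : a ∈ AX M X) {Y : Set S}
    {x : ArtinGroup M} (hx : 𝒮.Terminal Y x) : 𝒮.Terminal Y (a * x) := by
  rintro k y ⟨h1, s, hs, h2⟩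
  have e : 𝒮.Tm Y (a * x) k = 𝒮.Tm Y x k := by
    simp only [Tm, Tn, hF.ht_mul ha, hF.DD_mul ha]
  rw [e] at h1 hs
  rw [hF.ht_mul ha] at h2
  refine hx k (a⁻¹ * y) ⟨?_, s, hs, ?_⟩
  · rw [mul_inv_rev, mul_assoc] at h1; exact h1
  · rw [hF.DD_mul (inv_mem ha)]; exact h2

/-- an element of `A_X` fixing the coset `g A_Y` of a terminal `g` fixes `g A_{Tb}` -/
theorem Framed.conj_mem_Tb (hF : 𝒮.Framed X) {a : ArtinGroup M} (ha : a ∈ AX M X) {Y : Set S}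
    {g : ArtinGroup M} (hg : 𝒮.Terminal Y g) (h : g⁻¹ * a * g ∈ AX M Y) :
    g⁻¹ * a * g ∈ AX M (𝒮.Tb Y g) := by
  rw [mul_assoc] at h ⊢
  exact (𝒮.terminal_unique h hg (hF.terminal_mul ha hg)).2

theorem Framed.mem_of_zero (hF : 𝒮.Framed X) {g : ArtinGroup M}
    (h : ∀ s, 𝒮.ht Set.univ g s = LT.zero) : g ∈ AX M X ∧ 𝒮.Tb Set.univ g = X := by
  have h1 : ∀ s, 𝒮.ht Set.univ 1 s = LT.zero := 𝒮.ht_zero_of_dimS hF.dim_one
  have hT : ∀ x : ArtinGroup M, (∀ s, 𝒮.ht Set.univ x s = LT.zero) → 𝒮.Tb Set.univ x = X := by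
    intro x hx
    ext s
    rw [𝒮.mem_Tb_iff_of_zero hx]
    constructor
    · rintro ⟨-, h2⟩
      by_contra hs
      have := hF.inp_pos s hs
      have h3 := h2 0
      rw [Nat.cast_zero] at h3
      exact this.ne' h3
    · exact fun hs => ⟨trivial, fun k => hF.inp_zero s hs k⟩
  refine ⟨?_, hT g h⟩
  have := (𝒮.terminal_unique (x := 1) (y := g) (by rw [AX_univ]; trivial)
    (𝒮.terminal_of_ht_zero h1) (𝒮.terminal_of_ht_zero h)).2
  rw [hT 1 h1] at this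
  simpa using this

theorem Framed.zero_of_terminal (hF : 𝒮.Framed X) {g : ArtinGroup M}
    (h : 𝒮.Terminal Set.univ g) : ∀ s, 𝒮.ht Set.univ g s = LT.zero := by
  have h1 : ∀ s, 𝒮.ht Set.univ 1 s = LT.zero := 𝒮.ht_zero_of_dimS hF.dim_one
  have := (𝒮.terminal_unique (x := 1) (y := g) (by rw [AX_univ]; trivial)
    (𝒮.terminal_of_ht_zero h1) h).1
  intro s
  rw [← this]; exact h1 s

/-- the next coset of the chain: `Y₁ = Tb Y g ∪ Tn univ g` is proper (`exists_tight_not_mem`),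
contains a descent `y` of `g` for `univ`; take a `Y₁`-terminal `g'` below `y` (`exists_terminal`,
`hgt_hgt`, `hgt_mono`). -/
theorem Framed.exists_next (hF : 𝒮.Framed X) (hM : Irred M) (hP : ¬ PosDef M) {Y : Set S}
    (hY : Y ≠ Set.univ) {g : ArtinGroup M} (h0 : ¬ ∀ s, 𝒮.ht Set.univ g s = LT.zero) :
    ∃ Y₁ : Set S, Y₁ ≠ Set.univ ∧ 𝒮.Tb Y g ⊆ Y₁ ∧ ∃ a ∈ AX M Y₁, 𝒮.Terminal Y₁ (g * a) ∧
      𝒮.ht Set.univ (g * a) < 𝒮.ht Set.univ g := by
  have hnt : ¬ 𝒮.Terminal Set.univ g := fun h => h0 (hF.zero_of_terminal h)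
  simp only [Terminal, not_forall, not_not] at hnt
  obtain ⟨k, y, hy⟩ := hnt
  obtain ⟨s, hs1, hs2⟩ := exists_tight_not_mem (u := 𝒮.uu) hM hP hY (𝒮.data g)
  refine ⟨𝒮.Tb Y g ∪ 𝒮.Tn Set.univ g, ?_, Set.subset_union_left, ?_⟩
  · intro e
    have : s ∈ 𝒮.Tb Y g ∪ 𝒮.Tn Set.univ g := by rw [e]; trivial
    rcases this with h | h
    · exact hs1 h
    · exact hs2 h
  · obtain ⟨z, hz, hzt, hle⟩ := 𝒮.exists_terminal (𝒮.Tb Y g ∪ 𝒮.Tn Set.univ g) y
    refine ⟨g⁻¹ * z, ?_, ?_, ?_⟩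
    · have h1 : g⁻¹ * y ∈ AX M (𝒮.Tb Y g ∪ 𝒮.Tn Set.univ g) :=
        AX_mono M (fun t ht => Or.inr ht.1) hy.1
      have := mul_mem h1 hz
      rwa [mul_assoc, mul_inv_cancel_left] at this
    · rwa [mul_inv_cancel_left]
    · rw [mul_inv_cancel_left]
      refine lt_of_le_of_lt ?_ hy.lt
      have e1 := hgt_hgt (M := M) (Set.subset_univ (𝒮.Tb Y g ∪ 𝒮.Tn Set.univ g)) (𝒮.data z)
      have e2 := hgt_hgt (M := M) (Set.subset_univ (𝒮.Tb Y g ∪ 𝒮.Tn Set.univ g)) (𝒮.data y)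
      change hgt M 𝒮.uu Set.univ (𝒮.DD z) ≤ hgt M 𝒮.uu Set.univ (𝒮.DD y)
      rw [← e1, ← e2]
      exact hgt_mono (hgt_data (𝒮.data z)) (hgt_data (𝒮.data y)) hle

theorem chain_mem_cj {G : Type*} [Group G] {g x : G} {P : Subgroup G} :
    x ∈ cj g P ↔ g⁻¹ * x * g ∈ P := by
  simp only [cj, Subgroup.mem_map]
  constructor
  · rintro ⟨y, hy, rfl⟩
    simpa [mul_assoc] using hy
  · intro h
    exact ⟨_, h, by simp [mul_assoc]⟩

/-- **Chain.**  Well-founded induction on `ht univ g`.  With `T = Tb Y g`, `H ≤ g A_T g⁻¹`, and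
`b A_Z b⁻¹ ⊓ A_T = b' A_{Z'} b'⁻¹` with `b' ∈ A_T`, `Z' ⊆ T` (`parIn_of_sub` for `Y`).  If the height
is zero, `g ∈ A_X` and `T ⊆ X` (`harm_subset_harm`); otherwise continue with `exists_next`. -/
theorem Framed.chain (hF : 𝒮.Framed X) (hM : Irred M) (hP : ¬ PosDef M)
    (ih : ∀ T : Set S, T ≠ Set.univ → InterProp (sub M (incl T)))
    {H : Subgroup (ArtinGroup M)} (hH : H ≤ AX M X) (g : ArtinGroup M) :
    ∀ Y : Set S, Y ≠ Set.univ → 𝒮.Terminal Y g → ∀ b ∈ AX M Y, ∀ Z ⊆ Y,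
      H ≤ cj (g * b) (AX M Z) →
      ∃ P, ParIn M X P ∧ H ≤ P ∧ P ≤ cj (g * b) (AX M Z) := by
  induction g using (𝒮.ht_wf Set.univ).induction with
  | _ g ihg =>
    intro Y hY hg b hb Z hZ hHZ
    have hT : 𝒮.Tb Y g ⊆ Y := 𝒮.Tb_subset Y g
    obtain ⟨b', hb', Z', hZ', hP'⟩ := parIn_of_sub M (ih Y hY) hT hZ hb
    have hmem : ∀ x, x ∈ cj (g * b') (AX M Z') ↔
        g⁻¹ * x * g ∈ AX M (𝒮.Tb Y g) ∧ x ∈ cj (g * b) (AX M Z) := by
      intro x
      have h1 := SetLike.ext_iff.1 hP' (g⁻¹ * x * g)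
      rw [Subgroup.mem_inf, chain_mem_cj, chain_mem_cj] at h1
      rw [chain_mem_cj, chain_mem_cj]
      simpa only [mul_inv_rev, mul_assoc] using h1.symm
    have hH' : H ≤ cj (g * b') (AX M Z') := by
      intro x hx
      refine (hmem x).2 ⟨hF.conj_mem_Tb (hH hx) hg ?_, hHZ hx⟩
      have h1 := AX_mono M hZ (chain_mem_cj.1 (hHZ hx))
      have h2 := mul_mem (mul_mem hb h1) (inv_mem hb)
      simpa only [mul_inv_rev, mul_assoc, mul_inv_cancel_left, mul_inv_cancel, mul_one] using h2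
    have hle : cj (g * b') (AX M Z') ≤ cj (g * b) (AX M Z) := fun x hx => ((hmem x).1 hx).2
    by_cases h0 : ∀ s, 𝒮.ht Set.univ g s = LT.zero
    · obtain ⟨hg1, hg2⟩ := hF.mem_of_zero h0
      have hTX : 𝒮.Tb Y g ⊆ X := by
        rw [← hg2]; exact harm_subset_harm (Set.subset_univ Y) (𝒮.data g)
      exact ⟨_, ⟨g * b', mul_mem hg1 (AX_mono M hTX hb'), Z', hZ'.trans hTX, rfl⟩, hH', hle⟩
    · obtain ⟨Y₁, hY₁, hsub, a, ha, hterm, hlt⟩ := hF.exists_next hM hP hY h0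
      have e : g * a * (a⁻¹ * b') = g * b' := by group
      obtain ⟨P, hP1, hP2, hP3⟩ := ihg (g * a) hlt Y₁ hY₁ hterm (a⁻¹ * b')
        (mul_mem (inv_mem ha) (AX_mono M hsub hb')) Z' (hZ'.trans hsub) (by rw [e]; exact hH')
      rw [e] at hP3
      exact ⟨P, hP1, hP2, hP3.trans hle⟩

end Setup

/-- **Irreducible non-spherical case.**  `Y = univ` is trivial; otherwise take the setup framed along
`X`, a `Y`-terminal `g ∈ h A_Y`, `b = g⁻¹ h`, `Z = Y`. -/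
theorem interProp_of_irred (hM : Irred M) (hP : ¬ PosDef M)
    (ih : ∀ T : Set S, T ≠ Set.univ → InterProp (sub M (incl T))) : InterProp M := by
  intro X Y h
  by_cases hY : Y = Set.univ
  · subst hY
    refine ⟨1, one_mem _, X, subset_rfl, ?_⟩
    ext x
    rw [Subgroup.mem_inf, Setup.chain_mem_cj, Setup.chain_mem_cj, AX_univ]
    simp
  obtain ⟨𝒮, hF⟩ := exists_setup M X
  obtain ⟨g, hg, hterm, -⟩ := 𝒮.exists_terminal Y h
  have e : g * (g⁻¹ * h) = h := by group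
  obtain ⟨P, ⟨b, hb, Z, hZ, rfl⟩, hP2, hP3⟩ := hF.chain hM hP ih
    (H := AX M X ⊓ cj h (AX M Y)) inf_le_left g Y hY hterm (g⁻¹ * h)
    (by simpa using inv_mem hg) Y subset_rfl (by rw [e]; exact inf_le_right)
  rw [e] at hP3
  refine ⟨b, hb, Z, hZ, le_antisymm hP2 (le_inf ?_ hP3)⟩
  intro x hx
  have h1 := AX_mono M hZ (Setup.chain_mem_cj.1 hx)
  have h2 := mul_mem (mul_mem hb h1) (inv_mem hb)
  simpa only [mul_assoc, mul_inv_cancel_left, mul_inv_cancel, mul_one] using h2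

end Crest.R175
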