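import Crest.Agent.R175.PM

/-! Row 175, part F: dg modules over the Ginzburg dga of a graph (over `ZMod 2`, no signs).
All spaces live in one ambient space `V`; the algebraic identities hold globally on `V`, the
grading is recorded by the submodules `L i k`. -/

set_option autoImplicit false
set_option linter.unusedSectionVars false

namespace Crest.R175

open Module

theorem k2_add_self {V : Type*} [AddCommGroup V] [Module K2 V] (v : V) : v + v = 0 := by
  rw [← two_smul K2 v, show (2 : K2) = 0 from rfl, zero_smul]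

theorem k2_ext {V : Type*} [AddCommGroup V] [Module K2 V] {x y : V}
    (h : (1 : K2) • x = (1 : K2) • y) : x = y := by simpa using h

theorem k2_eq_of_add {V : Type*} [AddCommGroup V] [Module K2 V] {x y : V} (h : x + y = 0) :
    x = y := by
  have := congrArg (· + y) h
  simpa [add_assoc, k2_add_self] using this

theorem k2_eq_add {V : Type*} [AddCommGroup V] [Module K2 V] {x y z : V} (h : x + y = z) :
    x = z + y := by rw [← h, add_assoc, k2_add_self, add_zero]

/-- proves an identity between sums of atoms in a `ZMod 2`-module -/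
macro "char2" : tactic => `(tactic| (apply k2_ext; match_scalars <;> decide))

variable {I : Type} [Fintype I] [DecidableEq I]

/-- a dg module over the Ginzburg dga of `Γ` -/
structure DG (Γ : SimpleGraph I) (V : Type) [AddCommGroup V] [Module K2 V] where
  /-- the part at vertex `i` in degree `k` -/
  L : I → ℤ → Submodule K2 V
  d : I → V →ₗ[K2] V
  /-- the arrow from `m` to `l` -/
  a : I → I → V →ₗ[K2] V
  t : I → V →ₗ[K2] V
  d_mem : ∀ m k v, v ∈ L m k → d m v ∈ L m (k + 1)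
  a_mem : ∀ l m k v, v ∈ L m k → a l m v ∈ L l k
  t_mem : ∀ m k v, v ∈ L m (k + 1) → t m v ∈ L m k
  d_d : ∀ m v, d m (d m v) = 0
  d_a : ∀ l m v, d l (a l m v) = a l m (d m v)
  a_zero : ∀ l m v, ¬ Γ.Adj l m → a l m v = 0
  d_t : ∀ m v, d m (t m v) = t m (d m v) + ∑ l, a m l (a l m v)

/-- `f : (V, L, d) → (V', L', d')` has an acyclic cone -/
def QisAt {V V' : Type} [AddCommGroup V] [Module K2 V] [AddCommGroup V'] [Module K2 V']
    (L : ℤ → Submodule K2 V) (d : V →ₗ[K2] V) (L' : ℤ → Submodule K2 V') (d' : V' →ₗ[K2] V')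
    (f : V →ₗ[K2] V') : Prop :=
  ∀ k x y, x ∈ L (k + 1) → y ∈ L' k → d x = 0 → d' y = f x →
    ∃ x0 ∈ L k, ∃ y0 ∈ L' (k - 1), d x0 = x ∧ y = f x0 + d' y0

section Qis
variable {V V' : Type} [AddCommGroup V] [Module K2 V] [AddCommGroup V'] [Module K2 V']
  {L : ℤ → Submodule K2 V} {d : V →ₗ[K2] V} {L' : ℤ → Submodule K2 V'} {d' : V' →ₗ[K2] V'}
  {f : V →ₗ[K2] V'}

/-- `f` is the inclusion of a deformation retract -/
theorem QisAt.of_sec (g : V' → V) (h : V' → V') (hg : ∀ k y, y ∈ L' k → g y ∈ L k)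
    (hh : ∀ k y, y ∈ L' k → h y ∈ L' (k - 1)) (gd : ∀ k y, y ∈ L' k → g (d' y) = d (g y))
    (gf : ∀ k x, x ∈ L k → g (f x) = x) (hf : ∀ k x, x ∈ L k → h (f x) = 0)
    (fg : ∀ k y, y ∈ L' k → f (g y) + y = d' (h y) + h (d' y)) : QisAt L d L' d' f := by
  intro k x y hx hy _ hd
  refine ⟨g y, hg k y hy, h y, hh k y hy, by rw [← gd k y hy, hd, gf _ x hx], ?_⟩
  have := fg k y hy
  rw [hd, hf _ x hx, add_zero] at this
  rw [← this]; char2

/-- `f` is the projection onto a deformation retract -/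
theorem QisAt.of_ret (g : V' → V) (h : V → V) (hg : ∀ k y, y ∈ L' k → g y ∈ L k)
    (hh : ∀ k x, x ∈ L (k + 1) → h x ∈ L k) (gd : ∀ k y, y ∈ L' k → g (d' y) = d (g y))
    (fg : ∀ k y, y ∈ L' k → f (g y) = y) (fh : ∀ k x, x ∈ L k → f (h x) = 0) (h0 : h 0 = 0)
    (gf : ∀ k x, x ∈ L k → g (f x) + x = d (h x) + h (d x)) : QisAt L d L' d' f := by
  intro k x y hx hy hx0 hd
  refine ⟨g y + h x, add_mem (hg k y hy) (hh k x hx), 0, zero_mem _, ?_, ?_⟩
  · have := gf _ x hx
    rw [hx0, h0, add_zero] at this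
    rw [map_add, ← gd k y hy, hd, ← this]; char2
  · rw [map_add, fg k y hy, fh _ x hx]; simp

/-- `f` is an isomorphism -/
theorem QisAt.of_iso (g : V' → V) (hg : ∀ k y, y ∈ L' k → g y ∈ L k)
    (gd : ∀ k y, y ∈ L' k → g (d' y) = d (g y))
    (gf : ∀ k x, x ∈ L k → g (f x) = x) (fg : ∀ k y, y ∈ L' k → f (g y) = y) :
    QisAt L d L' d' f :=
  QisAt.of_sec g (fun _ => 0) hg (fun _ _ _ => zero_mem _) gd gf (fun _ _ _ => rfl)
    (fun k y hy => by rw [fg k y hy]; simp [k2_add_self])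

end Qis

namespace DG

variable {Γ : SimpleGraph I} [DecidableRel Γ.Adj]
  {V V' : Type} [AddCommGroup V] [Module K2 V] [AddCommGroup V'] [Module K2 V']

/-- a chain map commuting with the arrows -/
structure CMap (X : DG Γ V) (Y : DG Γ V') where
  f : I → V →ₗ[K2] V'
  mem : ∀ m k v, v ∈ X.L m k → f m v ∈ Y.L m k
  f_d : ∀ m v, f m (X.d m v) = Y.d m (f m v)
  f_a : ∀ l m v, f l (X.a l m v) = Y.a l m (f m v)

/-- a strict morphism -/
structure SHom (X : DG Γ V) (Y : DG Γ V') extends CMap X Y where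
  f_t : ∀ m v, f m (X.t m v) = Y.t m (f m v)

/-- the family `f` is a quasi-isomorphism -/
def Qis (X : DG Γ V) (Y : DG Γ V') (f : I → V →ₗ[K2] V') : Prop :=
  ∀ m, QisAt (X.L m) (X.d m) (Y.L m) (Y.d m) (f m)

/-- there is a strict quasi-isomorphism -/
def Rel (X : DG Γ V) (Y : DG Γ V') : Prop := ∃ f : SHom X Y, Qis X Y f.f

/-- a weak morphism -/
structure WHom (X : DG Γ V) (Y : DG Γ V') where
  f : I → V →ₗ[K2] V'
  h : I → I → V →ₗ[K2] V'
  mem : ∀ m k v, v ∈ X.L m k → f m v ∈ Y.L m k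
  h_mem : ∀ l m k v, v ∈ X.L m (k + 1) → h l m v ∈ Y.L l k
  f_d : ∀ m v, f m (X.d m v) = Y.d m (f m v)
  h_zero : ∀ l m v, ¬ Γ.Adj l m → h l m v = 0
  d_h : ∀ l m v, Y.d l (h l m v) = h l m (X.d m v) + (f l (X.a l m v) + Y.a l m (f m v))
  f_t : ∀ m v, f m (X.t m v) =
    Y.t m (f m v) + ∑ l, (Y.a m l (h l m v) + h m l (X.a l m v))

variable (X : DG Γ V)

theorem a_self (i : I) (v : V) : X.a i i v = 0 := X.a_zero i i v (Γ.loopless.irrefl i)

theorem d_mem' {m : I} {k : ℤ} {v : V} (h : v ∈ X.L m (k - 1)) : X.d m v ∈ X.L m k := by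
  simpa using X.d_mem m _ v h

theorem t_mem' {m : I} {k : ℤ} {v : V} (h : v ∈ X.L m k) : X.t m v ∈ X.L m (k - 1) :=
  X.t_mem m _ v (by simpa using h)

/-- the differential on families -/
def dU : (I → V) →ₗ[K2] (I → V) := LinearMap.pi fun l => X.d l ∘ₗ LinearMap.proj l

/-- all arrows out of `i` -/
def al (i : I) : V →ₗ[K2] (I → V) := LinearMap.pi fun l => X.a l i

/-- all arrows into `i` -/
def be (i : I) : (I → V) →ₗ[K2] V := ∑ l, X.a i l ∘ₗ LinearMap.proj l

/-- inclusion of the neighbour `m` of `i` -/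
def de (_X : DG Γ V) (i m : I) : V →ₗ[K2] (I → V) :=
  if Γ.Adj i m then LinearMap.single K2 (fun _ => V) m else 0

/-- projection to the neighbour `m` of `i` -/
def pr (_X : DG Γ V) (i m : I) : (I → V) →ₗ[K2] V := if Γ.Adj i m then LinearMap.proj m else 0

@[simp] theorem dU_apply (u : I → V) (l : I) : X.dU u l = X.d l (u l) := rfl
@[simp] theorem al_apply (i : I) (v : V) (l : I) : X.al i v l = X.a l i v := rfl
theorem be_apply (i : I) (u : I → V) : X.be i u = ∑ l, X.a i l (u l) := by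
  simp [be, LinearMap.sum_apply]
theorem de_apply (i m : I) (v : V) (l : I) :
    X.de i m v l = if Γ.Adj i m ∧ l = m then v else 0 := by
  unfold de; by_cases h : Γ.Adj i m <;> simp [h, Pi.single_apply]
theorem pr_apply (i m : I) (u : I → V) : X.pr i m u = if Γ.Adj i m then u m else 0 := by
  unfold pr; split_ifs <;> rfl

theorem de_of_not {i m : I} (h : ¬ Γ.Adj i m) (v : V) : X.de i m v = 0 := by
  simp [de, h]
theorem pr_of_not {i m : I} (h : ¬ Γ.Adj i m) (u : I → V) : X.pr i m u = 0 := by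
  simp [pr, h]

@[simp] theorem be_de (i m : I) (v : V) : X.be i (X.de i m v) = X.a i m v := by
  rw [be_apply, Finset.sum_eq_single m]
  · by_cases h : Γ.Adj i m
    · simp [de_apply, h]
    · simp [X.a_zero i m _ h]
  · intro l _ hl; simp [de_apply, hl]
  · simp

@[simp] theorem pr_al (i m : I) (v : V) : X.pr i m (X.al i v) = X.a m i v := by
  rw [pr_apply]; split_ifs with h
  · rfl
  · exact (X.a_zero m i v fun h' => h h'.symm).symm

theorem dU_dU (u : I → V) : X.dU (X.dU u) = 0 := by funext l; simp [X.d_d]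
theorem dU_al (i : I) (v : V) : X.dU (X.al i v) = X.al i (X.d i v) := by
  funext l; simp [X.d_a]
theorem d_be (i : I) (u : I → V) : X.d i (X.be i u) = X.be i (X.dU u) := by
  simp [be_apply, map_sum, X.d_a]
theorem dU_de (i m : I) (v : V) : X.dU (X.de i m v) = X.de i m (X.d m v) := by
  funext l; simp only [dU_apply, de_apply]; split_ifs with h
  · rw [h.2]
  · simp
theorem d_pr (i m : I) (u : I → V) : X.d m (X.pr i m u) = X.pr i m (X.dU u) := by
  simp only [pr_apply]; split_ifs <;> simp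
theorem d_t' (i : I) (v : V) : X.d i (X.t i v) = X.t i (X.d i v) + X.be i (X.al i v) := by
  rw [X.d_t, be_apply]; rfl
theorem sum_de_a (i : I) (v : V) : ∑ l, X.de i l (X.a l i v) = X.al i v := by
  funext m
  rw [Finset.sum_apply, Finset.sum_eq_single m]
  · by_cases h : Γ.Adj i m
    · simp [de_apply, h]
    · simp [de_apply, h, X.a_zero m i v fun h' => h h'.symm]
  · intro l _ hl; simp [de_apply, Ne.symm hl]
  · simp
theorem sum_a_pr (i : I) (u : I → V) : ∑ l, X.a i l (X.pr i l u) = X.be i u := by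
  rw [be_apply]
  refine Finset.sum_congr rfl fun l _ => ?_
  rw [pr_apply]; split_ifs with h
  · rfl
  · simp [X.a_zero i l _ h]

/-- families supported on the neighbours of `i`, in degree `k` -/
def UL (i : I) (k : ℤ) : Submodule K2 (I → V) where
  carrier := {u | (∀ l, u l ∈ X.L l k) ∧ ∀ l, ¬ Γ.Adj i l → u l = 0}
  add_mem' := fun hu hv => ⟨fun l => add_mem (hu.1 l) (hv.1 l), fun l h => by
    simp [hu.2 l h, hv.2 l h]⟩
  zero_mem' := ⟨fun _ => zero_mem _, fun _ _ => rfl⟩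
  smul_mem' := fun c _ hu => ⟨fun l => Submodule.smul_mem _ c (hu.1 l), fun l h => by
    simp [hu.2 l h]⟩

theorem mem_UL {i : I} {k : ℤ} {u : I → V} :
    u ∈ X.UL i k ↔ (∀ l, u l ∈ X.L l k) ∧ ∀ l, ¬ Γ.Adj i l → u l = 0 := Iff.rfl

variable {X}

theorem dU_mem {i : I} {k : ℤ} {u : I → V} (h : u ∈ X.UL i k) : X.dU u ∈ X.UL i (k + 1) :=
  ⟨fun l => X.d_mem l k _ (h.1 l), fun l hl => by simp [h.2 l hl]⟩
theorem al_mem {i : I} {k : ℤ} {v : V} (h : v ∈ X.L i k) : X.al i v ∈ X.UL i k :=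
  ⟨fun l => X.a_mem l i k _ h, fun l hl => X.a_zero l i v fun h' => hl h'.symm⟩
theorem be_mem {i j : I} {k : ℤ} {u : I → V} (h : u ∈ X.UL j k) : X.be i u ∈ X.L i k := by
  rw [be_apply]; exact Submodule.sum_mem _ fun l _ => X.a_mem i l k _ (h.1 l)
theorem de_mem {i m : I} {k : ℤ} {v : V} (h : v ∈ X.L m k) : X.de i m v ∈ X.UL i k := by
  refine ⟨fun l => ?_, fun l hl => ?_⟩ <;> rw [de_apply] <;> split_ifs with h'
  · rw [h'.2]; exact h
  · exact zero_mem _
  · exact absurd (h'.2 ▸ h'.1) hl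
  · rfl
theorem pr_mem {i j m : I} {k : ℤ} {u : I → V} (h : u ∈ X.UL j k) : X.pr i m u ∈ X.L m k := by
  rw [pr_apply]; split_ifs
  · exact h.1 m
  · exact zero_mem _

end DG

end Crest.R175
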