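import Crest.Agent.R175.DG0

/-! Row 175, part F: the twist `T i` and its inverse `Tm i`. -/

set_option autoImplicit false
set_option linter.unusedSectionVars false

namespace Crest.R175

open Module LinearMap

variable {I : Type} [Fintype I] [DecidableEq I]

namespace DG

variable {Γ : SimpleGraph I} [DecidableRel Γ.Adj]
  {V V' : Type} [AddCommGroup V] [Module K2 V] [AddCommGroup V'] [Module K2 V']
  (X : DG Γ V)

/-- ambient space of a twist -/
abbrev W (I V : Type) : Type := (I → V) × V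

/-- `γ (u, x) = β u + t x` -/
def ga (i : I) : W I V →ₗ[K2] V := (X.be i).coprod (X.t i)

/-- `γ⁻ v = (α v, t v)` -/
def gm (i : I) : V →ₗ[K2] W I V := (X.al i).prod (X.t i)

/-- apply a map in the last slot, forgetting the first -/
def lst (g : V →ₗ[K2] V') : W I V →ₗ[K2] W I V' := inr K2 _ _ ∘ₗ g ∘ₗ snd K2 _ _

@[simp] theorem ga_apply (i : I) (w : W I V) : X.ga i w = X.be i w.1 + X.t i w.2 := rfl
@[simp] theorem gm_apply (i : I) (v : V) : X.gm i v = (X.al i v, X.t i v) := rfl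
@[simp] theorem lst_apply (g : V →ₗ[K2] V') (w : W I V) :
    lst g w = (0, g w.2) := rfl

/-! ### The twist -/

def TL (i m : I) (k : ℤ) : Submodule K2 (W I V) :=
  if m = i then (X.UL i k).prod (X.L i (k + 1)) else (⊥ : Submodule K2 _).prod (X.L m k)

def Td (i m : I) : W I V →ₗ[K2] W I V :=
  if m = i then (X.dU.coprod (X.al i)).prod (X.d i ∘ₗ snd K2 _ _) else lst (X.d m)

def Ta (i l m : I) : W I V →ₗ[K2] W I V :=
  if l = i then inl K2 _ _ ∘ₗ X.de i m ∘ₗ snd K2 _ _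
  else if m = i then inr K2 _ _ ∘ₗ X.a l i ∘ₗ X.ga i else lst (X.a l m)

def Tt (i m : I) : W I V →ₗ[K2] W I V := if m = i then inr K2 _ _ ∘ₗ X.ga i else lst (X.t m)

theorem mem_TL_self {i : I} {k : ℤ} {w : W I V} :
    w ∈ X.TL i i k ↔ w.1 ∈ X.UL i k ∧ w.2 ∈ X.L i (k + 1) := by simp [TL]
theorem mem_TL_ne {i m : I} (h : m ≠ i) {k : ℤ} {w : W I V} :
    w ∈ X.TL i m k ↔ w.1 = 0 ∧ w.2 ∈ X.L m k := by simp [TL, h]
theorem Td_self (i : I) (w : W I V) : X.Td i i w = (X.dU w.1 + X.al i w.2, X.d i w.2) := by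
  simp [Td]
theorem Td_ne {i m : I} (h : m ≠ i) (w : W I V) : X.Td i m w = (0, X.d m w.2) := by simp [Td, h]
theorem Ta_in (i m : I) (w : W I V) : X.Ta i i m w = (X.de i m w.2, 0) := by simp [Ta]
theorem Ta_out {i l : I} (h : l ≠ i) (w : W I V) :
    X.Ta i l i w = (0, X.a l i (X.be i w.1 + X.t i w.2)) := by simp [Ta, h]
theorem Ta_ne {i l m : I} (h : l ≠ i) (h' : m ≠ i) (w : W I V) :
    X.Ta i l m w = (0, X.a l m w.2) := by simp [Ta, h, h']
theorem Tt_self (i : I) (w : W I V) : X.Tt i i w = (0, X.be i w.1 + X.t i w.2) := by simp [Tt]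
theorem Tt_ne {i m : I} (h : m ≠ i) (w : W I V) : X.Tt i m w = (0, X.t m w.2) := by simp [Tt, h]

theorem de_self (i : I) (v : V) : X.de i i v = 0 := X.de_of_not (Γ.loopless.irrefl i) v
theorem pr_self (i : I) (u : I → V) : X.pr i i u = 0 := X.pr_of_not (Γ.loopless.irrefl i) u

theorem d_ga (i : I) (u : I → V) (x : V) :
    X.d i (X.be i u + X.t i x) = X.be i (X.dU u + X.al i x) + X.t i (X.d i x) := by
  simp only [map_add, d_be, d_t']; abel

theorem Td_Td (i m : I) (w : W I V) : X.Td i m (X.Td i m w) = 0 := by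
  by_cases h : m = i
  · subst h; simp [Td_self, dU_dU, dU_al, X.d_d, k2_add_self]
  · simp [Td_ne, h, X.d_d]

theorem Td_Ta (i l m : I) (w : W I V) : X.Td i l (X.Ta i l m w) = X.Ta i l m (X.Td i m w) := by
  by_cases hl : l = i
  · subst hl
    by_cases hm : m = l
    · subst hm; simp [Ta_in, Td_self, de_self]
    · simp [Ta_in, Td_self, Td_ne, hm, dU_de]
  · by_cases hm : m = i
    · subst hm; rw [Ta_out _ hl, Td_ne _ hl, Ta_out _ hl, Td_self, X.d_a, d_ga]
    · simp [Ta_ne, Td_ne, hl, hm, X.d_a]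

theorem Ta_zero (i l m : I) (w : W I V) (h : ¬ Γ.Adj l m) : X.Ta i l m w = 0 := by
  by_cases hl : l = i
  · subst hl; simp [Ta_in, X.de_of_not h]
  · by_cases hm : m = i
    · subst hm; rw [Ta_out _ hl, X.a_zero _ _ _ h]; rfl
    · simp [Ta_ne, hl, hm, X.a_zero _ _ _ h]

theorem Td_Tt (i m : I) (w : W I V) :
    X.Td i m (X.Tt i m w) = X.Tt i m (X.Td i m w) + ∑ l, X.Ta i m l (X.Ta i l m w) := by
  by_cases hm : m = i
  · subst hm
    have : ∀ l, X.Ta m m l (X.Ta m l m w) =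
        inl K2 _ _ (X.de m l (X.a l m (X.be m w.1 + X.t m w.2))) := by
      intro l
      by_cases hl : l = m
      · subst hl; simp [Ta_in, de_self]
      · rw [Ta_out _ hl, Ta_in]; rfl
    simp only [this]
    rw [← map_sum, sum_de_a, Tt_self, Tt_self, Td_self, Td_self, d_ga]
    simp
  · have : ∀ l, X.Ta i m l (X.Ta i l m w) = inr K2 _ _ (X.a m l (X.a l m w.2)) := by
      intro l
      by_cases hl : l = i
      · subst hl; rw [Ta_in, Ta_out _ hm]; simp
      · simp [Ta_ne, hl, hm]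
    simp only [this]
    rw [← map_sum, Tt_ne _ hm, Td_ne _ hm, Td_ne _ hm, Tt_ne _ hm, X.d_t, inr_apply,
      Prod.mk_add_mk, add_zero]

theorem ga_mem {i : I} {k : ℤ} {u : I → V} {x : V} (hu : u ∈ X.UL i k)
    (hx : x ∈ X.L i (k + 1)) : X.be i u + X.t i x ∈ X.L i k :=
  add_mem (be_mem hu) (X.t_mem _ _ _ hx)

/-- the twist at `i` -/
def T (i : I) : DG Γ (W I V) where
  L := X.TL i
  d := X.Td i
  a := X.Ta i
  t := X.Tt i
  d_mem m k w h := by
    by_cases hm : m = i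
    · subst hm
      rw [mem_TL_self] at h ⊢; rw [Td_self]
      exact ⟨add_mem (dU_mem h.1) (al_mem h.2), X.d_mem _ _ _ h.2⟩
    · rw [mem_TL_ne _ hm] at h ⊢; rw [Td_ne _ hm]; exact ⟨rfl, X.d_mem _ _ _ h.2⟩
  a_mem l m k w h := by
    by_cases hl : l = i
    · subst hl
      rw [mem_TL_self, Ta_in]
      by_cases hm : m = l
      · subst hm; simp [de_self]
      · rw [mem_TL_ne _ hm] at h; exact ⟨de_mem h.2, zero_mem _⟩
    · rw [mem_TL_ne _ hl]
      by_cases hm : m = i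
      · subst hm; rw [mem_TL_self] at h; rw [Ta_out _ hl]
        exact ⟨rfl, X.a_mem _ _ _ _ (X.ga_mem h.1 h.2)⟩
      · rw [mem_TL_ne _ hm] at h; rw [Ta_ne _ hl hm]; exact ⟨rfl, X.a_mem _ _ _ _ h.2⟩
  t_mem m k w h := by
    by_cases hm : m = i
    · subst hm
      rw [mem_TL_self] at h ⊢; rw [Tt_self]
      exact ⟨zero_mem _, X.ga_mem h.1 h.2⟩
    · rw [mem_TL_ne _ hm] at h ⊢; rw [Tt_ne _ hm]; exact ⟨rfl, X.t_mem _ _ _ h.2⟩
  d_d := X.Td_Td i
  d_a := X.Td_Ta i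
  a_zero l m w h := X.Ta_zero i l m w h
  d_t := X.Td_Tt i

/-! ### The inverse twist -/

def ML (i m : I) (k : ℤ) : Submodule K2 (W I V) :=
  if m = i then (X.UL i k).prod (X.L i (k - 1)) else (⊥ : Submodule K2 _).prod (X.L m k)

def Md (i m : I) : W I V →ₗ[K2] W I V :=
  if m = i then (X.dU ∘ₗ fst K2 _ _).prod ((X.be i).coprod (X.d i)) else lst (X.d m)

def Ma (i l m : I) : W I V →ₗ[K2] W I V :=
  if l = i then X.gm i ∘ₗ X.a i m ∘ₗ snd K2 _ _
  else if m = i then inr K2 _ _ ∘ₗ X.pr i l ∘ₗ fst K2 _ _ else lst (X.a l m)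

def Mt (i m : I) : W I V →ₗ[K2] W I V := if m = i then X.gm i ∘ₗ snd K2 _ _ else lst (X.t m)

theorem mem_ML_self {i : I} {k : ℤ} {w : W I V} :
    w ∈ X.ML i i k ↔ w.1 ∈ X.UL i k ∧ w.2 ∈ X.L i (k - 1) := by simp [ML]
theorem mem_ML_ne {i m : I} (h : m ≠ i) {k : ℤ} {w : W I V} :
    w ∈ X.ML i m k ↔ w.1 = 0 ∧ w.2 ∈ X.L m k := by simp [ML, h]
theorem Md_self (i : I) (w : W I V) : X.Md i i w = (X.dU w.1, X.be i w.1 + X.d i w.2) := by
  simp [Md]
theorem Md_ne {i m : I} (h : m ≠ i) (w : W I V) : X.Md i m w = (0, X.d m w.2) := by simp [Md, h]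
theorem Ma_in (i m : I) (w : W I V) :
    X.Ma i i m w = (X.al i (X.a i m w.2), X.t i (X.a i m w.2)) := by simp [Ma]
theorem Ma_out {i l : I} (h : l ≠ i) (w : W I V) : X.Ma i l i w = (0, X.pr i l w.1) := by
  simp [Ma, h]
theorem Ma_ne {i l m : I} (h : l ≠ i) (h' : m ≠ i) (w : W I V) :
    X.Ma i l m w = (0, X.a l m w.2) := by simp [Ma, h, h']
theorem Mt_self (i : I) (w : W I V) : X.Mt i i w = (X.al i w.2, X.t i w.2) := by simp [Mt]
theorem Mt_ne {i m : I} (h : m ≠ i) (w : W I V) : X.Mt i m w = (0, X.t m w.2) := by simp [Mt, h]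

theorem Md_gm (i : I) (v : V) :
    X.Md i i (X.al i v, X.t i v) = (X.al i (X.d i v), X.t i (X.d i v)) := by
  rw [Md_self, dU_al, d_t']; congr 1; char2

theorem Md_Md (i m : I) (w : W I V) : X.Md i m (X.Md i m w) = 0 := by
  by_cases h : m = i
  · subst h; simp [Md_self, dU_dU, d_be, X.d_d, k2_add_self]
  · simp [Md_ne, h, X.d_d]

theorem Md_Ma (i l m : I) (w : W I V) : X.Md i l (X.Ma i l m w) = X.Ma i l m (X.Md i m w) := by
  by_cases hl : l = i
  · subst hl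
    by_cases hm : m = l
    · subst hm; simp [Ma_in, a_self, Md_self]
    · rw [Ma_in, Md_gm, Md_ne _ hm, Ma_in, X.d_a]
  · by_cases hm : m = i
    · subst hm; rw [Ma_out _ hl, Md_ne _ hl, Ma_out _ hl, Md_self, d_pr]
    · simp [Ma_ne, Md_ne, hl, hm, X.d_a]

theorem Ma_zero (i l m : I) (w : W I V) (h : ¬ Γ.Adj l m) : X.Ma i l m w = 0 := by
  by_cases hl : l = i
  · subst hl; simp [Ma_in, X.a_zero _ _ _ h]
  · by_cases hm : m = i
    · subst hm; rw [Ma_out _ hl, X.pr_of_not fun h' => h h'.symm]; rfl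
    · simp [Ma_ne, hl, hm, X.a_zero _ _ _ h]

theorem Md_Mt (i m : I) (w : W I V) :
    X.Md i m (X.Mt i m w) = X.Mt i m (X.Md i m w) + ∑ l, X.Ma i m l (X.Ma i l m w) := by
  by_cases hm : m = i
  · subst hm
    have : ∀ l, X.Ma m m l (X.Ma m l m w) = X.gm m (X.a m l (X.pr m l w.1)) := by
      intro l
      by_cases hl : l = m
      · subst hl; simp [Ma_in, a_self]
      · rw [Ma_out _ hl, Ma_in]; rfl
    simp only [this]
    rw [← map_sum, sum_a_pr, Mt_self, Md_gm, Md_self, Mt_self]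
    simp only [map_add, gm_apply, Prod.mk_add_mk]
    congr 1 <;> char2
  · have : ∀ l, X.Ma i m l (X.Ma i l m w) = inr K2 _ _ (X.a m l (X.a l m w.2)) := by
      intro l
      by_cases hl : l = i
      · subst hl; rw [Ma_in, Ma_out _ hm]; simp
      · simp [Ma_ne, hl, hm]
    simp only [this]
    rw [← map_sum, Mt_ne _ hm, Md_ne _ hm, Md_ne _ hm, Mt_ne _ hm, X.d_t, inr_apply,
      Prod.mk_add_mk, add_zero]

/-- the inverse twist at `i` -/
def Tm (i : I) : DG Γ (W I V) where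
  L := X.ML i
  d := X.Md i
  a := X.Ma i
  t := X.Mt i
  d_mem m k w h := by
    by_cases hm : m = i
    · subst hm
      rw [mem_ML_self] at h ⊢; rw [Md_self]
      exact ⟨dU_mem h.1, by simpa using add_mem (be_mem h.1) (X.d_mem' h.2)⟩
    · rw [mem_ML_ne _ hm] at h ⊢; rw [Md_ne _ hm]; exact ⟨rfl, X.d_mem _ _ _ h.2⟩
  a_mem l m k w h := by
    by_cases hl : l = i
    · subst hl
      rw [mem_ML_self, Ma_in]
      by_cases hm : m = l
      · subst hm; simp [a_self]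
      · rw [mem_ML_ne _ hm] at h
        exact ⟨al_mem (X.a_mem _ _ _ _ h.2), X.t_mem' (X.a_mem _ _ _ _ h.2)⟩
    · rw [mem_ML_ne _ hl]
      by_cases hm : m = i
      · subst hm; rw [mem_ML_self] at h; rw [Ma_out _ hl]
        exact ⟨rfl, pr_mem h.1⟩
      · rw [mem_ML_ne _ hm] at h; rw [Ma_ne _ hl hm]; exact ⟨rfl, X.a_mem _ _ _ _ h.2⟩
  t_mem m k w h := by
    by_cases hm : m = i
    · subst hm
      rw [mem_ML_self] at h ⊢; rw [Mt_self]
      have h2 : w.2 ∈ X.L m k := by simpa using h.2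
      exact ⟨al_mem h2, X.t_mem' h2⟩
    · rw [mem_ML_ne _ hm] at h ⊢; rw [Mt_ne _ hm]; exact ⟨rfl, X.t_mem _ _ _ h.2⟩
  d_d := X.Md_Md i
  d_a := X.Md_Ma i
  a_zero l m w h := X.Ma_zero i l m w h
  d_t := X.Md_Mt i

@[simp] theorem T_L (i : I) : (X.T i).L = X.TL i := rfl
@[simp] theorem T_d (i : I) : (X.T i).d = X.Td i := rfl
@[simp] theorem T_a (i : I) : (X.T i).a = X.Ta i := rfl
@[simp] theorem T_t (i : I) : (X.T i).t = X.Tt i := rfl
@[simp] theorem Tm_L (i : I) : (X.Tm i).L = X.ML i := rfl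
@[simp] theorem Tm_d (i : I) : (X.Tm i).d = X.Md i := rfl
@[simp] theorem Tm_a (i : I) : (X.Tm i).a = X.Ma i := rfl
@[simp] theorem Tm_t (i : I) : (X.Tm i).t = X.Mt i := rfl

end DG

end Crest.R175
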