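import Crest.Agent.R175.DG1

/-! Row 175, part F: the twists preserve strict quasi-isomorphisms. -/

set_option autoImplicit false
set_option linter.unusedSectionVars false

namespace Crest.R175

open Module LinearMap

variable {I : Type} [Fintype I] [DecidableEq I]

namespace DG

variable {Γ : SimpleGraph I} [DecidableRel Γ.Adj]
  {V V' : Type} [AddCommGroup V] [Module K2 V] [AddCommGroup V'] [Module K2 V']
  {X : DG Γ V} {Y : DG Γ V'}

/-- a family of maps acting on families -/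
def dg2_U (f : I → V →ₗ[K2] V') : (I → V) →ₗ[K2] (I → V') :=
  LinearMap.pi fun l => f l ∘ₗ LinearMap.proj l

theorem dg2_U_apply (f : I → V →ₗ[K2] V') (u : I → V) (l : I) : dg2_U f u l = f l (u l) := rfl

/-- the induced map on the twists -/
def dg2_F (f : I → V →ₗ[K2] V') (i m : I) : W I V →ₗ[K2] W I V' :=
  if m = i then (dg2_U f).prodMap (f i) else lst (f m)

theorem dg2_F_self (f : I → V →ₗ[K2] V') (i : I) (w : W I V) :
    dg2_F f i i w = (dg2_U f w.1, f i w.2) := by simp [dg2_F]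

theorem dg2_F_ne (f : I → V →ₗ[K2] V') {i m : I} (h : m ≠ i) (w : W I V) :
    dg2_F f i m w = (0, f m w.2) := by simp [dg2_F, h]

theorem dg2_F_snd (f : I → V →ₗ[K2] V') (i m : I) (w : W I V) : (dg2_F f i m w).2 = f m w.2 := by
  by_cases h : m = i
  · subst h; rw [dg2_F_self]
  · rw [dg2_F_ne f h]

theorem dg2_dU (f : CMap X Y) (u : I → V) : dg2_U f.f (X.dU u) = Y.dU (dg2_U f.f u) :=
  funext fun l => f.f_d l (u l)

theorem dg2_al (f : CMap X Y) (i : I) (v : V) : dg2_U f.f (X.al i v) = Y.al i (f.f i v) :=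
  funext fun l => f.f_a l i v

theorem dg2_be (f : CMap X Y) (i : I) (u : I → V) :
    f.f i (X.be i u) = Y.be i (dg2_U f.f u) := by
  rw [be_apply, be_apply, map_sum]
  exact Finset.sum_congr rfl fun l _ => f.f_a i l (u l)

theorem dg2_de (f : CMap X Y) (i m : I) (v : V) :
    dg2_U f.f (X.de i m v) = Y.de i m (f.f m v) := by
  funext l
  rw [dg2_U_apply, de_apply, de_apply]
  split_ifs with h
  · rw [h.2]
  · exact map_zero _

theorem dg2_pr (f : CMap X Y) (i m : I) (u : I → V) :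
    f.f m (X.pr i m u) = Y.pr i m (dg2_U f.f u) := by
  rw [pr_apply, pr_apply]
  split_ifs
  · rfl
  · exact map_zero _

theorem dg2_mem (f : CMap X Y) {i : I} {k : ℤ} {u : I → V} (h : u ∈ X.UL i k) :
    dg2_U f.f u ∈ Y.UL i k :=
  ⟨fun l => f.mem l k _ (h.1 l), fun l hl => by rw [dg2_U_apply, h.2 l hl, map_zero]⟩

theorem dg2_qis {f : I → V →ₗ[K2] V'} (hf : Qis X Y f) (i : I) :
    QisAt (X.UL i) X.dU (Y.UL i) Y.dU (dg2_U f) := by
  intro k u u' hu hu' h1 h2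
  have key : ∀ l, ∃ x0 ∈ X.L l k, ∃ y0 ∈ Y.L l (k - 1), X.d l x0 = u l ∧
      u' l = f l x0 + Y.d l y0 ∧ (¬ Γ.Adj i l → x0 = 0 ∧ y0 = 0) := by
    intro l
    by_cases hl : Γ.Adj i l
    · obtain ⟨x0, hx0, y0, hy0, e1, e2⟩ :=
        hf l k (u l) (u' l) (hu.1 l) (hu'.1 l) (congrFun h1 l) (congrFun h2 l)
      exact ⟨x0, hx0, y0, hy0, e1, e2, fun h => absurd hl h⟩
    · refine ⟨0, zero_mem _, 0, zero_mem _, ?_, ?_, fun _ => ⟨rfl, rfl⟩⟩
      · rw [map_zero, hu.2 l hl]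
      · rw [map_zero, map_zero, add_zero, hu'.2 l hl]
  choose x0 hx0 y0 hy0 e1 e2 e3 using key
  exact ⟨x0, ⟨hx0, fun l hl => (e3 l hl).1⟩, y0, ⟨hy0, fun l hl => (e3 l hl).2⟩, funext e1,
    funext e2⟩

theorem dg2_lst {L : ℤ → Submodule K2 V} {d : V →ₗ[K2] V} {L' : ℤ → Submodule K2 V'}
    {d' : V' →ₗ[K2] V'} {f : V →ₗ[K2] V'} (h : QisAt L d L' d' f)
    {P : ℤ → Submodule K2 (W I V)} {D : W I V →ₗ[K2] W I V} {P' : ℤ → Submodule K2 (W I V')}
    {D' : W I V' →ₗ[K2] W I V'} {F : W I V →ₗ[K2] W I V'}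
    (hP : ∀ k w, w ∈ P k ↔ w.1 = 0 ∧ w.2 ∈ L k) (hP' : ∀ k w, w ∈ P' k ↔ w.1 = 0 ∧ w.2 ∈ L' k)
    (hD : ∀ w, D w = (0, d w.2)) (hD' : ∀ w, D' w = (0, d' w.2)) (hF : ∀ w, F w = (0, f w.2)) :
    QisAt P D P' D' F := by
  rintro k ⟨u, x⟩ ⟨u', y⟩ hx hy h1 h2
  rw [hP] at hx
  rw [hP'] at hy
  rw [hD] at h1
  rw [hD', hF] at h2
  obtain ⟨x0, hx0, y0, hy0, e1, e2⟩ :=
    h k x y hx.2 hy.2 (congrArg Prod.snd h1) (congrArg Prod.snd h2)
  refine ⟨(0, x0), (hP _ _).2 ⟨rfl, hx0⟩, (0, y0), (hP' _ _).2 ⟨rfl, hy0⟩, ?_, ?_⟩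
  · rw [hD]
    exact Prod.ext hx.1.symm e1
  · rw [hD', hF]
    exact Prod.ext (hy.1.trans (add_zero _).symm) e2

/-- Take `(T f) i (u, x) = (fun l => f l (u l), f i x)` and `(T f) m = lst (f m)` for `m ≠ i`
(all identities hold globally; use `Td_self, Td_ne, Ta_in, Ta_out, Ta_ne, Tt_self, Tt_ne`).
`QisAt` at `i`: given the cycle `(u,x)` and `(u',y)` with `d (u',y) = f (u,x)`, apply `Qis` at `i`
(degree `k+1`) to `(x,y)`, getting `x0,y0`; then for every `l` adjacent to `i` apply `Qis` at `l` to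
`(u l + a l i x0, u' l + a l i y0)`, getting `u0 l, u0' l` (take `0` for `l` not adjacent);
the answer is `(u0,x0), (u0',y0)`. -/
theorem Rel.T (h : Rel X Y) (i : I) : Rel (X.T i) (Y.T i) := by
  obtain ⟨f, hf⟩ := h
  refine ⟨⟨⟨dg2_F f.f i, fun m k w hw => ?_, fun m w => ?_, fun l m w => ?_⟩, fun m w => ?_⟩,
    fun m => ?_⟩
  · by_cases hm : m = i
    · subst hm
      rw [T_L, mem_TL_self] at hw ⊢
      rw [dg2_F_self]
      exact ⟨dg2_mem _ hw.1, f.mem _ _ _ hw.2⟩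
    · rw [T_L, mem_TL_ne _ hm] at hw ⊢
      rw [dg2_F_ne _ hm]
      exact ⟨rfl, f.mem _ _ _ hw.2⟩
  · by_cases hm : m = i
    · subst hm
      simp only [T_d, Td_self, dg2_F_self, map_add, dg2_dU, dg2_al, f.f_d]
    · simp only [T_d, Td_ne _ hm, dg2_F_ne _ hm, f.f_d]
  · by_cases hl : l = i
    · subst hl
      simp only [T_a, Ta_in, dg2_F_self, dg2_F_snd, dg2_de, map_zero]
    · by_cases hm : m = i
      · subst hm
        simp only [T_a, Ta_out _ hl, dg2_F_self, dg2_F_ne _ hl, f.f_a, map_add, dg2_be, f.f_t]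
      · simp only [T_a, Ta_ne _ hl hm, dg2_F_ne _ hl, dg2_F_ne _ hm, f.f_a]
  · by_cases hm : m = i
    · subst hm
      simp only [T_t, Tt_self, dg2_F_self, map_add, map_zero, dg2_be, f.f_t]
    · simp only [T_t, Tt_ne _ hm, dg2_F_ne _ hm, f.f_t]
  · change QisAt (X.TL i m) (X.Td i m) (Y.TL i m) (Y.Td i m) (dg2_F f.f i m)
    by_cases hm : m = i
    · subst hm
      rintro k ⟨u, x⟩ ⟨u', y⟩ hx hy h1 h2
      rw [mem_TL_self] at hx hy
      rw [Td_self] at h1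
      rw [Td_self, dg2_F_self] at h2
      have a1 : X.dU u + X.al m x = 0 := congrArg Prod.fst h1
      have a2 : Y.dU u' + Y.al m y = dg2_U f.f u := congrArg Prod.fst h2
      obtain ⟨x0, hx0, y0, hy0, e1, e2⟩ :=
        hf m (k + 1) x y hx.2 hy.2 (congrArg Prod.snd h1) (congrArg Prod.snd h2)
      rw [add_sub_cancel_right] at hy0
      obtain ⟨u0, hu0, u0', hu0', e3, e4⟩ := dg2_qis hf m k (u + X.al m x0) (u' + Y.al m y0)
        (add_mem hx.1 (al_mem hx0)) (add_mem hy.1 (al_mem hy0))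
        (by rw [map_add, dU_al, e1, a1])
        (by
          rw [map_add, map_add, dU_al, dg2_al, ← a2, e2, map_add]
          char2)
      refine ⟨(u0, x0), (X.mem_TL_self).2 ⟨hu0, hx0⟩, (u0', y0),
        (Y.mem_TL_self).2 ⟨hu0', by rwa [sub_add_cancel]⟩, ?_, ?_⟩
      · rw [Td_self]
        refine Prod.ext ?_ e1
        change X.dU u0 + X.al m x0 = u
        rw [e3]
        char2
      · rw [Td_self, dg2_F_self]
        refine Prod.ext ?_ e2
        exact (k2_eq_add e4).trans (add_assoc _ _ _)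
    · exact dg2_lst (hf m) (fun _ _ => X.mem_TL_ne hm) (fun _ _ => Y.mem_TL_ne hm) (X.Td_ne hm)
        (Y.Td_ne hm) (dg2_F_ne _ hm)

/-- Same maps as for `Rel.T`.  `QisAt` at `i`: first apply `Qis` at every neighbour `l` to
`(u l, u' l)`, getting `u0, u0'`; then at `i` (degree `k-1`) to `(x + β u0, y + β u0')`. -/
theorem Rel.Tm (h : Rel X Y) (i : I) : Rel (X.Tm i) (Y.Tm i) := by
  obtain ⟨f, hf⟩ := h
  refine ⟨⟨⟨dg2_F f.f i, fun m k w hw => ?_, fun m w => ?_, fun l m w => ?_⟩, fun m w => ?_⟩,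
    fun m => ?_⟩
  · by_cases hm : m = i
    · subst hm
      rw [Tm_L, mem_ML_self] at hw ⊢
      rw [dg2_F_self]
      exact ⟨dg2_mem _ hw.1, f.mem _ _ _ hw.2⟩
    · rw [Tm_L, mem_ML_ne _ hm] at hw ⊢
      rw [dg2_F_ne _ hm]
      exact ⟨rfl, f.mem _ _ _ hw.2⟩
  · by_cases hm : m = i
    · subst hm
      simp only [Tm_d, Md_self, dg2_F_self, map_add, dg2_dU, dg2_be, f.f_d]
    · simp only [Tm_d, Md_ne _ hm, dg2_F_ne _ hm, f.f_d]
  · by_cases hl : l = i
    · subst hl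
      simp only [Tm_a, Ma_in, dg2_F_self, dg2_F_snd, dg2_al, f.f_a, f.f_t]
    · by_cases hm : m = i
      · subst hm
        simp only [Tm_a, Ma_out _ hl, dg2_F_self, dg2_F_ne _ hl, dg2_pr]
      · simp only [Tm_a, Ma_ne _ hl hm, dg2_F_ne _ hl, dg2_F_ne _ hm, f.f_a]
  · by_cases hm : m = i
    · subst hm
      simp only [Tm_t, Mt_self, dg2_F_self, dg2_al, f.f_t]
    · simp only [Tm_t, Mt_ne _ hm, dg2_F_ne _ hm, f.f_t]
  · change QisAt (X.ML i m) (X.Md i m) (Y.ML i m) (Y.Md i m) (dg2_F f.f i m)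
    by_cases hm : m = i
    · subst hm
      rintro k ⟨u, x⟩ ⟨u', y⟩ hx hy h1 h2
      rw [mem_ML_self] at hx hy
      rw [Md_self] at h1
      rw [Md_self, dg2_F_self] at h2
      have a1 : X.be m u + X.d m x = 0 := congrArg Prod.snd h1
      have a2 : Y.be m u' + Y.d m y = f.f m x := congrArg Prod.snd h2
      have hx2 : x ∈ X.L m k := by simpa using hx.2
      obtain ⟨u0, hu0, u0', hu0', e3, e4⟩ :=
        dg2_qis hf m k u u' hx.1 hy.1 (congrArg Prod.fst h1) (congrArg Prod.fst h2)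
      obtain ⟨x0, hx0, y0, hy0, e1, e2⟩ := hf m (k - 1) (x + X.be m u0) (y + Y.be m u0')
        (by rw [sub_add_cancel]; exact add_mem hx2 (be_mem hu0)) (add_mem hy.2 (be_mem hu0'))
        (by rw [map_add, d_be, e3, add_comm, a1])
        (by
          rw [map_add, map_add, d_be, dg2_be, ← a2, e4, map_add]
          char2)
      refine ⟨(u0, x0), (X.mem_ML_self).2 ⟨hu0, hx0⟩, (u0', y0),
        (Y.mem_ML_self).2 ⟨hu0', hy0⟩, ?_, ?_⟩
      · rw [Md_self]
        refine Prod.ext e3 ?_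
        change X.be m u0 + X.d m x0 = x
        rw [e1]
        char2
      · rw [Md_self, dg2_F_self]
        refine Prod.ext e4 ?_
        change y = f.f m x0 + (Y.be m u0' + Y.d m y0)
        rw [k2_eq_add e2]
        abel
    · exact dg2_lst (hf m) (fun _ _ => X.mem_ML_ne hm) (fun _ _ => Y.mem_ML_ne hm) (X.Md_ne hm)
        (Y.Md_ne hm) (dg2_F_ne _ hm)

end DG

end Crest.R175
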