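import Crest.Agent.R175.DG1

/-! Row 175, part F: `T` and `Tm` are inverse; commuting twists. -/

set_option autoImplicit false
set_option linter.unusedSectionVars false

namespace Crest.R175

open Module LinearMap

variable {I : Type} [Fintype I] [DecidableEq I]

namespace DG

variable {Γ : SimpleGraph I} [DecidableRel Γ.Adj]
  {V V' : Type} [AddCommGroup V] [Module K2 V] [AddCommGroup V'] [Module K2 V']
  (X : DG Γ V)

/-- put a family in the last slots, killing the component `i` -/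
def dg3_up (i : I) : (I → V) →ₗ[K2] (I → W I V) :=
  LinearMap.pi fun l => if l = i then 0 else inr K2 _ _ ∘ₗ LinearMap.proj l

/-- the last slots of a family -/
def dg3_dn : (I → W I V) →ₗ[K2] (I → V) := LinearMap.pi fun l => snd K2 _ _ ∘ₗ LinearMap.proj l

/-- projection to the neighbours of `i` -/
def dg3_nb (i : I) : (I → V) →ₗ[K2] (I → V) := ∑ l, X.de i l ∘ₗ LinearMap.proj l

theorem dg3_up_apply (i : I) (u : I → V) (l : I) :
    dg3_up i u l = if l = i then 0 else (0, u l) := by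
  unfold dg3_up; by_cases h : l = i <;> simp [h]

@[simp] theorem dg3_dn_apply (u : I → W I V) (l : I) : dg3_dn u l = (u l).2 := rfl

theorem dg3_nb_sum (i : I) (u : I → V) : dg3_nb X i u = ∑ l, X.de i l (u l) := by
  simp [dg3_nb, LinearMap.sum_apply]

theorem dg3_nb_apply (i : I) (u : I → V) (l : I) :
    dg3_nb X i u l = if Γ.Adj i l then u l else 0 := by
  rw [dg3_nb_sum, Finset.sum_apply, Finset.sum_eq_single l]
  · simp [de_apply]
  · intro m _ hm; simp [de_apply, Ne.symm hm]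
  · simp

theorem dg3_nb_of_mem {i : I} {k : ℤ} {u : I → V} (h : u ∈ X.UL i k) : dg3_nb X i u = u := by
  funext l
  rw [dg3_nb_apply]
  split_ifs with hl
  · rfl
  · exact (h.2 l hl).symm

theorem dg3_nb_al (i : I) (v : V) : dg3_nb X i (X.al i v) = X.al i v := by
  rw [dg3_nb_sum]; exact X.sum_de_a i v

theorem dg3_dn_up {i : I} {u : I → V} (h : u i = 0) : dg3_dn (dg3_up i u) = u := by
  funext l
  rw [dg3_dn_apply, dg3_up_apply]
  split_ifs with hl
  · rw [hl, h]; rfl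
  · rfl

theorem dg3_dn_up_al (i : I) (v : V) : dg3_dn (dg3_up i (X.al i v)) = X.al i v :=
  dg3_dn_up (X.a_self i v)

theorem dg3_up_mem_T (i : I) {j : I} {k : ℤ} {u : I → V} (h : u ∈ X.UL j k) :
    dg3_up i u ∈ (X.T i).UL j k := by
  refine ⟨fun l => ?_, fun l hl => ?_⟩ <;> rw [dg3_up_apply] <;> split_ifs with h'
  · exact zero_mem _
  · rw [T_L, mem_TL_ne _ h']; exact ⟨rfl, h.1 l⟩
  · rfl
  · rw [h.2 l hl]; rfl

theorem dg3_dn_mem_T {i j : I} {k : ℤ} {u : I → W I V} (h : u ∈ (X.T i).UL j k)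
    (hij : ¬ Γ.Adj j i) : dg3_dn u ∈ X.UL j k := by
  refine ⟨fun l => ?_, fun l hl => by rw [dg3_dn_apply, h.2 l hl]; rfl⟩
  rw [dg3_dn_apply]
  by_cases hl : l = i
  · rw [hl, h.2 i hij]; exact zero_mem _
  · exact ((X.mem_TL_ne hl).1 (h.1 l)).2

theorem dg3_up_dn_T {i j : I} {k : ℤ} {u : I → W I V} (h : u ∈ (X.T i).UL j k)
    (hij : ¬ Γ.Adj j i) : dg3_up i (dg3_dn u) = u := by
  funext l
  rw [dg3_up_apply]
  split_ifs with hl
  · rw [hl, h.2 i hij]
  · exact Prod.ext ((X.mem_TL_ne hl).1 (h.1 l)).1.symm rfl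

theorem dg3_T_be (i : I) (u : I → W I V) : (X.T i).be i u = (dg3_nb X i (dg3_dn u), 0) := by
  rw [be_apply, dg3_nb_sum]
  simp only [T_a, Ta_in, dg3_dn_apply]
  ext <;> simp [Prod.fst_sum, Prod.snd_sum]

theorem dg3_T_be_ne {i j : I} (hij : j ≠ i) (h : ¬ Γ.Adj j i) (u : I → W I V) :
    (X.T i).be j u = (0, X.be j (dg3_dn u)) := by
  have : ∀ l, (X.T i).a j l (u l) = inr K2 _ _ (X.a j l (dg3_dn u l)) := by
    intro l
    by_cases hl : l = i
    · subst hl; rw [(X.T l).a_zero _ _ _ h, X.a_zero _ _ _ h, map_zero]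
    · rw [T_a, Ta_ne _ hij hl]; rfl
  rw [be_apply, be_apply]
  simp only [this]
  rw [← map_sum]; rfl

theorem dg3_T_al (i : I) (w : W I V) :
    (X.T i).al i w = dg3_up i (X.al i (X.be i w.1 + X.t i w.2)) := by
  funext l
  rw [al_apply, dg3_up_apply]
  split_ifs with hl
  · rw [hl, a_self]
  · rw [T_a, Ta_out _ hl]; rfl

theorem dg3_T_al_ne {i j : I} (hij : j ≠ i) (h : ¬ Γ.Adj i j) (w : W I V) :
    (X.T i).al j w = dg3_up i (X.al j w.2) := by
  funext l
  rw [al_apply, dg3_up_apply]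
  split_ifs with hl
  · rw [hl, (X.T i).a_zero _ _ _ h]
  · rw [T_a, Ta_ne _ hl hij]; rfl

theorem dg3_T_dU_up (i : I) (u : I → V) : (X.T i).dU (dg3_up i u) = dg3_up i (X.dU u) := by
  funext l
  rw [dU_apply, dg3_up_apply, dg3_up_apply]
  split_ifs with hl
  · exact map_zero _
  · rw [T_d, Td_ne _ hl]; rfl

theorem dg3_dn_T_dU (i : I) (u : I → W I V) : dg3_dn ((X.T i).dU u) = X.dU (dg3_dn u) := by
  funext l
  rw [dg3_dn_apply, dU_apply, T_d]
  by_cases hl : l = i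
  · subst hl; rw [Td_self]; rfl
  · rw [Td_ne _ hl]; rfl

theorem dg3_be_congr {i : I} {u u' : I → V} (h : ∀ l, Γ.Adj i l → u l = u' l) :
    X.be i u = X.be i u' := by
  rw [be_apply, be_apply]
  refine Finset.sum_congr rfl fun l _ => ?_
  by_cases hl : Γ.Adj i l
  · rw [h l hl]
  · rw [X.a_zero _ _ _ hl, X.a_zero _ _ _ hl]

theorem dg3_be_dn_up {i j : I} (h : ¬ Γ.Adj j i) (u : I → V) :
    X.be j (dg3_dn (dg3_up i u)) = X.be j u := by
  refine dg3_be_congr X fun l hl => ?_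
  have : l ≠ i := fun e => h (e ▸ hl)
  rw [dg3_dn_apply, dg3_up_apply, if_neg this]

theorem dg3_dn_de {V'' : Type} [AddCommGroup V''] [Module K2 V''] (X' : DG Γ V'')
    (Y : DG Γ (W I V'')) (i m : I) (w : W I V'') : dg3_dn (Y.de i m w) = X'.de i m w.2 := by
  funext l
  rw [dg3_dn_apply, de_apply, de_apply]
  split_ifs <;> rfl

/-- the map `X → T⁻ T X` -/
def dg3_f1 (i m : I) : V →ₗ[K2] W I (W I V) :=
  if m = i then (dg3_up i ∘ₗ X.al i).prod (inr K2 _ _) else inr K2 _ _ ∘ₗ inr K2 _ _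

theorem dg3_f1_self (i : I) (v : V) : dg3_f1 X i i v = (dg3_up i (X.al i v), (0, v)) := by
  simp [dg3_f1]

theorem dg3_f1_ne {i m : I} (h : m ≠ i) (v : V) : dg3_f1 X i m v = (0, (0, v)) := by
  simp [dg3_f1, h]

theorem dg3_f1_snd (i m : I) (v : V) : (dg3_f1 X i m v).2 = (0, v) := by
  by_cases h : m = i
  · subst h; rw [dg3_f1_self]
  · rw [dg3_f1_ne _ h]

/-- `f i v = (fun l => (0, a l i v), (0, v))`, `f m v = (0, (0, v))` for `m ≠ i`; all identities are
global.  At `i` use `QisAt.of_sec` with `g (u', (u, x)) = x`, `h (u', (u, x)) = (fun l => (0, u l), 0)`;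
at `m ≠ i` use `QisAt.of_iso` with `g w = w.2.2`. -/
theorem rel_Tm_T (i : I) : Rel X ((X.T i).Tm i) := by
  refine ⟨⟨⟨dg3_f1 X i, ?_, ?_, ?_⟩, ?_⟩, ?_⟩
  · intro m k v h
    by_cases hm : m = i
    · subst hm
      rw [Tm_L, mem_ML_self, dg3_f1_self, T_L, mem_TL_self]
      exact ⟨dg3_up_mem_T X m (al_mem h), zero_mem _, by simpa using h⟩
    · rw [Tm_L, mem_ML_ne _ hm, dg3_f1_ne _ hm, T_L, mem_TL_ne _ hm]
      exact ⟨rfl, rfl, h⟩
  · intro m v
    by_cases hm : m = i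
    · subst hm
      rw [Tm_d, Md_self, dg3_f1_self, dg3_f1_self, dg3_T_dU_up, dg3_T_be, dg3_dn_up_al, dg3_nb_al,
        T_d, Td_self, dU_al]
      simp [k2_add_self]
    · rw [Tm_d, Md_ne _ hm, dg3_f1_ne _ hm, dg3_f1_ne _ hm, T_d, Td_ne _ hm]
  · intro l m v
    by_cases hl : l = i
    · subst hl
      rw [Tm_a, Ma_in, dg3_f1_self, dg3_f1_snd, T_a, Ta_in, dg3_T_al, T_t, Tt_self]
      simp
    · by_cases hm : m = i
      · subst hm
        rw [Tm_a, Ma_out _ hl, dg3_f1_self, dg3_f1_ne _ hl, pr_apply]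
        by_cases ha : Γ.Adj m l
        · simp [ha, dg3_up_apply, hl]
        · simp [ha, X.a_zero l m v fun h => ha h.symm]
      · rw [Tm_a, Ma_ne _ hl hm, dg3_f1_ne _ hl, dg3_f1_ne _ hm, T_a, Ta_ne _ hl hm]
  · intro m v
    by_cases hm : m = i
    · subst hm
      rw [Tm_t, Mt_self, dg3_f1_self, dg3_f1_self, dg3_T_al, T_t, Tt_self]
      simp
    · rw [Tm_t, Mt_ne _ hm, dg3_f1_ne _ hm, dg3_f1_ne _ hm, T_t, Tt_ne _ hm]
  · intro m
    by_cases hm : m = i
    · subst hm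
      refine QisAt.of_sec (fun w => w.2.2) (fun w => (dg3_up m w.2.1, 0)) ?_ ?_ ?_ ?_ ?_ ?_
      · intro k y hy
        rw [Tm_L, mem_ML_self, T_L, mem_TL_self] at hy
        simpa using hy.2.2
      · intro k y hy
        rw [Tm_L, mem_ML_self, T_L, mem_TL_self] at hy
        rw [Tm_L, mem_ML_self]
        exact ⟨dg3_up_mem_T X m hy.2.1, zero_mem _⟩
      · intro k y _
        simp only [Tm_d, Md_self, dg3_T_be, T_d, Td_self]
        simp
      · intro k x _
        simp only [dg3_f1_self]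
      · intro k x _
        simp [dg3_f1_self]
      · rintro k ⟨u', u, x⟩ hy
        rw [Tm_L, mem_ML_self, T_L, mem_TL_self] at hy
        have e1 : dg3_up m (dg3_dn u') = u' := dg3_up_dn_T X hy.1 (Γ.loopless.irrefl m)
        have e2 : dg3_dn (dg3_up m u) = u := dg3_dn_up (hy.2.1.2 m (Γ.loopless.irrefl m))
        simp only [dg3_f1_self, Tm_d, Md_self, dg3_T_be, T_d, Td_self, dg3_T_dU_up, e2,
          dg3_nb_of_mem X hy.2.1, dg3_nb_of_mem X (dg3_dn_mem_T X hy.1 (Γ.loopless.irrefl m)),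
          Prod.mk_add_mk, map_add, e1, map_zero, add_zero, zero_add, k2_add_self, Prod.fst_zero,
          Prod.snd_zero]
        congr 1
        char2
    · refine QisAt.of_iso (fun w => w.2.2) ?_ ?_ ?_ ?_
      · intro k y hy
        rw [Tm_L, mem_ML_ne _ hm, T_L, mem_TL_ne _ hm] at hy
        exact hy.2.2
      · intro k y _
        simp only [Tm_d, Md_ne _ hm, T_d, Td_ne _ hm]
      · intro k x _
        simp only [dg3_f1_ne _ hm]
      · rintro k ⟨u', u, x⟩ hy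
        rw [Tm_L, mem_ML_ne _ hm, T_L, mem_TL_ne _ hm] at hy
        obtain ⟨h1, h2, -⟩ := hy
        simp only at h1 h2
        simp only [dg3_f1_ne _ hm, h1, h2]

theorem dg3_dn_mem_M {i : I} {k : ℤ} {u : I → W I V} (h : u ∈ (X.Tm i).UL i k) :
    dg3_dn u ∈ X.UL i k := by
  refine ⟨fun l => ?_, fun l hl => by rw [dg3_dn_apply, h.2 l hl]; rfl⟩
  rw [dg3_dn_apply]
  by_cases hl : l = i
  · rw [hl, h.2 i (Γ.loopless.irrefl i)]; exact zero_mem _
  · exact ((X.mem_ML_ne hl).1 (h.1 l)).2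

theorem dg3_up_dn_M {i : I} {k : ℤ} {u : I → W I V} (h : u ∈ (X.Tm i).UL i k) :
    dg3_up i (dg3_dn u) = u := by
  funext l
  rw [dg3_up_apply]
  split_ifs with hl
  · rw [hl, h.2 i (Γ.loopless.irrefl i)]
  · exact Prod.ext ((X.mem_ML_ne hl).1 (h.1 l)).1.symm rfl

theorem dg3_M_be (i : I) (u : I → W I V) :
    (X.Tm i).be i u = (X.al i (X.be i (dg3_dn u)), X.t i (X.be i (dg3_dn u))) := by
  have : ∀ l, (X.Tm i).a i l (u l) = X.gm i (X.a i l (dg3_dn u l)) := by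
    intro l; rw [Tm_a, Ma_in]; rfl
  rw [be_apply]
  simp only [this]
  rw [← map_sum, ← be_apply]; rfl

theorem dg3_M_al (i : I) (w : W I V) : (X.Tm i).al i w = dg3_up i (dg3_nb X i w.1) := by
  funext l
  rw [al_apply, dg3_up_apply]
  split_ifs with hl
  · rw [hl, a_self]
  · rw [Tm_a, Ma_out _ hl, pr_apply, dg3_nb_apply]

theorem dg3_dn_M_al (i : I) (w : W I V) : dg3_dn ((X.Tm i).al i w) = dg3_nb X i w.1 := by
  rw [dg3_M_al, dg3_dn_up]
  rw [dg3_nb_apply, if_neg (Γ.loopless.irrefl i)]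

theorem dg3_be_dn_M_dU (i : I) (u : I → W I V) :
    X.be i (dg3_dn ((X.Tm i).dU u)) = X.be i (X.dU (dg3_dn u)) := by
  refine dg3_be_congr X fun l hl => ?_
  rw [dg3_dn_apply, dU_apply, Tm_d, Md_ne _ hl.ne']; rfl

/-- the map `T T⁻ X → X` -/
def dg3_f2 (i m : I) : W I (W I V) →ₗ[K2] V :=
  if m = i then snd K2 _ _ ∘ₗ snd K2 _ _ + X.be i ∘ₗ dg3_dn ∘ₗ fst K2 _ _
  else snd K2 _ _ ∘ₗ snd K2 _ _

theorem dg3_f2_self (i : I) (w : W I (W I V)) :
    dg3_f2 X i i w = w.2.2 + X.be i (dg3_dn w.1) := by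
  simp [dg3_f2]

theorem dg3_f2_ne {i m : I} (h : m ≠ i) (w : W I (W I V)) : dg3_f2 X i m w = w.2.2 := by
  simp [dg3_f2, h]

/-- `f i (u', (u, x)) = x + β (fun l => (u' l).2)`, `f m w = w.2.2` for `m ≠ i`.  At `i` use
`QisAt.of_ret` with `g v = (0, (0, v))`, `h (u', (u, x)) = (0, (fun l => (u' l).2, 0))`;
at `m ≠ i` use `QisAt.of_iso` with `g v = (0, (0, v))`. -/
theorem rel_T_Tm (i : I) : Rel ((X.Tm i).T i) X := by
  refine ⟨⟨⟨dg3_f2 X i, ?_, ?_, ?_⟩, ?_⟩, ?_⟩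
  · intro m k w h
    by_cases hm : m = i
    · subst hm
      rw [T_L, mem_TL_self, Tm_L, mem_ML_self] at h
      rw [dg3_f2_self]
      exact add_mem (by simpa using h.2.2) (be_mem (dg3_dn_mem_M X h.1))
    · rw [T_L, mem_TL_ne _ hm, Tm_L, mem_ML_ne _ hm] at h
      rw [dg3_f2_ne _ hm]
      exact h.2.2
  · intro m w
    by_cases hm : m = i
    · subst hm
      rw [T_d, Td_self, dg3_f2_self, dg3_f2_self, Tm_d, Md_self]
      simp only [map_add, dg3_be_dn_M_dU, dg3_dn_M_al, d_be]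
      rw [dg3_be_congr X (u := dg3_nb X m w.2.1) (u' := w.2.1)
        (fun l hl => by rw [dg3_nb_apply, if_pos hl])]
      char2
    · rw [T_d, Td_ne _ hm, dg3_f2_ne _ hm, dg3_f2_ne _ hm, Tm_d, Md_ne _ hm]
  · intro l m w
    by_cases hl : l = i
    · subst hl
      rw [T_a, Ta_in, dg3_f2_self, dg3_dn_de X, be_de]
      by_cases hm : m = l
      · subst hm; simp [a_self]
      · simp [dg3_f2_ne _ hm]
    · by_cases hm : m = i
      · subst hm
        rw [T_a, Ta_out _ hl, dg3_f2_self, dg3_f2_ne _ hl, dg3_M_be, Tm_a, Ma_out _ hl, Tm_t,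
          Mt_self]
        simp [add_comm]
      · rw [T_a, Ta_ne _ hl hm, dg3_f2_ne _ hl, dg3_f2_ne _ hm, Tm_a, Ma_ne _ hl hm]
  · intro m w
    by_cases hm : m = i
    · subst hm
      rw [T_t, Tt_self, dg3_f2_self, dg3_f2_self, dg3_M_be, Tm_t, Mt_self]
      simp [add_comm]
    · rw [T_t, Tt_ne _ hm, dg3_f2_ne _ hm, dg3_f2_ne _ hm, Tm_t, Mt_ne _ hm]
  · intro m
    by_cases hm : m = i
    · subst hm
      refine QisAt.of_ret (fun v => (0, (0, v))) (fun w => (0, (dg3_dn w.1, 0))) ?_ ?_ ?_ ?_ ?_ ?_ ?_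
      · intro k y hy
        rw [T_L, mem_TL_self, Tm_L, mem_ML_self]
        exact ⟨zero_mem _, zero_mem _, by simpa using hy⟩
      · intro k x hx
        rw [T_L, mem_TL_self] at hx
        rw [T_L, mem_TL_self, Tm_L, mem_ML_self]
        exact ⟨zero_mem _, dg3_dn_mem_M X hx.1, zero_mem _⟩
      · intro k y _
        simp only [T_d, Td_self, Tm_d, Md_self, dg3_M_al]
        simp
      · intro k x _
        simp [dg3_f2_self]
      · intro k x _
        simp [dg3_f2_self]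
      · simp
      · rintro k ⟨u', u, x⟩ hy
        rw [T_L, mem_TL_self, Tm_L, mem_ML_self] at hy
        have e0 := dg3_dn_mem_M X hy.1
        have e1 : dg3_up m (dg3_dn u') = u' := dg3_up_dn_M X hy.1
        have e2 : dg3_dn (dg3_up m u) = u := dg3_dn_up (hy.2.1.2 m (Γ.loopless.irrefl m))
        have e3 : dg3_dn ((X.Tm m).dU u') = X.dU (dg3_dn u') := by
          funext l
          rw [dg3_dn_apply, dU_apply, Tm_d]
          by_cases hl : l = m
          · subst hl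
            have e4 : u' l = 0 := hy.1.2 l (Γ.loopless.irrefl l)
            simp [e4]
          · rw [Md_ne _ hl]; rfl
        simp only [dg3_f2_self, T_d, Td_self, Tm_d, Md_self, dg3_M_al, e3,
          dg3_nb_of_mem X hy.2.1, dg3_nb_of_mem X e0, e1, e2,
          Prod.mk_add_mk, map_add, map_zero, add_zero, zero_add]
        congr 2 <;> char2
    · refine QisAt.of_iso (fun v => (0, (0, v))) ?_ ?_ ?_ ?_
      · intro k y hy
        rw [T_L, mem_TL_ne _ hm, Tm_L, mem_ML_ne _ hm]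
        exact ⟨rfl, rfl, hy⟩
      · intro k y _
        simp only [Tm_d, Md_ne _ hm, T_d, Td_ne _ hm]
      · rintro k ⟨u', u, x⟩ hy
        rw [T_L, mem_TL_ne _ hm, Tm_L, mem_ML_ne _ hm] at hy
        obtain ⟨h1, h2, -⟩ := hy
        simp only at h1 h2
        simp only [dg3_f2_ne _ hm, h1, h2]
      · intro k x _
        simp only [dg3_f2_ne _ hm]

/-- the swap -/
def dg3_f3 (i j m : I) : W I (W I V) →ₗ[K2] W I (W I V) :=
  if m = i then inr K2 _ _ ∘ₗ (dg3_dn ∘ₗ fst K2 _ _).prod (snd K2 _ _ ∘ₗ snd K2 _ _)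
  else if m = j then (dg3_up i ∘ₗ fst K2 _ _ ∘ₗ snd K2 _ _).prod
    (inr K2 _ _ ∘ₗ snd K2 _ _ ∘ₗ snd K2 _ _)
  else inr K2 _ _ ∘ₗ inr K2 _ _ ∘ₗ snd K2 _ _ ∘ₗ snd K2 _ _

theorem dg3_f3_fst (i j : I) (w : W I (W I V)) :
    dg3_f3 i j i w = (0, (dg3_dn w.1, w.2.2)) := by
  simp [dg3_f3]

theorem dg3_f3_snd {i j : I} (h : i ≠ j) (w : W I (W I V)) :
    dg3_f3 i j j w = (dg3_up i w.2.1, (0, w.2.2)) := by
  simp [dg3_f3, h.symm]

theorem dg3_f3_ne {i j m : I} (h : m ≠ i) (h' : m ≠ j) (w : W I (W I V)) :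
    dg3_f3 i j m w = (0, (0, w.2.2)) := by
  simp [dg3_f3, h, h']

theorem dg3_f3_last (i j m : I) (w : W I (W I V)) : (dg3_f3 i j m w).2.2 = w.2.2 := by
  by_cases h : m = i
  · rw [h, dg3_f3_fst]
  · by_cases h' : m = j
    · rw [h', dg3_f3_snd (fun e => h (h'.trans e.symm))]
    · rw [dg3_f3_ne h h']

theorem dg3_f3_mem {i j : I} (hij : i ≠ j) (h : ¬ Γ.Adj i j) (m : I) (k : ℤ) (w : W I (W I V))
    (hw : w ∈ ((X.T j).T i).L m k) : dg3_f3 i j m w ∈ ((X.T i).T j).L m k := by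
  by_cases hm : m = i
  · subst hm
    rw [T_L, mem_TL_self, T_L, mem_TL_ne _ hij] at hw
    rw [dg3_f3_fst, T_L, mem_TL_ne _ hij, T_L, mem_TL_self]
    exact ⟨rfl, dg3_dn_mem_T X hw.1 h, hw.2.2⟩
  · rw [T_L, mem_TL_ne _ hm, T_L] at hw
    by_cases hmj : m = j
    · subst hmj
      rw [mem_TL_self] at hw
      rw [dg3_f3_snd hij, T_L, mem_TL_self, T_L, mem_TL_ne _ hm]
      exact ⟨dg3_up_mem_T X i hw.2.1, rfl, hw.2.2⟩
    · rw [mem_TL_ne _ hmj] at hw
      rw [dg3_f3_ne hm hmj, T_L, mem_TL_ne _ hmj, T_L, mem_TL_ne _ hm]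
      exact ⟨rfl, rfl, hw.2.2⟩

theorem dg3_f3_d {i j : I} (hij : i ≠ j) (h : ¬ Γ.Adj i j) (m : I) (w : W I (W I V)) :
    dg3_f3 i j m (((X.T j).T i).d m w) = ((X.T i).T j).d m (dg3_f3 i j m w) := by
  have h' : ¬ Γ.Adj j i := fun e => h e.symm
  by_cases hm : m = i
  · subst hm
    rw [T_d, Td_self, dg3_f3_fst, dg3_f3_fst, T_d, T_d, Td_ne _ hij, Td_ne _ hij, T_d, Td_self,
      map_add, dg3_dn_T_dU, dg3_T_al_ne X hij h',
      dg3_dn_up (i := j) (u := X.al m w.2.2) (X.a_zero _ _ _ h')]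
  · rw [T_d, Td_ne _ hm]
    by_cases hmj : m = j
    · subst hmj
      rw [dg3_f3_snd hij, dg3_f3_snd hij, T_d, T_d, Td_self, Td_self, T_d, Td_ne _ hm,
        dg3_T_dU_up, dg3_T_al_ne X hm h, map_add]
    · rw [dg3_f3_ne hm hmj, dg3_f3_ne hm hmj, T_d, T_d, Td_ne _ hmj, Td_ne _ hmj, T_d, Td_ne _ hm]

theorem dg3_f3_inv {i j : I} (hij : i ≠ j) (h : ¬ Γ.Adj i j) (m : I) (k : ℤ) (w : W I (W I V))
    (hw : w ∈ ((X.T j).T i).L m k) : dg3_f3 j i m (dg3_f3 i j m w) = w := by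
  obtain ⟨u', u, x⟩ := w
  by_cases hm : m = i
  · subst hm
    rw [T_L, mem_TL_self, T_L, mem_TL_ne _ hij] at hw
    have h2 : u = 0 := hw.2.1
    rw [dg3_f3_fst, dg3_f3_snd hij.symm, dg3_up_dn_T X hw.1 h, h2]
  · rw [T_L, mem_TL_ne _ hm, T_L] at hw
    have h1 : u' = 0 := hw.1
    by_cases hmj : m = j
    · subst hmj
      rw [mem_TL_self] at hw
      rw [dg3_f3_snd hij, dg3_f3_fst, dg3_dn_up (hw.2.1.2 i fun e => h e.symm), h1]
    · rw [mem_TL_ne _ hmj] at hw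
      have h2 : u = 0 := hw.2.1
      rw [dg3_f3_ne hm hmj, dg3_f3_ne hmj hm, h1, h2]

/-- A strict isomorphism: `f i (u', ξ) = (0, (fun l => (u' l).2, ξ.2))`,
`f j (u', ξ) = (fun l => (0, ξ.1 l), (0, ξ.2))`, `f m (u', ξ) = (0, (0, ξ.2))` otherwise;
use `QisAt.of_iso`, the inverse is given by the same formulas with `i, j` exchanged. -/
theorem rel_comm {i j : I} (hij : i ≠ j) (h : ¬ Γ.Adj i j) :
    Rel ((X.T j).T i) ((X.T i).T j) := by
  have h' : ¬ Γ.Adj j i := fun e => h e.symm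
  refine ⟨⟨⟨dg3_f3 i j, dg3_f3_mem X hij h, dg3_f3_d X hij h, ?_⟩, ?_⟩, ?_⟩
  · intro l m w
    by_cases hl : l = i
    · subst hl
      rw [T_a, Ta_in, dg3_f3_fst, dg3_dn_de X]
      by_cases hm : m = j
      · subst hm
        rw [DG.a_zero _ _ _ _ h, X.de_of_not h]; rfl
      · rw [T_a, Ta_ne _ hij hm, T_a, Ta_in, dg3_f3_last]; rfl
    · by_cases hm : m = i
      · subst hm
        by_cases hlj : l = j
        · subst hlj
          rw [DG.a_zero _ _ _ _ h', DG.a_zero _ _ _ _ h', map_zero]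
        · rw [T_a, Ta_out _ hl, dg3_f3_ne hl hlj, dg3_f3_fst, T_a, T_a, Ta_ne _ hlj hij,
            Ta_ne _ hlj hij, T_a, Ta_out _ hl, dg3_T_be_ne X hij h, T_t, Tt_ne _ hij]
          rfl
      · rw [T_a, Ta_ne _ hl hm]
        by_cases hlj : l = j
        · subst hlj
          rw [dg3_f3_snd hij, T_a, Ta_in, T_a, Ta_in]
          by_cases hml : m = l
          · subst hml; simp [de_self]
          · rw [dg3_f3_ne hm hml]
            congr 1
            funext r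
            rw [dg3_up_apply, de_apply]
            simp only [de_apply]
            by_cases hr : r = i
            · have : ¬ (Γ.Adj l m ∧ r = m) := fun e => hm (e.2.symm.trans hr)
              rw [if_pos hr, if_neg this]
            · rw [if_neg hr]; split_ifs <;> rfl
        · rw [dg3_f3_ne hl hlj]
          by_cases hmj : m = j
          · subst hmj
            rw [dg3_f3_snd hij, T_a, T_a, Ta_out _ hlj, Ta_out _ hlj, T_a, Ta_ne _ hl hm,
              dg3_T_be_ne X hm h', T_t, Tt_ne _ hm, dg3_be_dn_up X h']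
            rfl
          · rw [dg3_f3_ne hm hmj, T_a, T_a, Ta_ne _ hlj hmj, Ta_ne _ hlj hmj, T_a, Ta_ne _ hl hm]
  · intro m w
    change dg3_f3 i j m _ = ((X.T i).T j).t m (dg3_f3 i j m w)
    by_cases hm : m = i
    · subst hm
      rw [T_t, Tt_self, dg3_f3_fst, dg3_f3_fst, T_t, T_t, Tt_ne _ hij, Tt_ne _ hij, T_t, Tt_self,
        dg3_T_be_ne X hij h]
      simp
    · rw [T_t, Tt_ne _ hm]
      by_cases hmj : m = j
      · subst hmj
        rw [dg3_f3_snd hij, dg3_f3_snd hij, T_t, T_t, Tt_self, Tt_self, T_t, Tt_ne _ hm,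
          dg3_T_be_ne X hm h', dg3_be_dn_up X h']
        simp
      · rw [dg3_f3_ne hm hmj, dg3_f3_ne hm hmj, T_t, T_t, Tt_ne _ hmj, Tt_ne _ hmj, T_t, Tt_ne _ hm]
  · intro m
    exact QisAt.of_iso (dg3_f3 j i m) (dg3_f3_mem X hij.symm h' m)
      (fun _ y _ => dg3_f3_d X hij.symm h' m y) (dg3_f3_inv X hij h m) (dg3_f3_inv X hij.symm h' m)

/-- Take `f m w = w.2` for `m ≠ i` and `f i = 0` (note `γ = 0`, and `d i (a ..)`, `t` vanish; `f_d` at `i`
is `0 = d 0`); `QisAt` at `i` holds since all `L` involved are `⊥` (`UL i k = ⊥`), take `x0 = y0 = 0`. -/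
theorem rel_T_triv (i : I) (ht : ∀ m v, X.t m v = 0) (ha : ∀ l m v, X.a l m v = 0)
    (hi : ∀ k, X.L i k = ⊥) (hn : ∀ l k, Γ.Adj i l → X.L l k = ⊥) : Rel (X.T i) X := by
  refine ⟨⟨⟨fun m => if m = i then 0 else snd K2 _ _, ?_, ?_, ?_⟩, ?_⟩, ?_⟩
  · intro m k w h
    by_cases hm : m = i
    · simp [hm]
    · rw [T_L, mem_TL_ne _ hm] at h
      simpa [hm] using h.2
  · intro m w
    by_cases hm : m = i
    · simp [hm]
    · simp [hm, Td_ne]
  · intro l m w
    by_cases hl : l = i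
    · simp [hl, ha]
    · by_cases hm : m = i
      · subst hm; simp [hl, Ta_out, ha]
      · simp [hl, hm, Ta_ne]
  · intro m w
    by_cases hm : m = i
    · simp [hm]
    · simp [hm, Tt_ne]
  · intro m
    by_cases hm : m = i
    · subst hm
      intro k x y hx hy _ _
      rw [T_L, mem_TL_self, hi] at hx
      rw [hi] at hy
      have h1 : x.1 = 0 := by
        funext l
        by_cases hl : Γ.Adj m l
        · have := hx.1.1 l
          rwa [hn l _ hl] at this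
        · exact hx.1.2 l hl
      have h2 : x = 0 := Prod.ext h1 hx.2
      have h3 : y = 0 := hy
      exact ⟨0, zero_mem _, 0, zero_mem _, by simp [h2], by simp [h3]⟩
    · refine QisAt.of_iso (fun v => (0, v)) ?_ ?_ ?_ ?_
      · intro k y hy
        rw [T_L, mem_TL_ne _ hm]
        exact ⟨rfl, hy⟩
      · intro k y _
        simp only [T_d, Td_ne _ hm]
      · rintro k ⟨u, x⟩ hy
        rw [T_L, mem_TL_ne _ hm] at hy
        have h1 : u = 0 := hy.1
        simp [hm, h1]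
      · intro k x _
        simp [hm]

end DG

end Crest.R175
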