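import Crest.Agent.R175.DG1

/-! Row 175, part F: the cylinder turns a weak quasi-isomorphism into a strict zigzag. -/

set_option autoImplicit false
set_option linter.unusedSectionVars false

namespace Crest.R175

open Module LinearMap

variable {I : Type} [Fintype I] [DecidableEq I]

namespace DG

variable {Γ : SimpleGraph I} [DecidableRel Γ.Adj]
  {V V' : Type} [AddCommGroup V] [Module K2 V] [AddCommGroup V'] [Module K2 V']
  {X : DG Γ V} {Y : DG Γ V'}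

/-- a triangular map on the cylinder -/
def dg4_tri (p : V →ₗ[K2] V) (e : V →ₗ[K2] V) (q : V' →ₗ[K2] V') (g : V →ₗ[K2] V') :
    V × V × V' →ₗ[K2] V × V × V' :=
  (p.coprod (e ∘ₗ fst K2 _ _)).prod (((p ∘ₗ fst K2 _ _).prod (g.coprod q)) ∘ₗ snd K2 _ _)

@[simp] theorem dg4_tri_apply (p : V →ₗ[K2] V) (e : V →ₗ[K2] V) (q : V' →ₗ[K2] V')
    (g : V →ₗ[K2] V') (w : V × V × V') :
    dg4_tri p e q g w = (p w.1 + e w.2.1, p w.2.1, g w.2.1 + q w.2.2) := rfl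

/-- the cylinder -/
def dg4_cyl (f : WHom X Y) : DG Γ (V × V × V') where
  L m k := (X.L m k).prod ((X.L m (k + 1)).prod (Y.L m k))
  d m := dg4_tri (X.d m) LinearMap.id (Y.d m) (f.f m)
  a l m := dg4_tri (X.a l m) 0 (Y.a l m) (f.h l m)
  t m := dg4_tri (X.t m) 0 (Y.t m) 0
  d_mem m k _ h := ⟨add_mem (X.d_mem _ _ _ h.1) h.2.1, X.d_mem _ _ _ h.2.1,
    add_mem (f.mem _ _ _ h.2.1) (Y.d_mem _ _ _ h.2.2)⟩
  a_mem l m k _ h := ⟨add_mem (X.a_mem _ _ _ _ h.1) (zero_mem _), X.a_mem _ _ _ _ h.2.1,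
    add_mem (f.h_mem _ _ _ _ h.2.1) (Y.a_mem _ _ _ _ h.2.2)⟩
  t_mem m k _ h := ⟨add_mem (X.t_mem _ _ _ h.1) (zero_mem _), X.t_mem _ _ _ h.2.1,
    add_mem (zero_mem _) (Y.t_mem _ _ _ h.2.2)⟩
  d_d m w := by simp [X.d_d, Y.d_d, f.f_d, k2_add_self]
  d_a l m w := by
    simp only [dg4_tri_apply, map_add, X.d_a, Y.d_a, f.d_h, id_apply, LinearMap.zero_apply, add_zero]
    congr 2
    char2
  a_zero l m w h := by simp [X.a_zero _ _ _ h, Y.a_zero _ _ _ h, f.h_zero _ _ _ h]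
  d_t m w := by
    refine Prod.ext ?_ (Prod.ext ?_ ?_) <;>
      simp only [dg4_tri_apply, map_add, X.d_t, Y.d_t, f.f_t, id_apply, LinearMap.zero_apply, add_zero,
        zero_add, Prod.fst_add, Prod.snd_add, Prod.fst_sum, Prod.snd_sum,
        Finset.sum_add_distrib] <;>
      abel

/-- The cylinder: `C.V = V × V × V'`, `C.L m k = L m k × L m (k+1) × L' m k`,
`d m (x,x',y) = (d x + x', d x', d y + f m x')`, `a l m (x,x',y) = (a x, a x', a y + h l m x')`,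
`t m = (t x, t x', t y)`.  The inclusions `x ↦ (x,0,0)` and `y ↦ (0,0,y)` are strict.
For `Y` use `QisAt.of_sec` with `g (x,x',y) = y + f x`, `h (x,x',y) = (0,x,0)`.
For `X`: given a cycle `z` and `(x,x',y)` with `d (x,x',y) = (z,0,0)`, apply the hypothesis to
`(x', y)` (degree `k`): `d x0 = x'`, `y = f x0 + d y0`; the answer is `x + x0` and `(0, x0, y0)`. -/
theorem WHom.zigzag (f : WHom X Y) (hf : Qis X Y f.f) : ∃ C : DG Γ (V × V × V'), Rel X C ∧ Rel Y C := by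
  refine ⟨dg4_cyl f, ⟨⟨⟨fun _ => inl K2 _ _, fun m k v h => ⟨h, zero_mem _, zero_mem _⟩,
    fun m v => ?_, fun l m v => ?_⟩, fun m v => ?_⟩, fun m => ?_⟩,
    ⟨⟨⟨fun _ => inr K2 _ _ ∘ₗ inr K2 _ _, fun m k v h => ⟨zero_mem _, zero_mem _, h⟩,
    fun m v => ?_, fun l m v => ?_⟩, fun m v => ?_⟩, fun m => ?_⟩⟩
  iterate 3 · simp [dg4_cyl, Prod.ext_iff]
  · rintro k z ⟨x, x', y⟩ - ⟨hx, hx', hy⟩ - hd
    simp only [dg4_cyl, dg4_tri_apply, id_apply, inl_apply, Prod.mk.injEq, Prod.mk_eq_zero] at hd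
    obtain ⟨x0, hx0, y0, hy0, e0, e1⟩ := hf m k x' y hx' hy hd.2.1 (k2_eq_of_add hd.2.2).symm
    refine ⟨x + x0, add_mem hx hx0, (0, x0, y0), ⟨zero_mem _, by simpa using hx0, hy0⟩,
      by rw [map_add, e0, hd.1], ?_⟩
    simp [dg4_cyl, e0, ← e1, add_assoc, k2_add_self]
  iterate 3 · simp [dg4_cyl]
  · refine QisAt.of_sec (fun w => w.2.2 + f.f m w.1) (fun w => (0, w.1, 0))
      (fun k w h => add_mem h.2.2 (f.mem _ _ _ h.1))
      (fun k w h => ⟨zero_mem _, by simpa using h.1, zero_mem _⟩) (fun k w _ => ?_)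
      (fun k x _ => by simp) (fun k x _ => rfl) fun k w _ => ?_
    · simp only [dg4_cyl, dg4_tri_apply, id_apply, map_add, f.f_d]
      char2
    · refine Prod.ext ?_ (Prod.ext ?_ ?_) <;> simp [dg4_cyl] <;> char2

end DG

end Crest.R175
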