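import Crest.Agent.R175.DG1

/-! Row 175, part F: the symmetric model `Δ i j X` of `T i T j T i X` for adjacent `i, j`. -/

set_option autoImplicit false
set_option linter.unusedSectionVars false

namespace Crest.R175

open Module LinearMap

/-- an additive map of `ZMod 2`-modules is linear -/
def lin {V V' : Type} [AddCommGroup V] [Module K2 V] [AddCommGroup V'] [Module K2 V']
    (f : V → V') (h : ∀ x y, f (x + y) = f x + f y) : V →ₗ[K2] V' :=
  (AddMonoidHom.mk' f h).toZModLinearMap 2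

@[simp] theorem lin_apply {V V' : Type} [AddCommGroup V] [Module K2 V] [AddCommGroup V']
    [Module K2 V'] (f : V → V') (h : ∀ x y, f (x + y) = f x + f y) (x : V) :
    lin f h x = f x := rfl

variable {I : Type} [Fintype I] [DecidableEq I]

/-- kill the component at `j` -/
def cut {V : Type} [AddCommGroup V] [Module K2 V] (j : I) : (I → V) →ₗ[K2] (I → V) :=
  lin (fun u l => if l = j then 0 else u l) fun x y => by
    funext l; by_cases h : l = j <;> simp [h]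

theorem cut_apply {V : Type} [AddCommGroup V] [Module K2 V] (j : I) (u : I → V) (l : I) :
    cut j u l = if l = j then 0 else u l := rfl

@[simp] theorem cut_self {V : Type} [AddCommGroup V] [Module K2 V] (j : I) (u : I → V) :
    cut j u j = 0 := by simp [cut_apply]

theorem cut_ne {V : Type} [AddCommGroup V] [Module K2 V] {j l : I} (h : l ≠ j) (u : I → V) :
    cut j u l = u l := by simp [cut_apply, h]

@[simp] theorem cut_cut {V : Type} [AddCommGroup V] [Module K2 V] (j : I) (u : I → V) :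
    cut j (cut j u) = cut j u := by
  funext l; by_cases h : l = j <;> simp [cut_apply, h]

theorem cut_eq {V : Type} [AddCommGroup V] [Module K2 V] {j : I} {u : I → V} (h : u j = 0) :
    cut j u = u := by
  funext l; by_cases h' : l = j <;> simp [cut_apply, h', h]

namespace DG

variable {Γ : SimpleGraph I} [DecidableRel Γ.Adj]
  {V V' : Type} [AddCommGroup V] [Module K2 V] [AddCommGroup V'] [Module K2 V']
  (X : DG Γ V)

theorem dU_cut (j : I) (u : I → V) : X.dU (cut j u) = cut j (X.dU u) := by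
  funext l; by_cases h : l = j <;> simp [cut_apply, h]

theorem be_cut (i j : I) (u : I → V) : X.be i (cut j u) = X.be i u + X.a i j (u j) := by
  rw [be_apply, be_apply, ← Finset.add_sum_erase _ _ (Finset.mem_univ j),
    ← Finset.add_sum_erase _ (fun l => X.a i l (u l)) (Finset.mem_univ j)]
  have : ∑ l ∈ Finset.univ.erase j, X.a i l (cut j u l) =
      ∑ l ∈ Finset.univ.erase j, X.a i l (u l) :=
    Finset.sum_congr rfl fun l hl => by rw [cut_ne (Finset.ne_of_mem_erase hl)]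
  rw [this, cut_self, map_zero]; char2

theorem cut_de {i j m : I} (h : m ≠ j) (v : V) : cut j (X.de i m v) = X.de i m v :=
  cut_eq (by simp [de_apply, h.symm])

theorem cut_de_self (i j : I) (v : V) : cut j (X.de i j v) = 0 := by
  funext l; by_cases h : l = j <;> simp [cut_apply, de_apply, h]

theorem cut_add_de {i j : I} (h : Γ.Adj i j) (u : I → V) : cut j u + X.de i j (u j) = u := by
  funext l; by_cases h' : l = j <;> simp [cut_apply, de_apply, h', h]

/-- `ζ (α, x) = p* α + t x` -/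
def ze (i j : I) (α : I → V) (x : V) : V := X.be i (cut j α) + X.t i x

theorem ze_add (i j : I) (α α' : I → V) (x x' : V) :
    X.ze i j (α + α') (x + x') = X.ze i j α x + X.ze i j α' x' := by
  simp only [ze, map_add]; abel

@[simp] theorem ze_zero (i j : I) : X.ze i j 0 0 = 0 := by simp [ze]

@[simp] theorem ze_cut (i j : I) (α : I → V) (x : V) : X.ze i j (cut j α) x = X.ze i j α x := by
  simp [ze]

theorem d_ze (i j : I) (α : I → V) (x : V) : X.d i (X.ze i j α x) =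
    X.ze i j (X.dU α + cut j (X.al i x)) (X.d i x) + X.a i j (X.a j i x) := by
  simp only [ze, map_add, d_be, d_t', dU_cut, cut_cut]
  rw [X.be_cut i j (X.al i x), al_apply]; char2

/-- families supported on the neighbours of `i` other than `j` -/
def UC (i j : I) (k : ℤ) : Submodule K2 (I → V) := X.UL i k ⊓ ker (proj j)

theorem mem_UC {i j : I} {k : ℤ} {u : I → V} : u ∈ X.UC i j k ↔ u ∈ X.UL i k ∧ u j = 0 := Iff.rfl

variable {X}

theorem cut_mem {i j : I} {k : ℤ} {u : I → V} (h : u ∈ X.UL i k) : cut j u ∈ X.UC i j k := by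
  refine ⟨⟨fun l => ?_, fun l hl => ?_⟩, cut_self j u⟩ <;> rw [cut_apply] <;> split_ifs
  · exact zero_mem _
  · exact h.1 l
  · rfl
  · exact h.2 l hl

theorem dU_memC {i j : I} {k : ℤ} {u : I → V} (h : u ∈ X.UC i j k) :
    X.dU u ∈ X.UC i j (k + 1) :=
  X.mem_UC.2 ⟨dU_mem h.1, by rw [dU_apply, (X.mem_UC.1 h).2, map_zero]⟩

theorem de_memC {i j m : I} {k : ℤ} {v : V} (hm : m ≠ j) (h : v ∈ X.L m k) :
    X.de i m v ∈ X.UC i j k := X.cut_de hm v ▸ cut_mem (de_mem h)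

theorem ze_mem {i j : I} {k : ℤ} {u : I → V} {x : V} (hu : u ∈ X.UC i j k)
    (hx : x ∈ X.L i (k + 1)) : X.ze i j u x ∈ X.L i k :=
  add_mem (be_mem (cut_mem hu.1).1) (X.t_mem _ _ _ hx)

variable (X)

/-- ambient space of `Δ` -/
abbrev WD (I V : Type) : Type := (I → V) × (I → V) × V

def DL (i j m : I) (k : ℤ) : Submodule K2 (WD I V) :=
  if m = j then (X.UC i j k).prod ((X.UC j i k).prod (X.L i (k + 1)))
  else if m = i then (X.UC i j k).prod ((X.UC j i k).prod (X.L j (k + 1)))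
  else (⊥ : Submodule K2 _).prod ((⊥ : Submodule K2 _).prod (X.L m k))

/-- apply a map in the last slot -/
def lst3 (g : V →ₗ[K2] V) : WD I V →ₗ[K2] WD I V :=
  lin (fun w => (0, 0, g w.2.2)) fun x y => by simp

@[simp] theorem lst3_apply (g : V →ₗ[K2] V) (w : WD I V) : lst3 g w = (0, 0, g w.2.2) := rfl

def Dd (i j m : I) : WD I V →ₗ[K2] WD I V :=
  if m = j then
    lin (fun w => (X.dU w.1 + cut j (X.al i w.2.2),
      X.dU w.2.1 + cut i (X.al j (X.a j i w.2.2)), X.d i w.2.2)) fun x y => by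
        simp only [Prod.fst_add, Prod.snd_add, map_add, Prod.mk_add_mk]; congr 1; abel; congr 1; abel
  else if m = i then
    lin (fun w => (X.dU w.1 + cut j (X.al i (X.a i j w.2.2)),
      X.dU w.2.1 + cut i (X.al j w.2.2), X.d j w.2.2)) fun x y => by
        simp only [Prod.fst_add, Prod.snd_add, map_add, Prod.mk_add_mk]; congr 1; abel; congr 1; abel
  else lst3 (X.d m)

def Da (i j l m : I) : WD I V →ₗ[K2] WD I V :=
  if l = i then
    if m = j then
      lin (fun w => (cut j (X.al i (X.ze i j w.1 w.2.2)), w.2.1, X.a j i w.2.2)) fun x y => by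
        simp only [Prod.fst_add, Prod.snd_add, map_add, Prod.mk_add_mk, ze_add]
    else lin (fun w => (X.de i m w.2.2, 0, 0)) fun x y => by simp
  else if l = j then
    if m = i then
      lin (fun w => (w.1, cut i (X.al j (X.ze j i w.2.1 w.2.2)), X.a i j w.2.2)) fun x y => by
        simp only [Prod.fst_add, Prod.snd_add, map_add, Prod.mk_add_mk, ze_add]
    else lin (fun w => (0, X.de j m w.2.2, 0)) fun x y => by simp
  else if m = i then
    lin (fun w => (0, 0, X.a l i (X.a i j (X.ze j i w.2.1 w.2.2) + X.ze i j w.1 (X.a i j w.2.2))))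
      fun x y => by
        simp only [Prod.fst_add, Prod.snd_add, map_add, Prod.mk_add_mk, ze_add, add_zero]
        congr 2; abel
  else if m = j then
    lin (fun w => (0, 0, X.a l j (X.a j i (X.ze i j w.1 w.2.2) + X.ze j i w.2.1 (X.a j i w.2.2))))
      fun x y => by
        simp only [Prod.fst_add, Prod.snd_add, map_add, Prod.mk_add_mk, ze_add, add_zero]
        congr 2; abel
  else lst3 (X.a l m)

def Dt (i j m : I) : WD I V →ₗ[K2] WD I V :=
  if m = j then lin (fun w => (0, 0, X.ze i j w.1 w.2.2)) fun x y => by simp [ze_add]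
  else if m = i then lin (fun w => (0, 0, X.ze j i w.2.1 w.2.2)) fun x y => by simp [ze_add]
  else lst3 (X.t m)

section
variable {i j l m : I} {k : ℤ} (w : WD I V)

theorem mem_DL_j {w : WD I V} : w ∈ X.DL i j j k ↔
    w.1 ∈ X.UC i j k ∧ w.2.1 ∈ X.UC j i k ∧ w.2.2 ∈ X.L i (k + 1) := by simp [DL]
theorem mem_DL_i (h : i ≠ j) {w : WD I V} : w ∈ X.DL i j i k ↔
    w.1 ∈ X.UC i j k ∧ w.2.1 ∈ X.UC j i k ∧ w.2.2 ∈ X.L j (k + 1) := by simp [DL, h]
theorem mem_DL_o (hi : m ≠ i) (hj : m ≠ j) {w : WD I V} : w ∈ X.DL i j m k ↔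
    w.1 = 0 ∧ w.2.1 = 0 ∧ w.2.2 ∈ X.L m k := by simp [DL, hi, hj]
theorem Dd_j : X.Dd i j j w = (X.dU w.1 + cut j (X.al i w.2.2),
    X.dU w.2.1 + cut i (X.al j (X.a j i w.2.2)), X.d i w.2.2) := by simp [Dd]
theorem Dd_i (h : i ≠ j) : X.Dd i j i w = (X.dU w.1 + cut j (X.al i (X.a i j w.2.2)),
    X.dU w.2.1 + cut i (X.al j w.2.2), X.d j w.2.2) := by simp [Dd, h]
theorem Dd_o (hi : m ≠ i) (hj : m ≠ j) : X.Dd i j m w = (0, 0, X.d m w.2.2) := by
  simp [Dd, hi, hj]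
theorem Da_ij : X.Da i j i j w =
    (cut j (X.al i (X.ze i j w.1 w.2.2)), w.2.1, X.a j i w.2.2) := by simp [Da]
theorem Da_io (hj : m ≠ j) : X.Da i j i m w = (X.de i m w.2.2, 0, 0) := by simp [Da, hj]
theorem Da_ji (h : i ≠ j) : X.Da i j j i w =
    (w.1, cut i (X.al j (X.ze j i w.2.1 w.2.2)), X.a i j w.2.2) := by simp [Da, h.symm]
theorem Da_jo (h : i ≠ j) (hi : m ≠ i) : X.Da i j j m w = (0, X.de j m w.2.2, 0) := by
  simp [Da, h.symm, hi]
theorem Da_oi (hi : l ≠ i) (hj : l ≠ j) : X.Da i j l i w =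
    (0, 0, X.a l i (X.a i j (X.ze j i w.2.1 w.2.2) + X.ze i j w.1 (X.a i j w.2.2))) := by
  simp only [Da, if_neg hi, if_neg hj, if_true, lin_apply]
theorem Da_oj (h : i ≠ j) (hi : l ≠ i) (hj : l ≠ j) : X.Da i j l j w =
    (0, 0, X.a l j (X.a j i (X.ze i j w.1 w.2.2) + X.ze j i w.2.1 (X.a j i w.2.2))) := by
  simp only [Da, if_neg hi, if_neg hj, if_neg h.symm, if_true, lin_apply]
theorem Da_oo (hi : l ≠ i) (hj : l ≠ j) (hi' : m ≠ i) (hj' : m ≠ j) :
    X.Da i j l m w = (0, 0, X.a l m w.2.2) := by simp [Da, hi, hj, hi', hj']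
theorem Dt_j : X.Dt i j j w = (0, 0, X.ze i j w.1 w.2.2) := by simp [Dt]
theorem Dt_i (h : i ≠ j) : X.Dt i j i w = (0, 0, X.ze j i w.2.1 w.2.2) := by simp [Dt, h]
theorem Dt_o (hi : m ≠ i) (hj : m ≠ j) : X.Dt i j m w = (0, 0, X.t m w.2.2) := by
  simp [Dt, hi, hj]
end

/-- case distinction `m = i`, `m = j`, other -/
theorem tri (i j m : I) : m = i ∨ m = j ∨ (m ≠ i ∧ m ≠ j) := by tauto

theorem Dd_Dd {i j : I} (h : i ≠ j) (m : I) (w : WD I V) : X.Dd i j m (X.Dd i j m w) = 0 := by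
  rcases tri i j m with rfl | rfl | ⟨hi, hj⟩
  · simp [Dd_i, h, dU_dU, dU_cut, dU_al, X.d_a, X.d_d, k2_add_self]
  · simp [Dd_j, dU_dU, dU_cut, dU_al, X.d_a, X.d_d, k2_add_self]
  · simp [Dd_o, hi, hj, X.d_d]

theorem d_ze2 (i j : I) (α β : I → V) (y : V) :
    X.d i (X.a i j (X.ze j i β y) + X.ze i j α (X.a i j y)) =
      X.a i j (X.ze j i (X.dU β + cut i (X.al j y)) (X.d j y)) +
        X.ze i j (X.dU α + cut j (X.al i (X.a i j y))) (X.a i j (X.d j y)) := by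
  rw [map_add, X.d_a, d_ze, d_ze, X.d_a, map_add]; char2

theorem Dd_Da {i j : I} (h : i ≠ j) (l m : I) (w : WD I V) :
    X.Dd i j l (X.Da i j l m w) = X.Da i j l m (X.Dd i j m w) := by
  rcases tri i j l with rfl | rfl | ⟨hi, hj⟩
  · rcases tri l j m with rfl | rfl | ⟨hi', hj'⟩
    · simp [Da_io, h, de_self, Dd_i]
    · rw [Da_ij, Dd_i _ _ h, Dd_j, Da_ij]
      simp only [dU_cut, dU_al, d_ze, X.d_a, map_add]
      congr 1; char2
    · simp [Da_io, Dd_i, Dd_o, h, hi', hj', dU_de]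
  · rcases tri i l m with rfl | rfl | ⟨hi', hj'⟩
    · rw [Da_ji _ _ h, Dd_j, Dd_i _ _ h, Da_ji _ _ h]
      simp only [dU_cut, dU_al, d_ze, X.d_a, map_add]
      congr 2; char2
    · simp [Da_jo, h, h.symm, de_self, Dd_j]
    · simp [Da_jo, Dd_j, Dd_o, h, hi', hj', dU_de]
  · rcases tri i j m with rfl | rfl | ⟨hi', hj'⟩
    · rw [Da_oi _ _ hi hj, Dd_o _ _ hi hj, Dd_i _ _ h, Da_oi _ _ hi hj, X.d_a, d_ze2]
    · rw [Da_oj _ _ h hi hj, Dd_o _ _ hi hj, Dd_j, Da_oj _ _ h hi hj, X.d_a, d_ze2]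
    · simp [Da_oo, Dd_o, hi, hj, hi', hj', X.d_a]

theorem Da_zero {i j : I} (h : Γ.Adj i j) (l m : I) (w : WD I V) (hn : ¬ Γ.Adj l m) :
    X.Da i j l m w = 0 := by
  rcases tri i j l with rfl | rfl | ⟨hi, hj⟩
  · rw [Da_io _ _ (by rintro rfl; exact hn h), X.de_of_not hn]; rfl
  · rw [Da_jo _ _ h.ne (by rintro rfl; exact hn h.symm), X.de_of_not hn]; rfl
  · rcases tri i j m with rfl | rfl | ⟨hi', hj'⟩
    · rw [Da_oi _ _ hi hj, X.a_zero _ _ _ hn]; rfl
    · rw [Da_oj _ _ h.ne hi hj, X.a_zero _ _ _ hn]; rfl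
    · rw [Da_oo _ _ hi hj hi' hj', X.a_zero _ _ _ hn]; rfl

theorem sum_cut_de (i j : I) (v : V) :
    ∑ l, cut j (X.de i l (X.a l i v)) = cut j (X.al i v) := by rw [← map_sum, sum_de_a]

theorem Dd_Dt {i j : I} (h : i ≠ j) (m : I) (w : WD I V) :
    X.Dd i j m (X.Dt i j m w) =
      X.Dt i j m (X.Dd i j m w) + ∑ l, X.Da i j m l (X.Da i j l m w) := by
  rcases tri i j m with rfl | rfl | ⟨hi, hj⟩
  · have : ∀ l, X.Da m j m l (X.Da m j l m w) = (if l = j then X.Da m j m j (X.Da m j j m w) else 0)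
        + inl K2 _ _ (cut j (X.de m l (X.a l m
          (X.a m j (X.ze j m w.2.1 w.2.2) + X.ze m j w.1 (X.a m j w.2.2))))) := by
      intro l
      rcases tri m j l with rfl | rfl | ⟨hi, hj⟩
      · simp [Da_io, h, de_self]
      · simp [cut_de_self]
      · rw [Da_oi _ _ hi hj, Da_io _ _ hj, if_neg hj, X.cut_de hj, zero_add]; rfl
    rw [Finset.sum_congr rfl fun l _ => this l, Finset.sum_add_distrib, ← map_sum, sum_cut_de, Finset.sum_ite_eq', if_pos (Finset.mem_univ _),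
      Dt_i _ _ h, Dt_i _ _ h, Dd_i _ _ h, Dd_i _ _ h, Da_ji _ _ h, Da_ij]
    rw [d_ze]
    simp only [Prod.ext_iff, Prod.fst_add, Prod.snd_add, map_add, map_zero, inl_apply,
      Prod.fst_zero, Prod.snd_zero]
    refine ⟨?_, ?_, ?_⟩ <;> char2
  · have : ∀ l, X.Da i m m l (X.Da i m l m w) = (if l = i then X.Da i m m i (X.Da i m i m w) else 0)
        + inr K2 _ _ (inl K2 _ _ (cut i (X.de m l (X.a l m
          (X.a m i (X.ze i m w.1 w.2.2) + X.ze m i w.2.1 (X.a m i w.2.2)))))) := by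
      intro l
      rcases tri i m l with rfl | rfl | ⟨hi, hj⟩
      · simp [cut_de_self]
      · simp [Da_jo, h, h.symm, de_self]
      · rw [Da_oj _ _ h hi hj, Da_jo _ _ h hi, if_neg hi, X.cut_de hi, zero_add]; rfl
    rw [Finset.sum_congr rfl fun l _ => this l, Finset.sum_add_distrib, ← map_sum, ← map_sum, sum_cut_de, Finset.sum_ite_eq',
      if_pos (Finset.mem_univ _), Dt_j, Dt_j, Dd_j, Dd_j, Da_ij, Da_ji _ _ h]
    rw [d_ze]
    simp only [Prod.ext_iff, Prod.fst_add, Prod.snd_add, map_add, map_zero, inl_apply, inr_apply]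
    refine ⟨?_, ?_, ?_⟩ <;> char2
  · have : ∀ l, X.Da i j m l (X.Da i j l m w) =
        inr K2 _ _ (inr K2 _ _ (X.a m l (X.a l m w.2.2))) := by
      intro l
      rcases tri i j l with rfl | rfl | ⟨hi', hj'⟩
      · rw [Da_io _ _ hj, Da_oi _ _ hi hj]; simp [ze, X.cut_de hj]
      · rw [Da_jo _ _ h hi, Da_oj _ _ h hi hj]; simp [ze, X.cut_de hi]
      · rw [Da_oo _ _ hi' hj' hi hj, Da_oo _ _ hi hj hi' hj']; rfl
    simp only [this]
    rw [← map_sum, ← map_sum, Dt_o _ _ hi hj, Dt_o _ _ hi hj, Dd_o _ _ hi hj, Dd_o _ _ hi hj, X.d_t]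
    simp only [inr_apply, Prod.mk_add_mk, add_zero]

/-- the symmetric model of `T i T j T i X` -/
def D {i j : I} (h : Γ.Adj i j) : DG Γ (WD I V) where
  L := X.DL i j
  d := X.Dd i j
  a := X.Da i j
  t := X.Dt i j
  d_mem m k w hw := by
    rcases tri i j m with rfl | rfl | ⟨hi, hj⟩
    · rw [mem_DL_i _ h.ne] at hw ⊢; rw [Dd_i _ _ h.ne]
      exact ⟨add_mem (dU_memC hw.1) (cut_mem (al_mem (X.a_mem _ _ _ _ hw.2.2))),
        add_mem (dU_memC hw.2.1) (cut_mem (al_mem hw.2.2)), X.d_mem _ _ _ hw.2.2⟩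
    · rw [mem_DL_j] at hw ⊢; rw [Dd_j]
      exact ⟨add_mem (dU_memC hw.1) (cut_mem (al_mem hw.2.2)),
        add_mem (dU_memC hw.2.1) (cut_mem (al_mem (X.a_mem _ _ _ _ hw.2.2))), X.d_mem _ _ _ hw.2.2⟩
    · rw [mem_DL_o _ hi hj] at hw ⊢; rw [Dd_o _ _ hi hj]
      exact ⟨rfl, rfl, X.d_mem _ _ _ hw.2.2⟩
  a_mem l m k w hw := by
    rcases tri i j l with rfl | rfl | ⟨hi, hj⟩
    · rw [mem_DL_i _ h.ne]
      rcases tri l j m with rfl | rfl | ⟨hi', hj'⟩
      · simp [Da_io, h.ne, de_self]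
      · rw [mem_DL_j] at hw; rw [Da_ij]
        exact ⟨cut_mem (al_mem (ze_mem hw.1 hw.2.2)), hw.2.1, X.a_mem _ _ _ _ hw.2.2⟩
      · rw [mem_DL_o _ hi' hj'] at hw; rw [Da_io _ _ hj']
        exact ⟨de_memC hj' hw.2.2, zero_mem _, zero_mem _⟩
    · rw [mem_DL_j]
      rcases tri i l m with rfl | rfl | ⟨hi', hj'⟩
      · rw [mem_DL_i _ h.ne] at hw; rw [Da_ji _ _ h.ne]
        exact ⟨hw.1, cut_mem (al_mem (ze_mem hw.2.1 hw.2.2)), X.a_mem _ _ _ _ hw.2.2⟩
      · simp [Da_jo, h.ne, h.ne', de_self]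
      · rw [mem_DL_o _ hi' hj'] at hw; rw [Da_jo _ _ h.ne hi']
        exact ⟨zero_mem _, de_memC hi' hw.2.2, zero_mem _⟩
    · rw [mem_DL_o _ hi hj]
      rcases tri i j m with rfl | rfl | ⟨hi', hj'⟩
      · rw [mem_DL_i _ h.ne] at hw; rw [Da_oi _ _ hi hj]
        exact ⟨rfl, rfl, X.a_mem _ _ _ _ (add_mem (X.a_mem _ _ _ _ (ze_mem hw.2.1 hw.2.2))
          (ze_mem hw.1 (X.a_mem _ _ _ _ hw.2.2)))⟩
      · rw [mem_DL_j] at hw; rw [Da_oj _ _ h.ne hi hj]
        exact ⟨rfl, rfl, X.a_mem _ _ _ _ (add_mem (X.a_mem _ _ _ _ (ze_mem hw.1 hw.2.2))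
          (ze_mem hw.2.1 (X.a_mem _ _ _ _ hw.2.2)))⟩
      · rw [mem_DL_o _ hi' hj'] at hw; rw [Da_oo _ _ hi hj hi' hj']
        exact ⟨rfl, rfl, X.a_mem _ _ _ _ hw.2.2⟩
  t_mem m k w hw := by
    rcases tri i j m with rfl | rfl | ⟨hi, hj⟩
    · rw [mem_DL_i _ h.ne] at hw ⊢; rw [Dt_i _ _ h.ne]
      exact ⟨zero_mem _, zero_mem _, ze_mem hw.2.1 hw.2.2⟩
    · rw [mem_DL_j] at hw ⊢; rw [Dt_j]
      exact ⟨zero_mem _, zero_mem _, ze_mem hw.1 hw.2.2⟩
    · rw [mem_DL_o _ hi hj] at hw ⊢; rw [Dt_o _ _ hi hj]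
      exact ⟨rfl, rfl, X.t_mem _ _ _ hw.2.2⟩
  d_d := X.Dd_Dd h.ne
  d_a := X.Dd_Da h.ne
  a_zero l m w hn := X.Da_zero h l m w hn
  d_t := X.Dd_Dt h.ne

@[simp] theorem D_L {i j : I} (h : Γ.Adj i j) : (X.D h).L = X.DL i j := rfl
@[simp] theorem D_d {i j : I} (h : Γ.Adj i j) : (X.D h).d = X.Dd i j := rfl
@[simp] theorem D_a {i j : I} (h : Γ.Adj i j) : (X.D h).a = X.Da i j := rfl
@[simp] theorem D_t {i j : I} (h : Γ.Adj i j) : (X.D h).t = X.Dt i j := rfl

end DG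

end Crest.R175
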