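import Crest.Agent.R175.DG5

/-! Row 175, part F: the weak morphism `Δ i j X → T i T j T i X`. -/

set_option autoImplicit false
set_option linter.unusedSectionVars false
set_option linter.unusedSimpArgs false
set_option linter.unnecessarySeqFocus false

namespace Crest.R175

open Module LinearMap

variable {I : Type} [Fintype I] [DecidableEq I]

namespace DG

variable {Γ : SimpleGraph I} [DecidableRel Γ.Adj]
  {V V' : Type} [AddCommGroup V] [Module K2 V] [AddCommGroup V'] [Module K2 V']
  (X : DG Γ V)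

/-- restriction of a family to the neighbours of `i` -/
def rs (i : I) : (I → V) →ₗ[K2] (I → V) := LinearMap.pi fun l => X.pr i l

theorem rs_apply (i : I) (u : I → V) (l : I) : X.rs i u l = if Γ.Adj i l then u l else 0 :=
  X.pr_apply i l u

theorem be_rs (i : I) (u : I → V) : X.be i (X.rs i u) = X.be i u := by
  rw [← X.sum_a_pr i u, be_apply]; rfl

theorem T_be_ne {i m : I} (h : m ≠ i) (u : I → W I V) : (X.T i).be m u =
    (0, X.be m (cut i fun l => (u l).2) + X.a m i (X.be i (u i).1 + X.t i (u i).2)) := by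
  rw [be_apply, be_apply, ← Finset.add_sum_erase _ _ (Finset.mem_univ i),
    ← Finset.add_sum_erase _ _ (Finset.mem_univ i), T_a, Ta_out _ h, cut_self, map_zero, zero_add]
  have : ∑ l ∈ Finset.univ.erase i, X.Ta i m l (u l) =
      ∑ l ∈ Finset.univ.erase i, inr K2 _ _ (X.a m l (cut i (fun l => (u l).2) l)) :=
    Finset.sum_congr rfl fun l hl => by
      rw [Ta_ne _ h (Finset.ne_of_mem_erase hl), cut_ne (Finset.ne_of_mem_erase hl)]; rfl
  rw [this, ← map_sum, inr_apply, Prod.mk_add_mk, add_zero, add_comm]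

theorem T_be_self (i : I) (u : I → W I V) :
    (X.T i).be i u = (X.rs i fun l => (u l).2, 0) := by
  rw [be_apply]
  have : ∀ l, (X.T i).a i l (u l) = inl K2 _ _ (X.de i l (u l).2) := fun l => X.Ta_in i l _
  simp only [this]
  rw [← map_sum, inl_apply]
  congr 1
  funext m
  rw [Finset.sum_apply, Finset.sum_eq_single m]
  · simp [de_apply, rs_apply]
  · intro l _ hl; simp [de_apply, Ne.symm hl]
  · simp

/-- restriction to the neighbours of `i` other than `j` -/
def ci (i j : I) : (I → V) →ₗ[K2] (I → V) := X.rs i ∘ₗ cut j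

theorem ci_apply (i j : I) (u : I → V) (l : I) :
    X.ci i j u l = if Γ.Adj i l ∧ l ≠ j then u l else 0 := by
  by_cases h : Γ.Adj i l <;> by_cases h' : l = j <;> simp [ci, rs_apply, cut_apply, h, h']

@[simp] theorem ci_fst (i j : I) (u : I → V) : X.ci i j u i = 0 := by simp [ci_apply]
@[simp] theorem ci_snd (i j : I) (u : I → V) : X.ci i j u j = 0 := by simp [ci_apply]
@[simp] theorem ci_cut (i j : I) (u : I → V) : X.ci i j (cut j u) = X.ci i j u := by simp [ci]
@[simp] theorem cut_ci (i j : I) (u : I → V) : cut j (X.ci i j u) = X.ci i j u :=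
  cut_eq (X.ci_snd i j u)
theorem dU_ci (i j : I) (u : I → V) : X.dU (X.ci i j u) = X.ci i j (X.dU u) := by
  funext l; simp only [dU_apply, ci_apply]; split_ifs <;> simp
theorem d_ci (i j : I) (u : I → V) (l : I) : X.d l (X.ci i j u l) = X.ci i j (X.dU u) l :=
  congrFun (X.dU_ci i j u) l
theorem ci_al (i j : I) (x : V) : X.ci i j (X.al i x) = cut j (X.al i x) := by
  funext l; by_cases h' : l = j
  · simp [h']
  · by_cases h : Γ.Adj i l
    · simp [ci_apply, cut_apply, h, h']
    · simp [ci_apply, cut_apply, h, h', X.a_zero l i x fun h'' => h h''.symm]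
theorem be_ci (i j : I) (u : I → V) : X.be i (X.ci i j u) = X.be i (cut j u) := X.be_rs i _
theorem ci_de {i j m : I} (h : m ≠ j) (v : V) : X.ci i j (X.de i m v) = X.de i m v := by
  funext l; simp only [ci_apply, de_apply]; split_ifs <;> simp_all
theorem rs_ci (i j : I) (u : I → V) : X.rs i (X.ci i j u) = X.ci i j u := by
  funext l; simp only [ci_apply, rs_apply]; split_ifs <;> simp_all
theorem ci_eq {i j : I} {k : ℤ} {u : I → V} (h : u ∈ X.UC i j k) : X.ci i j u = u := by
  funext l; rw [ci_apply]; split_ifs with h'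
  · rfl
  · by_cases h'' : l = j
    · rw [h'', (X.mem_UC.1 h).2]
    · exact (h.1.2 l fun h3 => h' ⟨h3, h''⟩).symm

section
variable (i j : I)

/-- the component at `j` -/
def ioJ : WD I V →ₗ[K2] W I (W I (W I V)) :=
  lin (fun w => (0, (fun l => if l = i then (X.ci i j w.1, w.2.2) else (0, X.ci j i w.2.1 l),
    (0, X.a j i w.2.2)))) fun x y => by
      simp only [Prod.fst_add, Prod.snd_add, map_add, Prod.mk_add_mk, add_zero]
      congr 2; funext l; by_cases h : l = i <;> simp [h]

/-- the component at `i` -/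
def ioI : WD I V →ₗ[K2] W I (W I (W I V)) :=
  lin (fun w => (fun l => if l = j then (fun m => (0, X.ci j i w.2.1 m), (0, w.2.2))
    else (0, (0, X.ci i j w.1 l)), (0, (X.de i j w.2.2, 0)))) fun x y => by
      simp only [Prod.fst_add, Prod.snd_add, map_add, Prod.mk_add_mk, add_zero]
      congr 1; funext l; by_cases h : l = j <;> simp [h]
      funext m; simp

/-- the other components -/
def ioO : WD I V →ₗ[K2] W I (W I (W I V)) :=
  lin (fun w => (0, (0, (0, w.2.2)))) fun x y => by simp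

def iof (m : I) : WD I V →ₗ[K2] W I (W I (W I V)) :=
  if m = j then X.ioJ i j else if m = i then X.ioI i j else ioO

def ioh (l m : I) : WD I V →ₗ[K2] W I (W I (W I V)) :=
  if l = i ∧ m = j then lin (fun w => (0, (0, (X.ci i j w.1, w.2.2)))) fun x y => by simp
  else if l = j ∧ m = i then
    lin (fun w => (0, (0, (0, X.ze j i w.2.1 w.2.2)))) fun x y => by simp [ze_add]
  else 0

variable {i j} {l m : I} (w : WD I V)

theorem iof_j : X.iof i j j w =
    (0, (fun l => if l = i then (X.ci i j w.1, w.2.2) else (0, X.ci j i w.2.1 l),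
      (0, X.a j i w.2.2))) := by simp only [iof, if_true, ioJ, lin_apply]
theorem iof_i (h : i ≠ j) : X.iof i j i w =
    (fun l => if l = j then (fun m => (0, X.ci j i w.2.1 m), (0, w.2.2))
      else (0, (0, X.ci i j w.1 l)), (0, (X.de i j w.2.2, 0))) := by
  simp only [iof, if_neg h, if_true, ioI, lin_apply]
theorem iof_o (hi : m ≠ i) (hj : m ≠ j) : X.iof i j m w = (0, (0, (0, w.2.2))) := by
  simp only [iof, if_neg hi, if_neg hj, ioO, lin_apply]
theorem ioh_ij : X.ioh i j i j w = (0, (0, (X.ci i j w.1, w.2.2))) := by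
  simp only [ioh, and_self, if_true, lin_apply]
theorem ioh_ji (h : i ≠ j) : X.ioh i j j i w = (0, (0, (0, X.ze j i w.2.1 w.2.2))) := by
  simp only [ioh, h, h.symm, and_self, if_true, if_false, lin_apply]
theorem ioh_o (h1 : ¬ (l = i ∧ m = j)) (h2 : ¬ (l = j ∧ m = i)) : X.ioh i j l m w = 0 := by
  simp only [ioh, if_neg h1, if_neg h2, LinearMap.zero_apply]

end

variable {i j : I}

theorem al_eq (h : Γ.Adj i j) (x : V) : cut j (X.al i x) = X.al i x + X.de i j (X.a j i x) :=
  k2_eq_add (X.cut_add_de h (X.al i x))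

theorem iof_d (h : Γ.Adj i j) (m : I) (w : WD I V) :
    X.iof i j m (X.Dd i j m w) = ((X.T i).T j).Td i m (X.iof i j m w) := by
  have hne := h.ne
  rcases tri i j m with rfl | rfl | ⟨hi, hj⟩
  · rw [Dd_i _ _ hne, iof_i _ _ hne, iof_i _ _ hne, Td_self]
    refine Prod.ext (funext fun l => ?_) ?_
    · rcases tri m j l with rfl | rfl | ⟨hi, hj⟩
      · simp [hne, Td_ne, Td_self, Ta_ne, Ta_in, de_self]
      · simp only [if_true, Pi.add_apply, dU_apply, al_apply, T_d, T_a, Td_self, Ta_in]
        refine Prod.ext (funext fun n => ?_) ?_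
        · by_cases hn : n = m
          · subst hn
            simp [Td_self, Ta_in, de_apply, h.symm, k2_add_self]
          · simp [Td_ne, Ta_ne, hn, hne.symm, cut_ne, de_apply, ci_al, d_ci]
        · simp [Td_ne, hne.symm]
      · simp [hi, hj, hne, Td_ne, Ta_ne, Ta_out, cut_ne, ci_al, d_ci]
    · simp [Td_ne, hne, Td_self, dU_de]
  · rw [Dd_j, iof_j, iof_j, Td_ne _ hne.symm]
    simp only [T_d, Td_self]
    refine Prod.ext rfl (Prod.ext (funext fun l => ?_) ?_)
    · by_cases hl : l = i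
      · subst hl
        simp only [if_true, Pi.add_apply, dU_apply, al_apply, T_d, T_a, Td_self, Ta_in, map_add,
          ci_cut, dU_ci, Prod.mk_add_mk, add_zero, ci_al]
        rw [X.al_eq h, add_assoc]
      · simp [hl, Td_ne, Ta_ne, hne.symm, cut_ne, ci_al, d_ci]
    · simp [Td_ne, hne.symm, X.d_a]
  · simp [Dd_o, iof_o, Td_ne, hi, hj]

theorem iof_mem (h : Γ.Adj i j) (m : I) (k : ℤ) (w : WD I V) (hw : w ∈ X.DL i j m k) :
    X.iof i j m w ∈ ((X.T i).T j).TL i m k := by
  have hne := h.ne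
  rcases tri i j m with rfl | rfl | ⟨hi, hj⟩
  · rw [mem_DL_i _ hne] at hw
    rw [iof_i _ _ hne, mem_TL_self, mem_UL, X.ci_eq hw.1, X.ci_eq hw.2.1]
    refine ⟨⟨fun l => ?_, fun l hl => ?_⟩, ?_⟩
    · by_cases hl : l = j
      · subst hl
        simp only [if_true, T_L, mem_TL_self, mem_UL, mem_TL_ne _ hne.symm]
        refine ⟨⟨fun n => ?_, fun n hn => ?_⟩, trivial, hw.2.2⟩
        · by_cases hn : n = m
          · subst hn; rw [(X.mem_UC.1 hw.2.1).2]; exact zero_mem _
          · rw [mem_TL_ne _ hn]; exact ⟨rfl, hw.2.1.1.1 n⟩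
        · rw [hw.2.1.1.2 n hn]; rfl
      · simp only [if_neg hl, T_L, mem_TL_ne _ hl]
        by_cases hl' : l = m
        · subst hl'; rw [hw.1.1.2 l (Γ.loopless.irrefl l)]; exact ⟨trivial, zero_mem _⟩
        · rw [mem_TL_ne _ hl']; exact ⟨trivial, rfl, hw.1.1.1 l⟩
    · have : l ≠ j := by rintro rfl; exact hl h
      simp [this, hw.1.1.2 l hl]
    · simp only [T_L, mem_TL_ne _ hne, mem_TL_self]
      exact ⟨trivial, de_mem hw.2.2, zero_mem _⟩
  · rw [mem_DL_j] at hw
    rw [iof_j, mem_TL_ne _ hne.symm, X.ci_eq hw.1, X.ci_eq hw.2.1]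
    simp only [T_L, mem_TL_self, mem_UL, mem_TL_ne _ hne.symm]
    refine ⟨trivial, ⟨fun l => ?_, fun l hl => ?_⟩, trivial, X.a_mem _ _ _ _ hw.2.2⟩
    · by_cases hl : l = i
      · subst hl
        rw [if_pos rfl, mem_TL_self]
        exact ⟨hw.1.1, hw.2.2⟩
      · rw [if_neg hl, mem_TL_ne _ hl]; exact ⟨rfl, hw.2.1.1.1 l⟩
    · have : l ≠ i := by rintro rfl; exact hl h.symm
      rw [if_neg this, hw.2.1.1.2 l hl]; rfl
  · rw [mem_DL_o _ hi hj] at hw
    rw [iof_o _ _ hi hj]
    simp only [T_L, mem_TL_ne _ hi, mem_TL_ne _ hj]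
    exact ⟨trivial, trivial, trivial, hw.2.2⟩

theorem ioh_mem (h : Γ.Adj i j) (l m : I) (k : ℤ) (w : WD I V) (hw : w ∈ X.DL i j m (k + 1)) :
    X.ioh i j l m w ∈ ((X.T i).T j).TL i l k := by
  have hne := h.ne
  by_cases h1 : l = i ∧ m = j
  · obtain ⟨rfl, rfl⟩ := h1
    rw [mem_DL_j] at hw
    rw [ioh_ij, X.ci_eq hw.1]
    simp only [T_L, mem_TL_self, mem_TL_ne _ hne]
    exact ⟨zero_mem _, trivial, hw.1.1, hw.2.2⟩
  · by_cases h2 : l = j ∧ m = i
    · obtain ⟨rfl, rfl⟩ := h2
      rw [mem_DL_i _ hne] at hw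
      rw [ioh_ji _ _ hne]
      simp only [T_L, mem_TL_self, mem_TL_ne _ hne.symm]
      exact ⟨trivial, zero_mem _, trivial, ze_mem hw.2.1 hw.2.2⟩
    · rw [ioh_o _ _ h1 h2]; exact zero_mem _

/-- `γ` of `T j T i X` at `i`, on the image of `ι` -/
theorem ga_iof_i (h : Γ.Adj i j) (w : WD I V) :
    ((X.T i).T j).be i (X.iof i j i w).1 + ((X.T i).T j).t i (X.iof i j i w).2 =
      (0, (X.ci i j w.1 + X.de i j (X.ze j i w.2.1 w.2.2), X.a i j w.2.2)) := by
  have hne := h.ne
  rw [iof_i _ _ hne, T_be_ne _ hne, T_be_self, T_be_ne _ hne.symm]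
  have e1 : (fun l => (cut j (fun l => ((fun l => if l = j then
      ((fun m => ((0 : I → V), X.ci j i w.2.1 m), (0, w.2.2)) : W I (W I V))
      else (0, (0, X.ci i j w.1 l))) l).2) l).2) = X.ci i j w.1 := by
    funext l; by_cases hl : l = j <;> simp [hl, cut_apply]
  rw [e1, rs_ci]
  simp [Tt_ne, Tt_self, hne, hne.symm, Ta_in, be_ci, ze]

/-- `γ` of `T i X` at `j`, on the image of `ι` -/
theorem ga_iof_j (h : Γ.Adj i j) (w : WD I V) :
    (X.T i).be j (X.iof i j j w).2.1 + (X.T i).t j (X.iof i j j w).2.2 =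
      (0, X.a j i (X.ze i j w.1 w.2.2) + X.ze j i w.2.1 (X.a j i w.2.2)) := by
  have hne := h.ne
  rw [iof_j, T_be_ne _ hne.symm]
  have e1 : cut i (fun l => ((fun l => if l = i then ((X.ci i j w.1, w.2.2) : W I V)
      else (0, X.ci j i w.2.1 l)) l).2) = X.ci j i w.2.1 := by
    funext l; by_cases hl : l = i <;> simp [hl, cut_apply]
  rw [e1]
  simp only [if_true, T_t, Tt_ne _ hne.symm, Prod.mk_add_mk, add_zero, be_ci, ze]
  congr 1; abel

theorem io_dh (h : Γ.Adj i j) (l m : I) (w : WD I V) :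
    ((X.T i).T j).Td i l (X.ioh i j l m w) = X.ioh i j l m (X.Dd i j m w) +
      (X.iof i j l (X.Da i j l m w) + ((X.T i).T j).Ta i l m (X.iof i j m w)) := by
  have hne := h.ne
  rcases tri i j l with rfl | rfl | ⟨hi, hj⟩
  · rcases tri l j m with rfl | rfl | ⟨hi', hj'⟩
    · rw [Da_io _ _ hne, de_self, Ta_in, de_self, ioh_o _ _ (by simp [hne]) (by simp [hne]),
        ioh_o _ _ (by simp [hne]) (by simp [hne])]
      simp only [Prod.mk_zero_zero, LinearMap.map_zero, add_zero]
    · rw [ioh_ij, ioh_ij, Td_self, Dd_j, Da_ij, iof_i _ _ hne, iof_j, Ta_in]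
      refine Prod.ext (funext fun n => ?_) ?_
      · rcases tri l m n with rfl | rfl | ⟨hi, hj⟩
        · simp [hne, Ta_ne, Ta_in, de_self, de_apply]
        · simp only [map_zero, zero_add, al_apply, T_a, Ta_in, Pi.add_apply, if_true,
            de_apply, h, and_self, Prod.mk_add_mk, k2_add_self, Pi.zero_apply]
          congr 1
          funext n'
          by_cases hn : n' = l
          · subst hn; simp [de_apply, h.symm]
          · simp [de_apply, hn, k2_add_self]
        · simp [hi, hj, hne, Ta_ne, Ta_out, de_apply, ci_al, cut_ne, be_ci, ze]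
      · simp only [T_d, Td_ne _ hne, Td_self, Prod.snd_add, Prod.mk_add_mk, add_zero, map_add,
          ci_cut, ci_al, dU_ci]
        rw [X.al_eq h]
        congr 2; char2
    · rw [Da_io _ _ hj', Ta_in, ioh_o _ _ (by simp [hj']) (by simp [hne]),
        ioh_o _ _ (by simp [hj']) (by simp [hne]), iof_i _ _ hne, iof_o _ _ hi' hj',
        LinearMap.map_zero, zero_add]
      refine Prod.ext (funext fun n => ?_) (by simp; rfl)
      by_cases hn : n = j
      · subst hn; simp [de_apply, hj'.symm]; rfl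
      · simp only [Prod.fst_add, Pi.add_apply, if_neg hn, X.ci_de hj', de_apply]
        split_ifs <;> simp [k2_add_self] <;> rfl
  · rcases tri i l m with rfl | rfl | ⟨hi', hj'⟩
    · rw [ioh_ji _ _ hne, ioh_ji _ _ hne, Td_ne _ hne.symm, Dd_i _ _ hne, Da_ji _ _ hne, iof_j,
        Ta_out _ hne.symm, ga_iof_i _ h]
      simp only [T_d, T_a, Td_self, Ta_in, Td_ne _ hne.symm, map_zero, zero_add, Prod.mk_add_mk,
        add_zero, d_ze]
      congr 2
      funext n
      by_cases hn : n = m
      · subst hn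
        simp only [al_apply, T_a, Ta_in, Pi.add_apply, if_true, de_apply, h.symm, and_self,
          Prod.mk_add_mk, k2_add_self]
        congr 1; char2
      · simp [hn, Ta_ne, hne.symm, de_apply, ci_al, cut_ne]
    · rw [Da_jo _ _ hne hne.symm, de_self, Ta_ne _ hne.symm hne.symm, a_self,
        ioh_o _ _ (by simp [hne.symm]) (by simp [hne.symm]),
        ioh_o _ _ (by simp [hne.symm]) (by simp [hne.symm])]
      simp only [Prod.mk_zero_zero, LinearMap.map_zero, add_zero]
    · rw [Da_jo _ _ hne hi', Ta_ne _ hne.symm hi', ioh_o _ _ (by simp [hj']) (by simp [hi']),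
        ioh_o _ _ (by simp [hj']) (by simp [hi']), iof_j, iof_o _ _ hi' hj',
        LinearMap.map_zero, zero_add]
      simp only [T_a, Ta_in, map_zero, Prod.mk_add_mk, add_zero, X.ci_de hi']
      refine Prod.ext rfl (Prod.ext (funext fun n => ?_) rfl)
      by_cases hn : n = i
      · subst hn; simp [de_apply, hi'.symm]; rfl
      · simp only [Pi.add_apply, if_neg hn, de_apply]
        split_ifs <;> simp [k2_add_self] <;> rfl
  · rw [ioh_o _ _ (by simp [hi]) (by simp [hj]), ioh_o _ _ (by simp [hi]) (by simp [hj]),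
      LinearMap.map_zero, zero_add, iof_o _ _ hi hj]
    symm
    rcases tri i j m with rfl | rfl | ⟨hi', hj'⟩
    · rw [Da_oi _ _ hi hj, Ta_out _ hi, ga_iof_i _ h]
      simp only [T_a, Ta_ne _ hj hne, Ta_out _ hi, Prod.mk_add_mk, add_zero, map_add, be_ci, be_de,
        ze]
      simp only [← Prod.mk_zero_zero]
      congr 3; char2
    · rw [Da_oj _ _ hne hi hj, Ta_ne _ hi hne.symm, T_a, Ta_out _ hj, ga_iof_j _ h]
      simp [Ta_ne _ hi hne.symm, k2_add_self]
    · simp [Da_oo, iof_o, Ta_ne, hi, hj, hi', hj', k2_add_self]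

theorem io_ft (h : Γ.Adj i j) (m : I) (w : WD I V) :
    X.iof i j m (X.Dt i j m w) = ((X.T i).T j).Tt i m (X.iof i j m w) +
      ∑ l, (((X.T i).T j).Ta i m l (X.ioh i j l m w) + X.ioh i j m l (X.Da i j l m w)) := by
  have hne := h.ne
  rcases tri i j m with rfl | rfl | ⟨hi, hj⟩
  · rw [Finset.sum_eq_single j, Tt_self, ga_iof_i _ h, Dt_i _ _ hne, iof_i _ _ hne, ioh_ji _ _ hne,
      Ta_in, Da_ji _ _ hne, ioh_ij]
    · refine Prod.ext (funext fun n => ?_) ?_
      · by_cases hn : n = j
        · subst hn; simp [de_apply, h]; rfl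
        · simp [de_apply, hn]
      · simp only [Prod.mk_add_mk, add_zero, zero_add, k2_add_self]
        congr 2; char2
    · intro l _ hl
      rw [ioh_o _ _ (by simp [hne]) (by simp [hl]), ioh_o _ _ (by simp [hl]) (by simp [hne]),
        LinearMap.map_zero, add_zero]
    · simp
  · rw [Finset.sum_eq_single i, Tt_ne _ hne.symm, T_t, Tt_self, ga_iof_j _ h, Dt_j, iof_j, ioh_ij,
      Ta_out _ hne.symm, Da_ij, ioh_ji _ _ hne]
    · simp only [T_t, T_a, Tt_ne _ hne, Tt_self, Ta_in, map_zero, zero_add, Prod.mk_add_mk, add_zero,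
        be_ci]
      congr 2
      · funext n
        by_cases hn : n = i
        · subst hn; simp [de_apply, h.symm, ze]
        · simp [de_apply, hn]
      · congr 1; char2
    · intro l _ hl
      rw [ioh_o _ _ (by simp [hl]) (by simp [hne.symm]),
        ioh_o _ _ (by simp [hne.symm]) (by simp [hl]), LinearMap.map_zero, add_zero]
    · simp
  · rw [Finset.sum_eq_zero]
    · simp [Dt_o, iof_o, Tt_ne, hi, hj]
    · intro l _
      rw [ioh_o _ _ (by simp [hj]) (by simp [hi]), ioh_o _ _ (by simp [hi]) (by simp [hj]),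
        LinearMap.map_zero, add_zero]

/-- the weak morphism `Δ i j X → T i T j T i X` -/
def io (h : Γ.Adj i j) : WHom (X.D h) (((X.T i).T j).T i) where
  f := X.iof i j
  h := X.ioh i j
  mem := X.iof_mem h
  h_mem := X.ioh_mem h
  f_d := X.iof_d h
  h_zero l m w hn := X.ioh_o w (by rintro ⟨rfl, rfl⟩; exact hn h)
    (by rintro ⟨rfl, rfl⟩; exact hn h.symm)
  d_h := X.io_dh h
  f_t := X.io_ft h

end DG

end Crest.R175
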