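import Crest.Agent.R175.DG6
import Crest.Agent.R175.DG4

/-! Row 175, part F: `ι` is a quasi-isomorphism; the braid relation. -/

set_option autoImplicit false
set_option linter.unusedSectionVars false
set_option linter.unusedSimpArgs false

namespace Crest.R175

open Module LinearMap

variable {I : Type} [Fintype I] [DecidableEq I]

namespace DG

variable {Γ : SimpleGraph I} [DecidableRel Γ.Adj]
  {V V' : Type} [AddCommGroup V] [Module K2 V] [AddCommGroup V'] [Module K2 V']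
  (X : DG Γ V) {i j : I}

theorem io_qis_o {m : I} (hi : m ≠ i) (hj : m ≠ j) :
    QisAt (X.DL i j m) (X.Dd i j m) (((X.T i).T j).TL i m) (((X.T i).T j).Td i m)
      (X.iof i j m) := by
  refine QisAt.of_iso (fun y => (0, 0, y.2.2.2)) (fun k y hy => ?_) (fun k y _ => ?_)
    (fun k x hx => ?_) (fun k y hy => ?_)
  · simp only [T_L, mem_TL_ne _ hi, mem_TL_ne _ hj] at hy
    exact (X.mem_DL_o hi hj).2 ⟨rfl, rfl, hy.2.2.2⟩
  · simp [Td_ne, Dd_o, hi, hj]
  · rw [mem_DL_o _ hi hj] at hx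
    rw [iof_o _ _ hi hj]
    exact Prod.ext hx.1.symm (Prod.ext hx.2.1.symm rfl)
  · simp only [T_L, mem_TL_ne _ hi, mem_TL_ne _ hj] at hy
    rw [iof_o _ _ hi hj]
    exact Prod.ext hy.1.symm (Prod.ext hy.2.1.symm (Prod.ext hy.2.2.1.symm rfl))

/-- membership at `j` -/
theorem mem_TT_j (h : Γ.Adj i j) {k : ℤ} {y : W I (W I V)} (hy : y ∈ (X.T i).TL j j k) :
    (y.1 i).1 ∈ X.UL i k ∧ (y.1 i).2 ∈ X.L i (k + 1) ∧ cut i (fun l => (y.1 l).2) ∈ X.UC j i k ∧
      (∀ l, l ≠ i → (y.1 l).1 = 0) ∧ y.2.1 = 0 ∧ y.2.2 ∈ X.L j (k + 1) := by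
  rw [mem_TL_self, T_L, mem_TL_ne _ h.ne', mem_UL] at hy
  obtain ⟨⟨h1, h2⟩, h3, h4⟩ := hy
  have h5 := X.mem_TL_self.1 (h1 i)
  refine ⟨h5.1, h5.2, X.mem_UC.2 ⟨⟨fun l => ?_, fun l hl => ?_⟩, cut_self _ _⟩, fun l hl => ?_, h3, h4⟩
  · by_cases hl : l = i
    · rw [hl, cut_self]; exact zero_mem _
    · rw [cut_ne hl]; exact ((X.mem_TL_ne hl).1 (h1 l)).2
  · simp [cut_apply, h2 l hl]
  · exact ((X.mem_TL_ne hl).1 (h1 l)).1

theorem io_qis_j (h : Γ.Adj i j) :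
    QisAt (X.DL i j j) (X.Dd i j j) (((X.T i).T j).TL i j) (((X.T i).T j).Td i j)
      (X.iof i j j) := by
  have hne := h.ne
  refine QisAt.of_sec
    (fun y => (cut j (y.2.1 i).1, cut i (fun l => (y.2.1 l).2) + cut i (X.al j ((y.2.1 i).1 j)),
      (y.2.1 i).2))
    (fun y => (0, (0, (0, (y.2.1 i).1 j)))) (fun k y hy => ?_) (fun k y hy => ?_) (fun k y _ => ?_)
    (fun k x hx => ?_) (fun k x _ => ?_) (fun k y hy => ?_)
  · rw [mem_TL_ne _ hne.symm] at hy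
    obtain ⟨h1, h2, h3, -⟩ := X.mem_TT_j h hy.2
    exact X.mem_DL_j.2 ⟨cut_mem h1, add_mem h3 (cut_mem (al_mem (h1.1 j))), h2⟩
  · rw [mem_TL_ne _ hne.symm] at hy
    obtain ⟨h1, -⟩ := X.mem_TT_j h hy.2
    simp only [T_L, mem_TL_ne _ hne.symm, mem_TL_self, sub_add_cancel]
    exact ⟨trivial, zero_mem _, trivial, h1.1 j⟩
  · simp only [Td_ne _ hne.symm, T_d, Td_self, Dd_j, Pi.add_apply, dU_apply, al_apply, T_a, Ta_in,
      Prod.fst_add, Prod.snd_add, map_add, cut_de_self, add_zero, dU_cut, de_apply, h, and_self,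
      if_true, dU_al]
    congr 2
    have : cut i (fun l => (X.Td i l (y.2.1 l)).2 + (X.Ta i l j y.2.2).2) =
        cut i (X.dU fun l => (y.2.1 l).2) + cut i (X.al j y.2.2.2) := by
      funext l; by_cases hl : l = i
      · simp [hl]
      · simp [cut_ne, hl, Td_ne, Ta_ne, hne.symm]
    rw [this]; char2
  · rw [mem_DL_j] at hx
    rw [iof_j, X.ci_eq hx.1, X.ci_eq hx.2.1]
    simp only [if_true, (X.mem_UC.1 hx.1).2, map_zero, add_zero, cut_eq (X.mem_UC.1 hx.1).2]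
    refine Prod.ext rfl (Prod.ext (funext fun l => ?_) rfl)
    by_cases hl : l = i
    · simp [hl, (X.mem_UC.1 hx.2.1).2]
    · simp [hl, cut_ne]
  · simp [iof_j]
  · rw [mem_TL_ne _ hne.symm] at hy
    obtain ⟨h1, h2, h3, h4, h5, h6⟩ := X.mem_TT_j h hy.2
    rw [iof_j, X.ci_eq (cut_mem h1), X.ci_eq (add_mem h3 (cut_mem (al_mem (h1.1 j))))]
    simp only [Td_ne _ hne.symm, T_d, Td_self, Pi.add_apply, dU_apply, al_apply, T_a, Ta_in,
      Prod.fst_add, Prod.snd_add, map_zero, zero_add, de_apply, h, and_self, if_true,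
      Prod.mk_add_mk, add_zero]
    refine Prod.ext (by simp [hy.1]) (Prod.ext (funext fun l => ?_) (Prod.ext (by simp [h5]) ?_))
    · by_cases hl : l = i
      · subst hl
        simp only [Prod.snd_add, Prod.fst_add, Pi.add_apply, if_true, al_apply, T_a, Ta_in]
        refine Prod.ext ?_ (k2_add_self _)
        have := X.cut_add_de h (y.2.1 l).1
        simp only [Prod.fst_add]
        rw [k2_eq_add this]; char2
      · simp only [Prod.snd_add, Prod.fst_add, Pi.add_apply, if_neg hl, al_apply, T_a,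
          Ta_ne _ hl hne.symm, cut_ne hl]
        refine Prod.ext (by simp [h4 l hl]) ?_
        simp only [Prod.snd_add]; char2
    · simp only [Prod.snd_add]; char2

theorem io_qis_i (h : Γ.Adj i j) :
    QisAt (X.DL i j i) (X.Dd i j i) (((X.T i).T j).TL i i) (((X.T i).T j).Td i i)
      (X.iof i j i) := by
  have hne := h.ne
  have key : ∀ {k : ℤ} {y : W I (W I (W I V))}, y ∈ ((X.T i).T j).TL i i k →
      y.1 j ∈ (X.T i).TL j j k ∧ cut j (fun l => (y.1 l).2.2) ∈ X.UC i j k ∧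
        (∀ l, l ≠ j → (y.1 l).1 = 0 ∧ (y.1 l).2.1 = 0) ∧ y.2.1 = 0 := by
    intro k y hy
    rw [mem_TL_self, T_L, mem_TL_ne _ hne, mem_UL] at hy
    obtain ⟨⟨h1, h2⟩, h3, -⟩ := hy
    have h0 := h2 i (Γ.loopless.irrefl i)
    refine ⟨h1 j, X.mem_UC.2 ⟨⟨fun l => ?_, fun l hl => ?_⟩, cut_self _ _⟩, fun l hl => ?_, h3⟩
    · rcases tri i j l with rfl | rfl | ⟨hi, hj⟩
      · simp [cut_apply, h0]
      · simp
      · rw [cut_ne hj]; exact ((X.mem_TL_ne hi).1 (((X.T i).mem_TL_ne hj).1 (h1 l)).2).2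
    · simp [cut_apply, h2 l hl]
    · by_cases hi : l = i
      · simp [hi, h0]
      · have := ((X.T i).mem_TL_ne hl).1 (h1 l)
        exact ⟨this.1, ((X.mem_TL_ne hi).1 this.2).1⟩
  refine QisAt.of_sec
    (fun y => (cut j (fun l => (y.1 l).2.2) +
      cut j (X.al i (X.be i ((y.1 j).1 i).1 + X.t i ((y.1 j).1 i).2)),
      cut i (fun l => ((y.1 j).1 l).2), (y.1 j).2.2))
    (fun y => (0, (0, (y.1 j).1 i))) (fun k y hy => ?_) (fun k y hy => ?_) (fun k y hy => ?_)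
    (fun k x hx => ?_) (fun k x _ => ?_) (fun k y hy => ?_)
  · obtain ⟨g1, g2, -⟩ := key hy
    obtain ⟨h1, h2, h3, -, -, h6⟩ := X.mem_TT_j h g1
    exact (X.mem_DL_i hne).2 ⟨add_mem g2 (cut_mem (al_mem (X.ga_mem h1 h2))), h3, h6⟩
  · obtain ⟨g1, -⟩ := key hy
    obtain ⟨h1, h2, -⟩ := X.mem_TT_j h g1
    simp only [T_L, mem_TL_ne _ hne, mem_TL_self, sub_add_cancel]
    exact ⟨zero_mem _, trivial, h1, h2⟩
  · obtain ⟨-, -, g3, -⟩ := key hy
    have h0 : y.1 i = 0 := (((X.T i).T j).mem_TL_self.1 hy).1.2 i (Γ.loopless.irrefl i)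
    simp only [Td_self, T_d, Dd_i _ _ hne, Pi.add_apply, dU_apply, al_apply, T_a, Ta_in,
      Prod.fst_add, Prod.snd_add, add_zero, de_apply, h.symm, and_self, if_true, true_and,
      Td_ne _ hne.symm]
    have e1 : cut j (fun l => ((X.T i).Td j l (y.1 l)).2.2 + ((X.T i).Ta j l i y.2).2.2) =
        cut j (X.dU fun l => (y.1 l).2.2) +
          cut j (X.al i (X.be i y.2.2.1 + X.t i y.2.2.2)) := by
      funext l
      rcases tri i j l with rfl | rfl | ⟨hi, hj⟩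
      · simp [cut_ne, hne, h0, Ta_ne, Ta_in, a_self]
      · simp
      · simp [cut_ne, hi, hj, hne, Td_ne, Ta_ne, Ta_out]
    have e2 : cut i (fun l => (X.Td i l ((y.1 j).1 l)).2 + (X.Ta i l j (y.1 j).2).2 +
        (if l = i then y.2.2 else 0).2) =
        cut i (X.dU fun l => ((y.1 j).1 l).2) + cut i (X.al j (y.1 j).2.2) := by
      funext l; by_cases hl : l = i
      · simp [hl]
      · simp [cut_ne, hl, Td_ne, Ta_ne, hne.symm]
    rw [e1, e2]
    simp only [map_add, dU_cut, dU_al, d_be, d_t', be_de]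
    congr 1; char2
  · rw [mem_DL_i _ hne] at hx
    rw [iof_i _ _ hne, X.ci_eq hx.1, X.ci_eq hx.2.1]
    simp only [if_true, (X.mem_UC.1 hx.2.1).2, map_zero, add_zero]
    refine Prod.ext (funext fun l => ?_) (Prod.ext (cut_eq (X.mem_UC.1 hx.2.1).2) rfl)
    by_cases hl : l = j
    · simp [hl, (X.mem_UC.1 hx.1).2]
    · simp [hl, cut_ne]
  · simp [iof_i, hne]
  · obtain ⟨g1, g2, g3, g4⟩ := key hy
    obtain ⟨h1, h2, h3, h4, h5, h6⟩ := X.mem_TT_j h g1
    rw [iof_i _ _ hne, X.ci_eq (add_mem g2 (cut_mem (al_mem (X.ga_mem h1 h2)))), X.ci_eq h3]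
    simp only [Td_self, T_d, Td_ne _ hne, Pi.add_apply, dU_apply, al_apply, T_a, Ta_in,
      Prod.fst_add, Prod.snd_add, map_zero, zero_add, de_apply, h.symm, and_self, if_true,
      Prod.mk_add_mk, add_zero]
    refine Prod.ext (funext fun l => ?_) (Prod.ext (by simp [g4]) ?_)
    · simp only [Prod.fst_add, Pi.add_apply, al_apply, T_a]
      rcases tri i j l with rfl | rfl | ⟨hi, hj⟩
      · have h0 : y.1 l = 0 := (((X.T l).T j).mem_TL_self.1 hy).1.2 l (Γ.loopless.irrefl l)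
        simp [hne, h0, cut_ne, Ta_ne, Ta_in, a_self, de_self]
      · rw [if_pos rfl, Ta_in]
        refine Prod.ext (funext fun n => ?_) (Prod.ext (by simp [h5]) (k2_add_self _))
        by_cases hn : n = i
        · simp [hn, de_apply, h.symm]
        · refine Prod.ext (by simp [hn, de_apply, h4 n hn]) ?_
          simp [hn, de_apply, cut_ne, k2_add_self]
      · rw [if_neg hj, Ta_ne _ hj hne, T_a, Ta_out _ hi]
        refine Prod.ext (by simp [(g3 l hj).1]) (Prod.ext (by simp [(g3 l hj).2]) ?_)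
        simp only [Prod.snd_add, cut_ne hj, al_apply]; char2
    · refine Prod.ext ?_ ?_ <;> simp only [Prod.fst_add, Prod.snd_add] <;> char2

theorem io_qis (h : Γ.Adj i j) : Qis (X.D h) (((X.T i).T j).T i) (X.io h).f := by
  intro m
  rcases tri i j m with rfl | rfl | ⟨hi, hj⟩
  · exact X.io_qis_i h
  · exact X.io_qis_j h
  · exact X.io_qis_o hi hj

/-- exchange of the first two slots -/
def swp : WD I V →ₗ[K2] WD I V := lin (fun w => (w.2.1, w.1, w.2.2)) fun _ _ => rfl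

@[simp] theorem swp_apply (w : WD I V) : swp w = (w.2.1, w.1, w.2.2) := rfl

theorem swp_mem (h : i ≠ j) (m : I) (k : ℤ) (w : WD I V) (hw : w ∈ X.DL i j m k) :
    swp w ∈ X.DL j i m k := by
  rcases tri i j m with rfl | rfl | ⟨hi, hj⟩
  · rw [mem_DL_i _ h] at hw; exact X.mem_DL_j.2 ⟨hw.2.1, hw.1, hw.2.2⟩
  · rw [mem_DL_j] at hw; exact (X.mem_DL_i h.symm).2 ⟨hw.2.1, hw.1, hw.2.2⟩
  · rw [mem_DL_o _ hi hj] at hw; exact (X.mem_DL_o hj hi).2 ⟨hw.2.1, hw.1, hw.2.2⟩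

theorem swp_d (h : i ≠ j) (m : I) (w : WD I V) : swp (X.Dd i j m w) = X.Dd j i m (swp w) := by
  rcases tri i j m with rfl | rfl | ⟨hi, hj⟩
  · rw [Dd_i _ _ h, Dd_j]; rfl
  · rw [Dd_i _ _ h.symm, Dd_j]; rfl
  · rw [Dd_o _ _ hi hj, Dd_o _ _ hj hi]; rfl

theorem rel_swap (h : Γ.Adj i j) : Rel (X.D h) (X.D h.symm) := by
  have hne := h.ne
  refine ⟨⟨⟨fun _ => swp, X.swp_mem hne, X.swp_d hne, fun l m w => ?_⟩, fun m w => ?_⟩, fun m => ?_⟩
  · simp only [D_a]
    rcases tri i j l with rfl | rfl | ⟨hi, hj⟩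
    · by_cases hm : m = j
      · subst hm; rw [Da_ij, Da_ji _ _ hne.symm]; rfl
      · rw [Da_io _ _ hm, Da_jo _ _ hne.symm hm]; rfl
    · by_cases hm : m = i
      · subst hm; rw [Da_ij, Da_ji _ _ hne]; rfl
      · rw [Da_io _ _ hm, Da_jo _ _ hne hm]; rfl
    · rcases tri i j m with rfl | rfl | ⟨hi', hj'⟩
      · rw [Da_oi _ _ hi hj, Da_oj _ _ hne.symm hj hi]; rfl
      · rw [Da_oj _ _ hne hi hj, Da_oi _ _ hj hi]; rfl
      · rw [Da_oo _ _ hi hj hi' hj', Da_oo _ _ hj hi hj' hi']; rfl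
  · simp only [D_t]
    rcases tri i j m with rfl | rfl | ⟨hi, hj⟩
    · rw [Dt_i _ _ hne, Dt_j]; rfl
    · rw [Dt_i _ _ hne.symm, Dt_j]; rfl
    · rw [Dt_o _ _ hi hj, Dt_o _ _ hj hi]; rfl
  · exact QisAt.of_iso swp (X.swp_mem hne.symm m) (fun _ y _ => X.swp_d hne.symm m y)
      (fun _ _ _ => rfl) (fun _ _ _ => rfl)

end DG

end Crest.R175
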