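import Crest.Agent.R175.DGH

/-! Row 175, part F: the long exact sequence of a twist. -/

set_option autoImplicit false
set_option linter.unusedSectionVars false

namespace Crest.R175

open Module LinearMap

variable {I : Type} [Fintype I] [DecidableEq I]

namespace DG

variable {Γ : SimpleGraph I} [DecidableRel Γ.Adj]
  {V V' : Type} [AddCommGroup V] [Module K2 V] [AddCommGroup V'] [Module K2 V']
  (X : DG Γ V) [FiniteDimensional K2 V]

theorem dgstep_mem0 {i l : I} (h : l ≠ i) {k : ℤ} {v : V} (hv : v ∈ X.Zc l k) :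
    ((0, v) : W I V) ∈ (X.T i).Zc l k := by
  rw [mem_Zc, T_L, T_d, mem_TL_ne _ h, Td_ne _ h]
  refine ⟨⟨rfl, hv.1⟩, ?_⟩
  rw [(X.mem_Zc.1 hv).2]; rfl

theorem dgstep_memU {i : I} {k : ℤ} {v : I → V} (h0 : ∀ l, ¬ Γ.Adj i l → v l = 0)
    (hv : ∀ l, v l ∈ X.Zc l k) : ((v, 0) : W I V) ∈ (X.T i).Zc i k := by
  rw [mem_Zc, T_L, T_d, mem_TL_self, Td_self]
  refine ⟨⟨⟨fun l => (hv l).1, h0⟩, zero_mem _⟩, ?_⟩
  refine Prod.ext ?_ (by simp)
  funext l
  simpa using (X.mem_Zc.1 (hv l)).2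

theorem dgstep_rep (i : I) (k : ℤ) (u : ((X.T i).H k).U i) :
    ∃ v : I → V, (∀ l, ¬ Γ.Adj i l → v l = 0) ∧ ∃ hv : ∀ l, v l ∈ X.Zc l k,
      u = fun l : Nb Γ i => (X.T i).cls l.1 k (0, v l.1) (X.dgstep_mem0 l.2.ne' (hv l.1)) := by
  have h : ∀ l : Nb Γ i, ∃ v, ∃ hv : v ∈ X.Zc l.1 k,
      u l = (X.T i).cls l.1 k (0, v) (X.dgstep_mem0 l.2.ne' hv) := by
    intro l
    obtain ⟨w, hw, e⟩ := (X.T i).cls_surj (u l)
    have hw' := hw
    rw [mem_Zc, T_L, T_d, mem_TL_ne _ l.2.ne', Td_ne _ l.2.ne'] at hw'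
    refine ⟨w.2, ⟨hw'.1.2, congrArg Prod.snd hw'.2⟩, e.trans ((X.T i).cls_congr ?_)⟩
    exact Prod.ext hw'.1.1 rfl
  choose v hv e using h
  refine ⟨fun l => if h : Γ.Adj i l then v ⟨l, h⟩ else 0, fun l hl => dif_neg hl, fun l => ?_, ?_⟩
  · beta_reduce
    by_cases hl : Γ.Adj i l
    · rw [dif_pos hl]; exact hv ⟨l, hl⟩
    · rw [dif_neg hl]; exact zero_mem _
  · funext l
    rw [e l]
    exact (X.T i).cls_congr (by beta_reduce; rw [dif_pos l.2])

theorem dgstep_beta (i : I) (k : ℤ) {v : I → V} (h0 : ∀ l, ¬ Γ.Adj i l → v l = 0)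
    (hv : ∀ l, v l ∈ X.Zc l k) :
    ((X.T i).H k).β i (fun l => (X.T i).cls l.1 k (0, v l.1) (X.dgstep_mem0 l.2.ne' (hv l.1))) =
      (X.T i).cls i k (v, 0) (X.dgstep_memU h0 hv) := by
  rw [PM.β_apply]
  simp only [hmap_cls]
  rw [cls_sum]
  refine (X.T i).cls_congr ?_
  simp only [T_a, Ta_in]
  refine Prod.ext ?_ (by simp [Prod.snd_sum])
  funext m
  rw [Prod.fst_sum, Finset.sum_apply]
  simp only [de_apply]
  by_cases hm : Γ.Adj i m
  · rw [Finset.sum_eq_single (⟨m, hm⟩ : Nb Γ i)]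
    · simp [hm]
    · intro l _ hl
      rw [if_neg]
      rintro ⟨-, rfl⟩
      exact hl rfl
    · simp
  · rw [h0 m hm]
    refine Finset.sum_eq_zero fun l _ => ?_
    rw [if_neg]
    rintro ⟨h1, rfl⟩
    exact hm h1

theorem dgstep_ext {i : I} {k : ℤ} {y : I → V} (h0 : ∀ l, ¬ Γ.Adj i l → y l = 0)
    (h : ∀ l : Nb Γ i, y l.1 ∈ X.Bd l.1 k) : ∃ w ∈ X.UL i (k - 1), X.dU w = y := by
  choose w hw e using h
  refine ⟨fun l => if h : Γ.Adj i l then w ⟨l, h⟩ else 0, ⟨fun l => ?_, fun l hl => dif_neg hl⟩, ?_⟩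
  · beta_reduce
    by_cases hl : Γ.Adj i l
    · rw [dif_pos hl]; exact hw ⟨l, hl⟩
    · rw [dif_neg hl]; exact zero_mem _
  · funext l
    rw [dU_apply]
    by_cases hl : Γ.Adj i l
    · rw [dif_pos hl]; exact e ⟨l, hl⟩
    · rw [dif_neg hl, h0 l hl, map_zero]

theorem dgstep_zc (i : I) (k : ℤ) :
    ∀ w ∈ (X.T i).Zc i k, snd K2 (I → V) V w ∈ X.Zc i (k + 1) := by
  intro w hw
  rw [mem_Zc, T_L, T_d, mem_TL_self, Td_self] at hw
  exact ⟨hw.1.2, congrArg Prod.snd hw.2⟩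

theorem dgstep_bd (i : I) (k : ℤ) :
    ∀ w ∈ (X.T i).Bd i k, snd K2 (I → V) V w ∈ X.Bd i (k + 1) := by
  rintro _ ⟨w, hw, rfl⟩
  have hw' : w ∈ X.TL i i (k - 1) := hw
  rw [mem_TL_self] at hw'
  refine ⟨w.2, by simpa using hw'.2, ?_⟩
  rw [T_d, Td_self]; rfl

/-- Use `g = (X.gaMap i).H k`.  Off `i`: `CMap.bij` with `QisAt.of_iso` (`g v = (0, v)`).
At `i`: write `u l = cls (0, v l)` (`cls_surj`, `mem_TL_ne`), extend `v` by `0` to `I → V`; then
`β u = cls (v, 0)` (`PM.β_apply`, `cls_sum`, `Ta_in`).  `(v,0) = d (w, x)` means `d x = 0` and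
`v l = d (w l) + a l i x` for all `l`, i.e. `α (cls x) = g u`. -/
theorem step1_T (i : I) (k : ℤ) : Step1 {i} ((X.T i).H k) (X.H k) := by
  refine ⟨(X.gaMap i).H k, fun l hl => ?_, fun j hj u => ?_⟩
  · have hl' : l ≠ i := hl
    refine (X.gaMap i).bij (QisAt.of_iso (fun v => ((0, v) : W I V)) ?_ ?_ ?_ ?_) k
    · intro k y hy
      rw [T_L, mem_TL_ne _ hl']; exact ⟨rfl, hy⟩
    · intro k y _
      rw [T_d, Td_ne _ hl']
    · intro k x hx
      rw [T_L, mem_TL_ne _ hl'] at hx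
      rw [gaMap_ne _ hl']; exact Prod.ext hx.1.symm rfl
    · intro k y _
      rw [gaMap_ne _ hl']
  · obtain rfl : j = i := hj
    obtain ⟨v, h0, hv, rfl⟩ := X.dgstep_rep j k u
    rw [X.dgstep_beta j k h0 hv, cls_eq_zero]
    have hg : ∀ l : Nb Γ j, ((X.gaMap j).H k).fU j
        (fun l => (X.T j).cls l.1 k (0, v l.1) (X.dgstep_mem0 l.2.ne' (hv l.1))) l =
        X.cls l.1 k (v l.1) (hv l.1) := fun l =>
      X.cls_congr (X.gaMap_ne l.2.ne' _)
    constructor
    · rintro ⟨w, hw, e⟩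
      have hw' : w ∈ X.TL j j (k - 1) := hw
      rw [mem_TL_self] at hw'
      rw [T_d, Td_self] at e
      have e1 : X.dU w.1 + X.al j w.2 = v := congrArg Prod.fst e
      have e2 : X.d j w.2 = 0 := congrArg Prod.snd e
      have hm : w.2 ∈ X.Zc j k := X.mem_Zc.2 ⟨by simpa using hw'.2, e2⟩
      refine ⟨X.cls j k w.2 hm, funext fun l => ?_⟩
      rw [hg, PM.α_apply, H_a_cls, cls_eq_cls]
      refine ⟨w.1 l.1, hw'.1.1 l.1, ?_⟩
      rw [← e1]
      simp only [Pi.add_apply, dU_apply, al_apply]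
      char2
    · rintro ⟨z, hz⟩
      obtain ⟨x, hx, rfl⟩ := X.cls_surj z
      obtain ⟨w, hw, e⟩ := X.dgstep_ext (i := j) (k := k) (y := X.al j x + v)
        (fun l hl => by
          simp only [Pi.add_apply, al_apply]
          rw [h0 l hl, X.a_zero l j x fun h => hl h.symm, add_zero])
        (fun l => by
          have := congrFun hz l
          rw [hg, PM.α_apply, H_a_cls, cls_eq_cls] at this
          exact this)
      refine ⟨(w, x), ?_, ?_⟩
      · change (w, x) ∈ X.TL j j (k - 1)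
        rw [mem_TL_self]
        exact ⟨hw, by simpa using hx.1⟩
      · rw [T_d, Td_self]
        refine Prod.ext ?_ hx.2
        change X.dU w + X.al j x = v
        rw [e]; char2

/-- The map `δ : H^k (T X)_i → H^(k+1) (X)_i`, `cls (u, x) ↦ cls x` (`hmap (snd ..)`) has image
`ker α` and kernel `range β`; rank-nullity (`LinearMap.finrank_range_add_finrank_ker`).
Kernel: if `x = d x0` then `(u,x) + d (0,x0) = (u + α x0, 0)` and every `(u + α x0) l` is a cycle. -/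
theorem dim_T (i : I) (k : ℤ) : ((X.T i).H k).dim i =
    finrank K2 (range (((X.T i).H k).β i)) + finrank K2 (ker ((X.H (k + 1)).α i)) := by
  let δ : (X.T i).HV i k →ₗ[K2] X.HV i (k + 1) :=
    hmap (snd K2 (I → V) V) (X.dgstep_zc i k) (X.dgstep_bd i k)
  have h1 : range δ = ker ((X.H (k + 1)).α i) := by
    ext z
    rw [mem_range, mem_ker]
    constructor
    · rintro ⟨y, rfl⟩
      obtain ⟨w, hw, rfl⟩ := (X.T i).cls_surj y
      funext l
      have hw' := hw
      rw [mem_Zc, T_L, T_d, mem_TL_self, Td_self] at hw'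
      have e1 : X.dU w.1 + X.al i w.2 = 0 := congrArg Prod.fst hw'.2
      change X.cls l.1 (k + 1) (X.a l.1 i w.2) (X.a_Zc _ _ _ _ (X.dgstep_zc i k w hw)) = 0
      rw [cls_eq_zero]
      exact ⟨w.1 l.1, by simpa using hw'.1.1.1 l.1, congrFun (k2_eq_of_add e1) l.1⟩
    · intro hz
      obtain ⟨x, hx, rfl⟩ := X.cls_surj z
      obtain ⟨w, hw, e⟩ := X.dgstep_ext (i := i) (k := k + 1) (y := X.al i x)
        (fun l hl => X.a_zero l i x fun h => hl h.symm)
        (fun l => by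
          have := congrFun hz l
          rw [PM.α_apply, H_a_cls, Pi.zero_apply, cls_eq_zero] at this
          exact this)
      have hm : ((w, x) : W I V) ∈ (X.T i).Zc i k := by
        rw [mem_Zc, T_L, T_d, mem_TL_self, Td_self]
        refine ⟨⟨by simpa using hw, hx.1⟩, Prod.ext ?_ hx.2⟩
        change X.dU w + X.al i x = 0
        rw [e, k2_add_self]
      exact ⟨(X.T i).cls i k (w, x) hm, rfl⟩
  have h2 : ker δ = range (((X.T i).H k).β i) := by
    ext z
    rw [mem_range, mem_ker]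
    constructor
    · intro hz
      obtain ⟨w, hw, rfl⟩ := (X.T i).cls_surj z
      have hw' := hw
      rw [mem_Zc, T_L, T_d, mem_TL_self, Td_self] at hw'
      have e1 : X.dU w.1 + X.al i w.2 = 0 := congrArg Prod.fst hw'.2
      have hz' : w.2 ∈ X.Bd i (k + 1) := X.cls_eq_zero.1 hz
      obtain ⟨x0, hx0, e0⟩ := hz'
      have hx0' : x0 ∈ X.L i k := by simpa using hx0
      have h0 : ∀ l, ¬ Γ.Adj i l → (w.1 + X.al i x0) l = 0 := (add_mem hw'.1.1 (al_mem hx0')).2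
      have hv : ∀ l, (w.1 + X.al i x0) l ∈ X.Zc l k := fun l => by
        refine ⟨(add_mem hw'.1.1 (al_mem hx0')).1 l, ?_⟩
        have := congrFun e1 l
        simp only [Pi.add_apply, dU_apply, al_apply, Pi.zero_apply] at this
        change X.d l (w.1 l + X.a l i x0) = 0
        rw [map_add, X.d_a, e0, this]
      refine ⟨_, (X.dgstep_beta i k h0 hv).trans ?_⟩
      rw [cls_eq_cls]
      refine ⟨(0, x0), ?_, ?_⟩
      · change ((0, x0) : W I V) ∈ X.TL i i (k - 1)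
        rw [mem_TL_self]
        exact ⟨zero_mem _, by simpa using hx0'⟩
      · rw [T_d, Td_self]
        refine Prod.ext ?_ ?_
        · change X.dU 0 + X.al i x0 = w.1 + X.al i x0 + w.1
          rw [map_zero]; char2
        · change X.d i x0 = 0 + w.2
          rw [e0, zero_add]
    · rintro ⟨u, rfl⟩
      obtain ⟨v, h0, hv, rfl⟩ := X.dgstep_rep i k u
      rw [X.dgstep_beta i k h0 hv]
      rfl
  have h3 := LinearMap.finrank_range_add_finrank_ker δ
  rw [h1, h2] at h3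
  rw [add_comm]
  exact h3.symm

theorem step_T (i : I) : Step {i} (X.T i).H X.H :=
  ⟨X.step1_T i, fun k j hj => by rw [Set.mem_singleton_iff.1 hj]; exact X.dim_T i k⟩

end DG

end Crest.R175
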