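import Crest.Agent.R175.PM

/-! Row 175: formal properties of `Step`. -/

set_option autoImplicit false
set_option linter.unusedSectionVars false

namespace Crest.R175

open Module

variable {I : Type} [Fintype I] {Γ : SimpleGraph I}

/-- composition of morphisms -/
def pmstep_comp {Z Z' Z'' : PM Γ} (g : PM.Hom Z Z') (g' : PM.Hom Z' Z'') : PM.Hom Z Z'' :=
  ⟨fun i => g'.f i ∘ₗ g.f i, fun i j v => by
    rw [LinearMap.comp_apply, LinearMap.comp_apply, g.comm, g'.comm]⟩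

theorem pmstep_dim {Z Z' : PM Γ} (g : PM.Hom Z Z') {i : I} (h : Function.Bijective (g.f i)) :
    Z.dim i = Z'.dim i :=
  (LinearEquiv.ofBijective (g.f i) h).finrank_eq

theorem PM.Iso.refl (Z : PM Γ) : PM.Iso Z Z :=
  ⟨⟨fun _ => LinearMap.id, fun _ _ _ => rfl⟩, fun _ => Function.bijective_id⟩

theorem PM.Iso.symm {Z Z' : PM Γ} (h : PM.Iso Z Z') : PM.Iso Z' Z := by
  obtain ⟨g, hg⟩ := h
  refine ⟨⟨fun i => (LinearEquiv.ofBijective (g.f i) (hg i)).symm.toLinearMap, fun i j v => ?_⟩,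
    fun i => (LinearEquiv.ofBijective (g.f i) (hg i)).symm.bijective⟩
  obtain ⟨w, rfl⟩ := (hg j).2 v
  rw [← g.comm]
  exact ((LinearEquiv.ofBijective (g.f i) (hg i)).symm_apply_apply _).trans
    (congrArg _ ((LinearEquiv.ofBijective (g.f j) (hg j)).symm_apply_apply w).symm)

theorem PM.Iso.trans {Z Z' Z'' : PM Γ} (h : PM.Iso Z Z') (h' : PM.Iso Z' Z'') : PM.Iso Z Z'' := by
  obtain ⟨g, hg⟩ := h
  obtain ⟨g', hg'⟩ := h'
  exact ⟨pmstep_comp g g', fun i => (hg' i).comp (hg i)⟩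

theorem PM.Iso.dim_eq {Z Z' : PM Γ} (h : PM.Iso Z Z') (i : I) : Z.dim i = Z'.dim i := by
  obtain ⟨g, hg⟩ := h
  exact pmstep_dim g (hg i)

theorem PM.Hom.α_f {Z Z' : PM Γ} (g : PM.Hom Z Z') (i : I) (v : Z.V i) :
    Z'.α i (g.f i v) = g.fU i (Z.α i v) :=
  funext fun l => (g.comm l.1 i v).symm

theorem PM.Hom.β_fU {Z Z' : PM Γ} (g : PM.Hom Z Z') (i : I) (u : Z.U i) :
    Z'.β i (g.fU i u) = g.f i (Z.β i u) := by
  rw [PM.β_apply, PM.β_apply, map_sum]
  exact Finset.sum_congr rfl fun l _ => (g.comm i l.1 (u l)).symm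

/-- the linear map induced on the neighbour sums -/
noncomputable def pmstep_fU {Z Z' : PM Γ} (g : PM.Hom Z Z') (i : I) : Z.U i →ₗ[K2] Z'.U i :=
  LinearMap.pi fun l => g.f l.1 ∘ₗ LinearMap.proj l

theorem pmstep_bijU {Z Z' : PM Γ} (g : PM.Hom Z Z') {i : I}
    (h : ∀ l, Γ.Adj i l → Function.Bijective (g.f l)) : Function.Bijective (g.fU i) := by
  refine ⟨fun u u' e => funext fun l => (h l.1 l.2).1 (congrFun e l), fun u' => ?_⟩
  choose u hu using fun l : Nb Γ i => (h l.1 l.2).2 (u' l)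
  exact ⟨u, funext hu⟩

theorem pmstep_U (Z : PM Γ) (i : I) : finrank K2 (Z.U i) = ∑ l : Nb Γ i, Z.dim l.1 :=
  Module.finrank_pi_fintype K2

theorem pmstep_map {V W : Type} [AddCommGroup V] [Module K2 V] [AddCommGroup W] [Module K2 W]
    (f : V →ₗ[K2] W) (hf : Function.Injective f) {A : Submodule K2 V} {B : Submodule K2 W}
    (h : A.map f = B) : finrank K2 A = finrank K2 B := by
  rw [← h]
  exact (Submodule.equivMapOfInjective f hf A).finrank_eq

theorem pmstep_range {Z Z' : PM Γ} (g : PM.Hom Z Z') {i : I} (hi : Function.Bijective (g.f i))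
    (h : ∀ l, Γ.Adj i l → Function.Bijective (g.f l)) :
    finrank K2 (LinearMap.range (Z.β i)) = finrank K2 (LinearMap.range (Z'.β i)) := by
  refine pmstep_map (g.f i) hi.1 (le_antisymm ?_ ?_)
  · rintro _ ⟨_, ⟨u, rfl⟩, rfl⟩
    exact ⟨_, g.β_fU i u⟩
  · rintro _ ⟨u', rfl⟩
    obtain ⟨u, rfl⟩ := (pmstep_bijU g h).2 u'
    exact ⟨_, ⟨u, rfl⟩, (g.β_fU i u).symm⟩

theorem pmstep_ker {Z Z' : PM Γ} (g : PM.Hom Z Z') {i : I} (hi : Function.Bijective (g.f i))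
    (h : ∀ l, Γ.Adj i l → Function.Bijective (g.f l)) :
    finrank K2 (LinearMap.ker (Z.α i)) = finrank K2 (LinearMap.ker (Z'.α i)) := by
  refine pmstep_map (g.f i) hi.1 (le_antisymm ?_ ?_)
  · rintro _ ⟨v, hv, rfl⟩
    rw [LinearMap.mem_ker, g.α_f, LinearMap.mem_ker.1 hv]
    exact (pmstep_fU g i).map_zero
  · intro v' hv'
    obtain ⟨v, rfl⟩ := hi.2 v'
    refine ⟨v, (pmstep_bijU g h).1 ?_, rfl⟩
    rw [← g.α_f, LinearMap.mem_ker.1 hv']
    exact (pmstep_fU g i).map_zero.symm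

theorem pmstep_Q_right {Z Z' Z'' : PM Γ} (g : PM.Hom Z Z') (g' : PM.Hom Z' Z'') {i : I}
    (h1 : Function.Surjective (g'.f i)) (h2 : Function.Injective (g'.fU i))
    (hq : ∀ u : Z.U i, Z.β i u = 0 ↔ ∃ v', Z'.α i v' = g.fU i u) (u : Z.U i) :
    Z.β i u = 0 ↔ ∃ v'', Z''.α i v'' = (pmstep_comp g g').fU i u := by
  rw [hq]
  constructor
  · rintro ⟨v', e⟩
    exact ⟨g'.f i v', by rw [g'.α_f, e]; rfl⟩
  · rintro ⟨v'', e⟩
    obtain ⟨v', rfl⟩ := h1 v''
    exact ⟨v', h2 (by rw [← g'.α_f, e]; rfl)⟩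

theorem pmstep_Q_left {Z Z' Z'' : PM Γ} (g : PM.Hom Z Z') (g' : PM.Hom Z' Z'') {i : I}
    (h1 : Function.Injective (g.f i))
    (hq : ∀ u : Z'.U i, Z'.β i u = 0 ↔ ∃ v', Z''.α i v' = g'.fU i u) (u : Z.U i) :
    Z.β i u = 0 ↔ ∃ v'', Z''.α i v'' = (pmstep_comp g g').fU i u := by
  rw [← (map_eq_zero_iff (g.f i) h1), ← g.β_fU, hq]
  rfl

theorem pmstep_kr {J : Set I} {Z Z' : PM Γ} (h : Step1 J Z Z') (hJ : Indep Γ J) {i : I}
    (hi : i ∈ J) : finrank K2 (LinearMap.ker (Z.β i)) = finrank K2 (LinearMap.range (Z'.α i)) := by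
  obtain ⟨g, hg, hq⟩ := h
  have hU := pmstep_bijU g fun l hl => hg l fun a => hJ i hi l a hl
  refine pmstep_map (pmstep_fU g i) hU.1 (le_antisymm ?_ ?_)
  · rintro _ ⟨u, hu, rfl⟩
    exact (hq i hi u).1 hu
  · rintro _ ⟨v', rfl⟩
    obtain ⟨u, hu⟩ := hU.2 (Z'.α i v')
    exact ⟨u, (hq i hi u).2 ⟨v', hu.symm⟩, hu⟩

theorem pmstep_noTop {Z : PM Γ} {i : I} (h : Z.NoTop i) :
    finrank K2 (LinearMap.range (Z.β i)) = Z.dim i := by
  rw [LinearMap.range_eq_top.2 h, finrank_top]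
  rfl

theorem Step.congr {J : Set I} {H₁ H₂ H₁' H₂' : ℤ → PM Γ} (h : Step J H₁ H₁')
    (e : ∀ k, PM.Iso (H₁ k) (H₂ k)) (e' : ∀ k, PM.Iso (H₁' k) (H₂' k)) : Step J H₂ H₂' := by
  refine ⟨fun k => ?_, fun k i hi => ?_⟩
  · obtain ⟨g, hg, hq⟩ := h.1 k
    obtain ⟨a, ha⟩ := (e k).symm
    obtain ⟨b, hb⟩ := e' k
    exact ⟨pmstep_comp a (pmstep_comp g b), fun l hl => ((hb l).comp (hg l hl)).comp (ha l),
      fun i hi => pmstep_Q_left a _ (ha i).1
        (pmstep_Q_right g b (hb i).2 (pmstep_bijU b fun l _ => hb l).1 (hq i hi))⟩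
  · obtain ⟨a, ha⟩ := e k
    obtain ⟨b, hb⟩ := e' (k + 1)
    rw [← pmstep_dim a (ha i), ← pmstep_range a (ha i) fun l _ => ha l,
      ← pmstep_ker b (hb i) fun l _ => hb l]
    exact h.2 k i hi

theorem Step.of_iso {H H' : ℤ → PM Γ} (e : ∀ k, PM.Iso (H k) (H' k)) : Step ∅ H H' := by
  refine ⟨fun k => ?_, fun _ _ hi => hi.elim⟩
  obtain ⟨g, hg⟩ := e k
  exact ⟨g, fun l _ => hg l, fun _ hi => hi.elim⟩

/-- composition along an independent set: at `i ∈ J` the second morphism is bijective at `i` and at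
all neighbours of `i`, and symmetrically. -/
theorem Step.comp {J J' : Set I} {H H' H'' : ℤ → PM Γ} (h : Step J H H') (h' : Step J' H' H'')
    (hd : Disjoint J J') (hi : Indep Γ (J ∪ J')) : Step (J ∪ J') H H'' := by
  refine ⟨fun k => ?_, fun k i hiJ => ?_⟩
  · obtain ⟨g, hg, hq⟩ := h.1 k
    obtain ⟨g', hg', hq'⟩ := h'.1 k
    refine ⟨pmstep_comp g g', fun l hl => (hg' l fun a => hl (Or.inr a)).comp
      (hg l fun a => hl (Or.inl a)), ?_⟩
    rintro i (hiJ | hiJ)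
    · exact pmstep_Q_right g g' (hg' i (Set.disjoint_left.1 hd hiJ)).2
        (pmstep_bijU g' fun l hl => hg' l fun a => hi i (Or.inl hiJ) l (Or.inr a) hl).1 (hq i hiJ)
    · exact pmstep_Q_left g g' (hg i (Set.disjoint_right.1 hd hiJ)).1 (hq' i hiJ)
  · rcases hiJ with hiJ | hiJ
    · obtain ⟨g', hg', -⟩ := h'.1 (k + 1)
      rw [← pmstep_ker g' (hg' i (Set.disjoint_left.1 hd hiJ))
        fun l hl => hg' l fun a => hi i (Or.inl hiJ) l (Or.inr a) hl]
      exact h.2 k i hiJ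
    · obtain ⟨g, hg, -⟩ := h.1 k
      rw [pmstep_dim g (hg i (Set.disjoint_right.1 hd hiJ)),
        pmstep_range g (hg i (Set.disjoint_right.1 hd hiJ))
          fun l hl => hg l fun a => hi i (Or.inr hiJ) l (Or.inl a) hl]
      exact h'.2 k i hiJ

theorem Step1.dim_eq {J : Set I} {Z Z' : PM Γ} (h : Step1 J Z Z') {l : I} (hl : l ∉ J) :
    Z.dim l = Z'.dim l := by
  obtain ⟨g, hg, -⟩ := h
  exact pmstep_dim g (hg l hl)

/-- `dim Z_i ≥ dim im β = U - dim ker β` and `dim Z'_i ≥ dim im α' = dim ker β` -/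
theorem Step1.sum_le {J : Set I} {Z Z' : PM Γ} (h : Step1 J Z Z') (hJ : Indep Γ J) {i : I}
    (hi : i ∈ J) : ∑ l : Nb Γ i, Z.dim l.1 ≤ Z.dim i + Z'.dim i := by
  have h1 := LinearMap.finrank_range_add_finrank_ker (Z.β i)
  rw [pmstep_U, pmstep_kr h hJ hi] at h1
  have h2 : finrank K2 (LinearMap.range (Z.β i)) ≤ Z.dim i := Submodule.finrank_le _
  have h3 : finrank K2 (LinearMap.range (Z'.α i)) ≤ Z'.dim i := LinearMap.finrank_range_le _
  omega

/-- if layer `k + 1` of `H'` vanishes at `i ∈ J` then layer `k` of `H` has no top at `i` -/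
theorem Step.noTop {J : Set I} {H H' : ℤ → PM Γ} (h : Step J H H') {k : ℤ} {i : I} (hi : i ∈ J)
    (h0 : (H' (k + 1)).dim i = 0) : (H k).NoTop i := by
  have h1 := h.2 k i hi
  have h2 : finrank K2 (LinearMap.ker ((H' (k + 1)).α i)) ≤ (H' (k + 1)).dim i :=
    Submodule.finrank_le _
  exact LinearMap.range_eq_top.1 (Submodule.eq_top_of_finrank_eq (by unfold PM.dim at *; omega))

/-- going from `H'` to `H`: a vanishing neighbourhood -/
theorem Step.dim_eq_zero_left {J : Set I} {H H' : ℤ → PM Γ} (h : Step J H H') (hJ : Indep Γ J)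
    {k : ℤ} {i : I} (hi : i ∈ J) (h0 : (H' (k + 1)).dim i = 0)
    (hU : ∀ l, Γ.Adj i l → (H' k).dim l = 0) : (H k).dim i = 0 := by
  have h1 := pmstep_noTop (h.noTop hi h0)
  have h2 : finrank K2 (LinearMap.range ((H k).β i)) ≤ finrank K2 ((H k).U i) :=
    LinearMap.finrank_range_le _
  rw [pmstep_U, Finset.sum_eq_zero fun l _ =>
    ((h.1 k).dim_eq fun a => hJ i hi l.1 a l.2).trans (hU l.1 l.2)] at h2
  omega

/-- going from `H` to `H'`: `dim H'^{k+1}_i = dim ker α' + dim im α' = top^k + dim ker β^{k+1}` -/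
theorem Step.dim_eq_zero_right {J : Set I} {H H' : ℤ → PM Γ} (h : Step J H H') (hJ : Indep Γ J)
    {k : ℤ} {i : I} (hi : i ∈ J) (h0 : (H k).NoTop i)
    (hU : ∀ l, Γ.Adj i l → (H (k + 1)).dim l = 0) : (H' (k + 1)).dim i = 0 := by
  have h1 := pmstep_noTop h0
  have h2 := h.2 k i hi
  have h3 := pmstep_kr (h.1 (k + 1)) hJ hi
  have h4 : finrank K2 (LinearMap.ker ((H (k + 1)).β i)) ≤ finrank K2 ((H (k + 1)).U i) :=
    Submodule.finrank_le _
  rw [pmstep_U, Finset.sum_eq_zero fun l _ => hU l.1 l.2] at h4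
  have h5 := LinearMap.finrank_range_add_finrank_ker ((H' (k + 1)).α i)
  unfold PM.dim at *
  omega

theorem Step.bdd_iff {J : Set I} {H H' : ℤ → PM Γ} (h : Step J H H') (hJ : Indep Γ J) :
    Bdd H ↔ Bdd H' := by
  constructor
  · rintro ⟨K, hK⟩
    refine ⟨K + 1, fun k hk i => ?_⟩
    by_cases hi : i ∈ J
    · obtain ⟨k', rfl⟩ : ∃ k', k = k' + 1 := ⟨k - 1, by ring⟩
      refine h.dim_eq_zero_right hJ hi ?_ fun l _ => hK _ (by omega) l
      have : Subsingleton ((H k').V i) := Module.finrank_zero_iff.1 (hK k' (by omega) i)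
      exact fun v => ⟨0, Subsingleton.elim _ _⟩
    · rw [← (h.1 k).dim_eq hi]
      exact hK k (by omega) i
  · rintro ⟨K, hK⟩
    refine ⟨K, fun k hk i => ?_⟩
    by_cases hi : i ∈ J
    · exact h.dim_eq_zero_left hJ hi (hK _ (by omega) i) fun l _ => hK k hk l
    · rw [(h.1 k).dim_eq hi]
      exact hK k hk i

/-- perpendicularity at `i` only depends on the star of `i` -/
theorem Step1.perp_iff {J : Set I} {Z Z' : PM Γ} (h : Step1 J Z Z') {i : I} (hi : i ∉ J)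
    (hn : ∀ l, Γ.Adj i l → l ∉ J) : Z.Perp i ↔ Z'.Perp i := by
  obtain ⟨g, hg, -⟩ := h
  have hb := hg i hi
  have hU := pmstep_bijU g fun l hl => hg l (hn l hl)
  have e1 : Z'.α i ∘ g.f i = g.fU i ∘ Z.α i := funext (g.α_f i)
  have e2 : Z'.β i ∘ g.fU i = g.f i ∘ Z.β i := funext (g.β_fU i)
  unfold PM.Perp
  refine and_congr ?_ (and_congr ?_ ?_)
  · rw [← Function.Injective.of_comp_iff' _ hb, e1, hU.1.of_comp_iff]
  · rw [← Function.Surjective.of_comp_iff _ hU.2, e2, Function.Surjective.of_comp_iff' hb]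
  · rw [pmstep_dim g hb, Finset.sum_congr rfl fun l _ => pmstep_dim g (hg l.1 (hn l.1 l.2))]

/-- If `Z` has no top on `J` and `Z'` is perpendicular on `J`, then `γ` is an isomorphism:
`γ_i` is onto because `β' = γ β γ⁻¹` is onto, and `dim Z_i = U - dim ker β = U - dim Z'_i = dim Z'_i`. -/
theorem Step1.iso_of_perp {J : Set I} {Z Z' : PM Γ} (h : Step1 J Z Z') (hJ : Indep Γ J)
    (ht : ∀ i ∈ J, Z.NoTop i) (hp : ∀ i ∈ J, Z'.Perp i) : PM.Iso Z Z' := by
  have hkr := fun i (hi : i ∈ J) => pmstep_kr h hJ hi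
  obtain ⟨g, hg, -⟩ := h
  refine ⟨g, fun i => ?_⟩
  by_cases hi : i ∈ J
  swap
  · exact hg i hi
  have hN : ∀ l, Γ.Adj i l → Function.Bijective (g.f l) := fun l hl => hg l fun a => hJ i hi l a hl
  obtain ⟨p1, p2, p3⟩ := hp i hi
  have hs : Function.Surjective (g.f i) := fun v' => by
    obtain ⟨u', rfl⟩ := p2 v'
    obtain ⟨u, rfl⟩ := (pmstep_bijU g hN).2 u'
    exact ⟨_, (g.β_fU i u).symm⟩
  have h1 := LinearMap.finrank_range_add_finrank_ker (Z.β i)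
  rw [pmstep_U, hkr i hi, pmstep_noTop (ht i hi), LinearMap.finrank_range_of_inj p1,
    Finset.sum_congr rfl fun l _ => pmstep_dim g (hN l.1 l.2), ← p3] at h1
  refine ⟨(LinearMap.injective_iff_surjective_of_finrank_eq_finrank ?_).2 hs, hs⟩
  unfold PM.dim at h1
  omega

end Crest.R175
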