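import Crest.Agent.R175.DG2
import Crest.Agent.R175.DG3
import Crest.Agent.R175.DG7
import Crest.Agent.R175.DGStep
import Crest.Agent.R175.PMstep

/-! Row 175, part F: the twists as permutations of quasi-isomorphism classes. -/

set_option autoImplicit false
set_option linter.unusedSectionVars false

namespace Crest.R175

open Module

variable {I : Type} [Fintype I] [DecidableEq I]

/-- a finite-dimensional dg module -/
structure Obj (Γ : SimpleGraph I) where
  V : Type
  [acg : AddCommGroup V]
  [mod : Module K2 V]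
  [fin : FiniteDimensional K2 V]
  X : DG Γ V

attribute [instance] Obj.acg Obj.mod Obj.fin

variable {Γ : SimpleGraph I} [DecidableRel Γ.Adj]

namespace Obj

/-- strict quasi-isomorphism -/
def R (A B : Obj Γ) : Prop := DG.Rel A.X B.X

def T (i : I) (A : Obj Γ) : Obj Γ := ⟨DG.W I A.V, A.X.T i⟩

def Tm (i : I) (A : Obj Γ) : Obj Γ := ⟨DG.W I A.V, A.X.Tm i⟩

end Obj

/-- quasi-isomorphism classes -/
def Cl (Γ : SimpleGraph I) : Type 1 := Quot (Obj.R (Γ := Γ))

/-- the class of a dg module -/
def cl {V : Type} [AddCommGroup V] [Module K2 V] [FiniteDimensional K2 V] (X : DG Γ V) : Cl Γ :=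
  Quot.mk _ ⟨V, X⟩

theorem cl_eq {V V' : Type} [AddCommGroup V] [Module K2 V] [FiniteDimensional K2 V]
    [AddCommGroup V'] [Module K2 V'] [FiniteDimensional K2 V'] {X : DG Γ V} {Y : DG Γ V'}
    (h : DG.Rel X Y) : cl X = cl Y := Quot.sound h

/-- the twist as a permutation -/
def tw (i : I) : Equiv.Perm (Cl Γ) where
  toFun := Quot.map (Obj.T i) fun _ _ h => DG.Rel.T h i
  invFun := Quot.map (Obj.Tm i) fun _ _ h => DG.Rel.Tm h i
  left_inv q := by
    induction q using Quot.ind with
    | _ A => exact (cl_eq (A.X.rel_Tm_T i)).symm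
  right_inv q := by
    induction q using Quot.ind with
    | _ A => exact cl_eq (A.X.rel_T_Tm i)

theorem tw_cl {V : Type} [AddCommGroup V] [Module K2 V] [FiniteDimensional K2 V] (X : DG Γ V)
    (i : I) : tw i (cl X) = cl (X.T i) := rfl

theorem tw_comm {i j : I} (hij : i ≠ j) (h : ¬ Γ.Adj i j) :
    (tw i * tw j : Equiv.Perm (Cl Γ)) = tw j * tw i := by
  ext q
  induction q using Quot.ind with
  | _ A => exact cl_eq (A.X.rel_comm hij h)

theorem cl_D {V : Type} [AddCommGroup V] [Module K2 V] [FiniteDimensional K2 V] (X : DG Γ V)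
    {i j : I} (h : Γ.Adj i j) : cl (X.D h) = cl (((X.T i).T j).T i) := by
  obtain ⟨C, h1, h2⟩ := (X.io h).zigzag (X.io_qis h)
  exact (cl_eq h1).trans (cl_eq h2).symm

theorem tw_braid {i j : I} (h : Γ.Adj i j) :
    (tw i * tw j * tw i : Equiv.Perm (Cl Γ)) = tw j * tw i * tw j := by
  ext q
  induction q using Quot.ind with
  | _ A => exact (cl_D A.X h).symm.trans ((cl_eq (A.X.rel_swap h)).trans (cl_D A.X h.symm))

/-- the homology layers of a class -/
noncomputable def HQ (q : Cl Γ) (k : ℤ) : PM Γ := (Quot.out q).X.H k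

theorem HQ_iso (A : Obj Γ) (k : ℤ) : PM.Iso (A.X.H k) (HQ (Quot.mk _ A) k) := by
  have key : ∀ A B : Obj Γ, Relation.EqvGen Obj.R A B → PM.Iso (A.X.H k) (B.X.H k) := by
    intro A B h
    induction h with
    | rel A B h => exact DG.Rel.iso h k
    | refl A => exact PM.Iso.refl _
    | symm A B _ ih => exact ih.symm
    | trans A B C _ _ ih ih' => exact ih.trans ih'
  exact key _ _ (Quot.eqvGen_exact (Quot.out_eq (Quot.mk _ A)).symm)

theorem step_tw (i : I) (q : Cl Γ) : Step {i} (HQ (tw i q)) (HQ q) := by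
  induction q using Quot.ind with
  | _ A => exact (A.X.step_T i).congr (HQ_iso (A.T i)) (HQ_iso A)

theorem step_wp (l : List I) (hl : l.Nodup) (hi : Indep Γ {i | i ∈ l}) (q : Cl Γ) :
    Step {i | i ∈ l} (HQ (wp tw l q)) (HQ q) := by
  induction l with
  | nil => simpa using Step.of_iso fun k => PM.Iso.refl (HQ q k)
  | cons i l ih =>
    rw [List.nodup_cons] at hl
    have e : {j | j ∈ i :: l} = {i} ∪ {j | j ∈ l} := by ext j; simp
    rw [e] at hi ⊢
    rw [wp_cons, Equiv.Perm.mul_apply]
    exact (step_tw i _).comp (ih hl.2 fun a ha b hb => hi a (Or.inr ha) b (Or.inr hb))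
      (by simpa using hl.1) hi

end Crest.R175
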