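import Crest.Agent.R175.DG1

/-! Row 175, part F: the homology layers of a dg module. -/

set_option autoImplicit false
set_option linter.unusedSectionVars false

namespace Crest.R175

open Module LinearMap

variable {I : Type} [Fintype I] [DecidableEq I]

namespace DG

variable {Γ : SimpleGraph I} [DecidableRel Γ.Adj]
  {V V' : Type} [AddCommGroup V] [Module K2 V] [AddCommGroup V'] [Module K2 V']
  (X : DG Γ V)

/-- cycles -/
def Zc (i : I) (k : ℤ) : Submodule K2 V := X.L i k ⊓ ker (X.d i)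

/-- boundaries -/
def Bd (i : I) (k : ℤ) : Submodule K2 V := (X.L i (k - 1)).map (X.d i)

theorem mem_Zc {i : I} {k : ℤ} {v : V} : v ∈ X.Zc i k ↔ v ∈ X.L i k ∧ X.d i v = 0 := Iff.rfl
theorem mem_Bd {i : I} {k : ℤ} {v : V} :
    v ∈ X.Bd i k ↔ ∃ w ∈ X.L i (k - 1), X.d i w = v := Iff.rfl

/-- homology -/
abbrev HV (i : I) (k : ℤ) : Type := X.Zc i k ⧸ (X.Bd i k).submoduleOf (X.Zc i k)

/-- the class of a cycle -/
def cls (i : I) (k : ℤ) (v : V) (h : v ∈ X.Zc i k) : X.HV i k :=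
  Submodule.Quotient.mk ⟨v, h⟩

theorem cls_surj {i : I} {k : ℤ} (z : X.HV i k) : ∃ v h, z = X.cls i k v h := by
  obtain ⟨⟨v, h⟩, rfl⟩ := Submodule.Quotient.mk_surjective _ z
  exact ⟨v, h, rfl⟩

theorem cls_eq_zero {i : I} {k : ℤ} {v : V} {h : v ∈ X.Zc i k} :
    X.cls i k v h = 0 ↔ v ∈ X.Bd i k := Submodule.Quotient.mk_eq_zero _

theorem cls_add {i : I} {k : ℤ} {v w : V} (h : v ∈ X.Zc i k) (h' : w ∈ X.Zc i k) :
    X.cls i k v h + X.cls i k w h' = X.cls i k (v + w) (add_mem h h') := rfl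

theorem cls_zero {i : I} {k : ℤ} : X.cls i k 0 (zero_mem _) = 0 := rfl

theorem cls_eq_cls {i : I} {k : ℤ} {v w : V} {h : v ∈ X.Zc i k} {h' : w ∈ X.Zc i k} :
    X.cls i k v h = X.cls i k w h' ↔ v + w ∈ X.Bd i k := by
  rw [← X.cls_eq_zero (h := add_mem h h'), ← X.cls_add h h']
  exact ⟨fun e => by rw [e, k2_add_self], k2_eq_of_add⟩

theorem cls_congr {i : I} {k : ℤ} {v w : V} {h : v ∈ X.Zc i k} {h' : w ∈ X.Zc i k}
    (e : v = w) : X.cls i k v h = X.cls i k w h' := by subst e; rfl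

theorem cls_sum {i : I} {k : ℤ} {J : Type} (s : Finset J) (v : J → V)
    (h : ∀ j, v j ∈ X.Zc i k) :
    ∑ j ∈ s, X.cls i k (v j) (h j) =
      X.cls i k (∑ j ∈ s, v j) (Submodule.sum_mem _ fun j _ => h j) := by
  classical
  induction s using Finset.induction_on with
  | empty => simp only [Finset.sum_empty]; rfl
  | insert j s hj ih => rw [Finset.sum_insert hj, ih, cls_add]; exact X.cls_congr (by
      rw [Finset.sum_insert hj])

variable {X}

/-- the map induced on homology by a linear map preserving cycles and boundaries -/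
def hmap {Y : DG Γ V'} {i j : I} {k k' : ℤ} (g : V →ₗ[K2] V')
    (hz : ∀ v ∈ X.Zc i k, g v ∈ Y.Zc j k') (hb : ∀ v ∈ X.Bd i k, g v ∈ Y.Bd j k') :
    X.HV i k →ₗ[K2] Y.HV j k' :=
  Submodule.mapQ _ _ (g.restrict hz) fun v hv => hb v hv

@[simp] theorem hmap_cls {Y : DG Γ V'} {i j : I} {k k' : ℤ} (g : V →ₗ[K2] V')
    (hz : ∀ v ∈ X.Zc i k, g v ∈ Y.Zc j k') (hb : ∀ v ∈ X.Bd i k, g v ∈ Y.Bd j k')
    (v : V) (h : v ∈ X.Zc i k) :
    hmap g hz hb (X.cls i k v h) = Y.cls j k' (g v) (hz v h) := rfl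

variable (X) [FiniteDimensional K2 V] [FiniteDimensional K2 V']

theorem a_Zc (l m : I) (k : ℤ) : ∀ v ∈ X.Zc m k, X.a l m v ∈ X.Zc l k := fun v h =>
  X.mem_Zc.2 ⟨X.a_mem _ _ _ _ h.1, by rw [X.d_a, (X.mem_Zc.1 h).2, map_zero]⟩

theorem a_Bd (l m : I) (k : ℤ) : ∀ v ∈ X.Bd m k, X.a l m v ∈ X.Bd l k := by
  rintro _ ⟨w, hw, rfl⟩
  exact ⟨X.a l m w, X.a_mem _ _ _ _ hw, X.d_a _ _ _⟩

/-- the homology layer in degree `k`, a module over the preprojective algebra -/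
@[reducible] def H (k : ℤ) : PM Γ where
  V i := X.HV i k
  a l m := hmap (X.a l m) (X.a_Zc l m k) (X.a_Bd l m k)
  a_zero l m h := by
    refine LinearMap.ext fun z => ?_
    obtain ⟨v, hv, rfl⟩ := X.cls_surj z
    rw [hmap_cls, LinearMap.zero_apply, cls_eq_zero, X.a_zero l m v h]
    exact zero_mem _
  rel i := by
    refine LinearMap.ext fun z => ?_
    obtain ⟨v, hv, rfl⟩ := X.cls_surj z
    simp only [LinearMap.sum_apply, comp_apply, hmap_cls, LinearMap.zero_apply]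
    rw [X.cls_sum, cls_eq_zero]
    refine ⟨X.t i v, X.t_mem' hv.1, ?_⟩
    rw [X.d_t, (X.mem_Zc.1 hv).2, map_zero, zero_add]

@[simp] theorem H_a_cls (k : ℤ) (l m : I) (v : V) (h : v ∈ X.Zc m k) :
    (X.H k).a l m (X.cls m k v h) = X.cls l k (X.a l m v) (X.a_Zc l m k v h) := rfl

variable {X} {Y : DG Γ V'}

theorem CMap.zc (f : CMap X Y) (m : I) (k : ℤ) : ∀ v ∈ X.Zc m k, f.f m v ∈ Y.Zc m k := fun v h =>
  Y.mem_Zc.2 ⟨f.mem _ _ _ h.1, by rw [← f.f_d, (X.mem_Zc.1 h).2, map_zero]⟩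

theorem CMap.bd (f : CMap X Y) (m : I) (k : ℤ) : ∀ v ∈ X.Bd m k, f.f m v ∈ Y.Bd m k := by
  rintro _ ⟨w, hw, rfl⟩
  exact ⟨f.f m w, f.mem _ _ _ hw, (f.f_d _ _).symm⟩

/-- the morphism induced on homology -/
def CMap.H (f : CMap X Y) (k : ℤ) : PM.Hom (X.H k) (Y.H k) where
  f m := hmap (f.f m) (f.zc m k) (f.bd m k)
  comm l m z := by
    obtain ⟨v, hv, rfl⟩ := X.cls_surj z
    exact Y.cls_congr (f.f_a l m v)

@[simp] theorem CMap.H_cls (f : CMap X Y) (k : ℤ) (m : I) (v : V) (h : v ∈ X.Zc m k) :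
    (f.H k).f m (X.cls m k v h) = Y.cls m k (f.f m v) (f.zc m k v h) := rfl

theorem CMap.bij (f : CMap X Y) {m : I}
    (h : QisAt (X.L m) (X.d m) (Y.L m) (Y.d m) (f.f m)) (k : ℤ) :
    Function.Bijective ((f.H k).f m) := by
  constructor
  · rw [injective_iff_map_eq_zero]
    intro z hz
    obtain ⟨v, hv, rfl⟩ := X.cls_surj z
    rw [CMap.H_cls, cls_eq_zero] at hz
    obtain ⟨y, hy, e⟩ := hz
    obtain ⟨x0, hx0, -, -, e0, -⟩ := h (k - 1) v y (by simpa using hv.1) hy hv.2 e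
    exact X.cls_eq_zero.2 ⟨x0, hx0, e0⟩
  · intro z
    obtain ⟨y, hy, rfl⟩ := Y.cls_surj z
    obtain ⟨x0, hx0, y0, hy0, e0, e1⟩ := h k 0 y (zero_mem _) hy.1 (map_zero _)
      (by rw [map_zero]; exact hy.2)
    refine ⟨X.cls m k x0 ⟨hx0, e0⟩, ?_⟩
    rw [CMap.H_cls, cls_eq_cls]
    exact ⟨y0, hy0, by rw [e1]; char2⟩

theorem Rel.iso (h : Rel X Y) (k : ℤ) : PM.Iso (X.H k) (Y.H k) := by
  obtain ⟨f, hf⟩ := h
  exact ⟨f.toCMap.H k, fun m => f.toCMap.bij (hf m) k⟩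

variable (X)

/-- the map `γ : T i X → X` -/
def gaMap (i : I) : CMap (X.T i) X where
  f m := if m = i then X.ga i else snd K2 _ _
  mem m k w h := by
    by_cases hm : m = i
    · subst hm
      rw [T_L, mem_TL_self] at h
      simpa using X.ga_mem h.1 h.2
    · rw [T_L, mem_TL_ne _ hm] at h
      simpa [hm] using h.2
  f_d m w := by
    by_cases hm : m = i
    · subst hm
      simp only [if_true, T_d]
      rw [Td_self, ga_apply, ga_apply, d_ga]
    · simp [hm, Td_ne]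
  f_a l m w := by
    by_cases hl : l = i
    · subst hl
      by_cases hm : m = l
      · subst hm; simp [Ta_in, de_self, a_self]
      · simp [Ta_in, hm]
    · by_cases hm : m = i
      · subst hm; simp [hl, Ta_out]
      · simp [hl, hm, Ta_ne]

theorem gaMap_self (i : I) (w : W I V) : (X.gaMap i).f i w = X.be i w.1 + X.t i w.2 := by
  simp [gaMap]

theorem gaMap_ne {i m : I} (h : m ≠ i) (w : W I V) : (X.gaMap i).f m w = w.2 := by
  simp [gaMap, h]

end DG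

end Crest.R175
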