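import Crest.Prelude.Def_ArtinGroup
import Crest.Agent.R061.Geom

/-! Row 175: basic definitions (Coxeter group, geometric representation, Artin group). -/

set_option autoImplicit false
set_option linter.unusedSectionVars false

namespace Crest.R175

open Crest.GroupTheory

/-- alternating word `s t s t ...` of length `m` starting with `s` -/
def alt {S : Type*} : S → S → ℕ → List S
  | _, _, 0 => []
  | s, t, m + 1 => s :: alt t s m

@[simp] theorem alt_zero {S : Type*} (s t : S) : alt s t 0 = [] := rfl
@[simp] theorem alt_succ {S : Type*} (s t : S) (m : ℕ) : alt s t (m + 1) = s :: alt t s m := rfl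
@[simp] theorem length_alt {S : Type*} (m : ℕ) : ∀ s t : S, (alt s t m).length = m := by
  induction m with
  | zero => intro s t; rfl
  | succ m ih => intro s t; simp [ih]

theorem mem_alt {S : Type*} (m : ℕ) : ∀ (s t r : S), r ∈ alt s t m → r = s ∨ r = t := by
  induction m with
  | zero => intro s t r h; simp at h
  | succ m ih =>
    intro s t r h
    rcases List.mem_cons.1 h with h | h
    · exact Or.inl h
    · exact (ih t s r h).symm

/-- the product of a word under `τ` -/
def wp {S G : Type*} [Monoid G] (τ : S → G) (l : List S) : G := (l.map τ).prod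

@[simp] theorem wp_nil {S G : Type*} [Monoid G] (τ : S → G) : wp τ [] = 1 := rfl
@[simp] theorem wp_cons {S G : Type*} [Monoid G] (τ : S → G) (s : S) (l : List S) :
    wp τ (s :: l) = τ s * wp τ l := by simp [wp]
@[simp] theorem wp_append {S G : Type*} [Monoid G] (τ : S → G) (l l' : List S) :
    wp τ (l ++ l') = wp τ l * wp τ l' := by simp [wp]
theorem map_wp {S G H : Type*} [Monoid G] [Monoid H] (f : G →* H) (τ : S → G) (l : List S) :
    f (wp τ l) = wp (fun s => f (τ s)) l := by
  induction l with
  | nil => simp
  | cons s l ih => simp [ih]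

/-- `τ` satisfies the braid relations of `M` -/
def BraidRel {S G : Type*} [Monoid G] (M : CoxeterMatrix S) (τ : S → G) : Prop :=
  ∀ s t, wp τ (alt s t (M s t)) = wp τ (alt t s (M s t))

section Artin
variable {S : Type*} (M : CoxeterMatrix S)

/-- the standard generator -/
abbrev σ (s : S) : ArtinGroup M := artinGen M s

/-- the standard parabolic subgroup -/
abbrev AX (X : Set S) : Subgroup (ArtinGroup M) := stdParabolic M X

theorem lift_artinAltWord {G : Type*} [Group G] (τ : S → G) (m : ℕ) :
    ∀ s t : S, FreeGroup.lift τ (artinAltWord s t m) = wp τ (alt s t m) := by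
  induction m with
  | zero => intro s t; exact map_one _
  | succ m ih =>
    intro s t
    change FreeGroup.lift τ (FreeGroup.of s * artinAltWord t s m) = _
    rw [map_mul, ih, FreeGroup.lift_apply_of, alt_succ, wp_cons]

theorem braidRel_σ : BraidRel M (σ M) := by
  intro s t
  have h1 : ∀ w : FreeGroup S, FreeGroup.lift (σ M) w = PresentedGroup.mk (artinRelators M) w := by
    intro w
    have : (FreeGroup.lift (σ M) : FreeGroup S →* ArtinGroup M) = PresentedGroup.mk _ := by
      ext x; simp [σ, artinGen, PresentedGroup.of]
    rw [this]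
  rw [← lift_artinAltWord, ← lift_artinAltWord, h1, h1, ← mul_inv_eq_one, ← map_inv, ← map_mul]
  exact PresentedGroup.one_of_mem ⟨(s, t), rfl⟩

/-- universal property of the Artin group -/
def artinLift {G : Type*} [Group G] (τ : S → G) (h : BraidRel M τ) : ArtinGroup M →* G :=
  PresentedGroup.toGroup (f := τ) (by
    rintro _ ⟨⟨s, t⟩, rfl⟩
    simp only [map_mul, map_inv, lift_artinAltWord]
    rw [mul_inv_eq_one]; exact h s t)

@[simp] theorem artinLift_σ {G : Type*} [Group G] (τ : S → G) (h : BraidRel M τ) (s : S) :
    artinLift M τ h (σ M s) = τ s := PresentedGroup.toGroup.of _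

theorem AX_univ : AX M Set.univ = ⊤ := by
  have := PresentedGroup.closure_range_of (artinRelators M)
  rw [AX, stdParabolic, Set.image_univ]
  exact this

theorem σ_mem {X : Set S} {s : S} (h : s ∈ X) : σ M s ∈ AX M X :=
  Subgroup.subset_closure ⟨s, h, rfl⟩

theorem AX_mono {X Y : Set S} (h : X ⊆ Y) : AX M X ≤ AX M Y :=
  Subgroup.closure_mono (Set.image_mono h)

/-- pull back a Coxeter matrix along an embedding -/
def sub {T : Type*} (e : T ↪ S) : CoxeterMatrix T where
  M := Matrix.of fun s t => M (e s) (e t)
  isSymm := Matrix.IsSymm.ext fun s t => by simp [M.symmetric (e s) (e t)]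
  diagonal := fun s => by simp
  off_diagonal := fun s t h => by simpa using M.off_diagonal _ _ (e.injective.ne h)

@[simp] theorem sub_apply {T : Type*} (e : T ↪ S) (s t : T) : sub M e s t = M (e s) (e t) := rfl

theorem map_alt {T : Type*} (e : T → S) (m : ℕ) :
    ∀ s t : T, (alt s t m).map e = alt (e s) (e t) m := by
  induction m with
  | zero => intro s t; rfl
  | succ m ih => intro s t; simp [ih]

/-- the natural map from the Artin group of a sub-matrix -/
def artinMap {T : Type*} (e : T ↪ S) : ArtinGroup (sub M e) →* ArtinGroup M :=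
  artinLift (sub M e) (fun t => σ M (e t)) (by
    intro s t
    have h := braidRel_σ M (e s) (e t)
    simp only [wp, ← map_alt, List.map_map] at h ⊢
    exact h)

@[simp] theorem artinMap_σ {T : Type*} (e : T ↪ S) (t : T) :
    artinMap M e (σ (sub M e) t) = σ M (e t) := artinLift_σ _ _ _ _

theorem map_AX {T : Type*} (e : T ↪ S) (X : Set T) :
    (AX (sub M e) X).map (artinMap M e) = AX M (e '' X) := by
  simp only [AX, stdParabolic, MonoidHom.map_closure, Set.image_image]
  congr 1

/-- inclusion of a subset as an embedding -/
abbrev incl (T : Set S) : T ↪ S := Function.Embedding.subtype _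

/-- positive elements with letters in `X` -/
def PosOn (X : Set S) : Submonoid (ArtinGroup M) := Submonoid.closure (σ M '' X)

/-- positive elements -/
abbrev Pos : Submonoid (ArtinGroup M) := PosOn M Set.univ

/-- prefix order on the Artin group -/
def Pre (x y : ArtinGroup M) : Prop := x⁻¹ * y ∈ Pos M

/-- the exponent sum -/
def len (g : ArtinGroup M) : ℤ :=
  Multiplicative.toAdd (artinLift M (fun _ => Multiplicative.ofAdd (1 : ℤ))
    (fun s t => by simp [wp, List.map_const']) g)

/-- `g P g⁻¹` -/
abbrev cj {G : Type*} [Group G] (g : G) (P : Subgroup G) : Subgroup G :=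
  P.map (MulAut.conj g).toMonoidHom

/-- `P` is a parabolic subgroup inside `A_X` -/
def ParIn (X : Set S) (P : Subgroup (ArtinGroup M)) : Prop :=
  ∃ b ∈ AX M X, ∃ Z ⊆ X, P = cj b (AX M Z)

/-- the strengthened intersection property -/
def InterProp : Prop := ∀ (X Y : Set S) (h : ArtinGroup M), ParIn M X (AX M X ⊓ cj h (AX M Y))

end Artin

section Cox
variable {S : Type} (M : CoxeterMatrix S)

/-- the Coxeter system -/
abbrev cs : CoxeterSystem M M.Group := M.toCoxeterSystem

/-- simple reflection -/
abbrev sr (s : S) : M.Group := (cs M).simple s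

/-- length -/
noncomputable abbrev ℓ (w : M.Group) : ℕ := (cs M).length w

/-- product of a word in the Coxeter group -/
abbrev wπ (l : List S) : M.Group := (cs M).wordProd l

/-- prefix (weak) order: `u` is a prefix of `w` -/
def WLe (u w : M.Group) : Prop := ℓ M u + ℓ M (u⁻¹ * w) = ℓ M w

/-- standard parabolic subgroup of the Coxeter group -/
def WX (X : Set S) : Subgroup M.Group := Subgroup.closure (sr M '' X)

/-- `w` has no left descent in `X` -/
def LRed (X : Set S) (w : M.Group) : Prop := ∀ s ∈ X, ℓ M w < ℓ M (sr M s * w)

/-- a chosen reduced word -/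
noncomputable def rw (w : M.Group) : List S := Classical.choose ((cs M).exists_isReduced w)

theorem rw_reduced (w : M.Group) : (cs M).IsReduced (rw M w) :=
  (Classical.choose_spec ((cs M).exists_isReduced w)).1

theorem wπ_rw (w : M.Group) : wπ M (rw M w) = w :=
  (Classical.choose_spec ((cs M).exists_isReduced w)).2.symm

/-- the set-theoretic lift of `W` (well behaved when `τ` satisfies the braid relations) -/
noncomputable def qq {G : Type*} [Monoid G] (τ : S → G) (w : M.Group) : G := wp τ (rw M w)

/-- the lift to the Artin group -/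
noncomputable abbrev q (w : M.Group) : ArtinGroup M := qq M (σ M) w

/-- Gram matrix, diagonal `2` -/
noncomputable def Bm (s t : S) : ℝ := -2 * Real.cos (Real.pi / M s t)

/-- off-diagonal weights `2 cos (π / m)` -/
noncomputable def cc (s t : S) : ℝ := 2 * Real.cos (Real.pi / M s t)

variable [Fintype S] [DecidableEq S]

/-- the bilinear form -/
noncomputable def Bf (u v : S → ℝ) : ℝ := ∑ s, ∑ t, u s * Bm M s t * v t

/-- simple root -/
def al (s : S) : S → ℝ := Pi.single s 1

/-- the form is positive definite on vectors supported in `T` -/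
def PosDefOn (T : Set S) : Prop := ∀ v : S → ℝ, (∀ s, s ∉ T → v s = 0) → v ≠ 0 → 0 < Bf M v v

/-- the form is positive definite -/
abbrev PosDef : Prop := PosDefOn M Set.univ

/-- geometric representation on `S → ℝ` (first component of the one of row 61) -/
noncomputable def rho (w : M.Group) (v : S → ℝ) : S → ℝ :=
  fun s => (Crest.Agent.R061.Geom.rho (cs M) w (Finsupp.equivFunOnFinite.symm v, 0)).1 s

/-- the contragredient action, in coordinates `λ s = λ (α_s)` -/
noncomputable def rhoD (w : M.Group) (lam : S → ℝ) : S → ℝ :=
  fun s => lam ⬝ᵥ rho M w⁻¹ (al s)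

/-- roots -/
def IsRt (β : S → ℝ) : Prop := ∃ w s, β = rho M w (al s)

/-- left inversion set -/
def Inv (w : M.Group) : Set (S → ℝ) := {β | IsRt M β ∧ 0 ≤ β ∧ rho M w⁻¹ β ≤ 0}

/-- `v` is supported in `X` -/
def Supp (X : Set S) (v : S → ℝ) : Prop := ∀ s, s ∉ X → v s = 0

end Cox

end Crest.R175
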