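import Crest.Agent.R175.Emb1

/-! Row 175: for finite `W` the Artin monoid embeds in the Artin group; consequences in the group. -/

set_option autoImplicit false
set_option linter.unusedSectionVars false

namespace Crest.R175

open Crest.GroupTheory

variable {S : Type} [Fintype S] [DecidableEq S] (M : CoxeterMatrix S)

theorem emb_wp (l : List S) : toG M (wp (mg M) l) = wp (σ M) l := map_wp _ _ _

theorem emb_q (w : M.Group) : toG M (mq M w) = q M w := map_qq M _ _ _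

theorem emb_pos {p : ArtinGroup M} (hp : p ∈ Pos M) : ∃ b, p = toG M b := by
  obtain ⟨l, -, rfl⟩ := (mem_posOn_iff M _ p).1 hp
  exact ⟨_, (emb_wp M l).symm⟩

theorem emb_toG_pos (b : Mon M) : toG M b ∈ Pos M := by
  obtain ⟨l, rfl⟩ := mon_surj M b
  exact (mem_posOn_iff M _ _).2 ⟨l, fun _ _ => Set.mem_univ _, emb_wp M l⟩

theorem emb_sr_mem {X : Set S} {s : S} (hs : s ∈ X) : sr M s ∈ WX M X :=
  Subgroup.subset_closure ⟨s, hs, rfl⟩

theorem emb_conj {w : M.Group} {a b : S} (ha : ℓ M (sr M a * w) < ℓ M w)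
    (h : sr M a * w = w * sr M b) : σ M a * q M w = q M w * σ M b := by
  have e1 : sr M a * (sr M a * w) = w := (cs M).simple_mul_simple_cancel_left a
  have e2 : sr M a * w * sr M b = w := by
    rw [h]; exact (cs M).simple_mul_simple_cancel_right b
  have h1 : q M w = σ M a * q M (sr M a * w) := by
    rw [← q_sr_mul M (by rwa [e1]), e1]
  have h2 : q M w = q M (sr M a * w) * σ M b := by
    rw [← q_mul_sr M (by rwa [e2]), e2]
  calc σ M a * q M w = σ M a * (q M (sr M a * w) * σ M b) := by rw [← h2]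
    _ = q M w * σ M b := by rw [← mul_assoc, ← h1]

variable [Finite M.Group]

theorem wp_length_eq {l l' : List S} (h : wp (σ M) l = wp (σ M) l') : l.length = l'.length := by
  have := congrArg (len M) h
  rw [len_wp, len_wp] at this
  exact_mod_cast this

theorem mem_of_wp_mem_posOn {X : Set S} {l : List S} (h : wp (σ M) l ∈ PosOn M X) :
    ∀ s ∈ l, s ∈ X := by
  obtain ⟨l', hl', e⟩ := (mem_posOn_iff M X _).1 h
  have e' : wp (mg M) l = wp (mg M) l' := toG_injective M (by rw [emb_wp, emb_wp, e])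
  exact fun s hs => hl' s ((mon_supp M e' s).1 hs)

theorem posOn_of_mul {X : Set S} {u v : ArtinGroup M} (hu : u ∈ Pos M) (hv : v ∈ Pos M)
    (h : u * v ∈ PosOn M X) : u ∈ PosOn M X ∧ v ∈ PosOn M X := by
  obtain ⟨l, -, rfl⟩ := (mem_posOn_iff M _ u).1 hu
  obtain ⟨l', -, rfl⟩ := (mem_posOn_iff M _ v).1 hv
  rw [← wp_append] at h
  have := mem_of_wp_mem_posOn M h
  exact ⟨(mem_posOn_iff M _ _).2 ⟨l, fun s hs => this s (List.mem_append_left _ hs), rfl⟩,
    (mem_posOn_iff M _ _).2 ⟨l', fun s hs => this s (List.mem_append_right _ hs), rfl⟩⟩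

/-- rank two joins -/
theorem pre_key {x z : ArtinGroup M} {s t : S} (hst : s ≠ t) (hs : Pre M (x * σ M s) z)
    (ht : Pre M (x * σ M t) z) : M s t ≠ 0 ∧ Pre M (x * wp (σ M) (alt s t (M s t))) z := by
  obtain ⟨b, hb⟩ := emb_pos M hs
  obtain ⟨c, hc⟩ := emb_pos M ht
  have e1 : x⁻¹ * z = σ M s * toG M b := by rw [← hb]; group
  have e2 : x⁻¹ * z = σ M t * toG M c := by rw [← hc]; group
  have e3 : mg M s * b = mg M t * c :=
    toG_injective M (by rw [map_mul, map_mul, toG_mg, toG_mg, ← e1, ← e2])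
  obtain ⟨h0, e, he⟩ := mon_key M hst e3
  refine ⟨h0, ?_⟩
  have e4 := congrArg (toG M) he
  rw [map_mul, map_mul, toG_mg, ← e1, emb_wp] at e4
  have e5 : (x * wp (σ M) (alt s t (M s t)))⁻¹ * z = toG M e := by
    rw [mul_inv_rev, mul_assoc, e4]; group
  unfold Pre
  rw [e5]
  exact emb_toG_pos M e

theorem pre_q_iff (u w : M.Group) : Pre M (q M u) (q M w) ↔ WLe M u w := by
  refine ⟨fun h => ?_, pre_q_of_wle M⟩
  obtain ⟨c, hc⟩ := emb_pos M h
  refine (mq_dvd_iff M u w).1 ⟨c, toG_injective M ?_⟩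
  rw [map_mul, emb_q, emb_q, ← hc]; group

theorem simple_of_pre {p : ArtinGroup M} (hp : p ∈ Pos M) {w : M.Group} (h : Pre M p (q M w)) :
    ∃ u, p = q M u := by
  obtain ⟨a, rfl⟩ := emb_pos M hp
  obtain ⟨c, hc⟩ := emb_pos M h
  have e : mq M w = a * c := toG_injective M (by rw [map_mul, emb_q, ← hc]; group)
  obtain ⟨u, rfl⟩ := simple_of_dvd M e
  exact ⟨u, emb_q M u⟩

/-- the Garside element of a standard parabolic subgroup -/
theorem exists_delta (X : Set S) : ∃ w0 ∈ WX M X, (∀ u ∈ WX M X, WLe M u w0) ∧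
    (∀ s ∈ X, ∃ s' ∈ X, σ M s * q M w0 = q M w0 * σ M s') ∧
    (∀ s ∈ X, ∃ s' ∈ X, q M w0 * σ M s = σ M s' * q M w0) ∧
    ∀ a ∈ AX M X, Commute a (q M w0 ^ 2) := by
  obtain ⟨w0, hw0, hsq, hle, -, hconj⟩ := exists_longest M X
  have hinv : w0⁻¹ = w0 := inv_eq_of_mul_eq_one_right hsq
  have hdesc : ∀ s ∈ X, ℓ M (sr M s * w0) < ℓ M w0 := fun s hs =>
    (sr_wle_iff M s w0).1 (hle _ (emb_sr_mem M hs))
  have key : ∀ s ∈ X, ∃ s' ∈ X, σ M s * q M w0 = q M w0 * σ M s' ∧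
      σ M s' * q M w0 = q M w0 * σ M s := by
    intro s hs
    obtain ⟨s', hs', e⟩ := hconj s hs
    refine ⟨s', hs', emb_conj M (hdesc s hs) e, emb_conj M (hdesc s' hs') ?_⟩
    have := congrArg (·⁻¹) e
    simp only [mul_inv_rev, hinv, CoxeterSystem.inv_simple] at this
    exact this.symm
  refine ⟨w0, hw0, hle, fun s hs => ?_, fun s hs => ?_, fun a ha => ?_⟩
  · obtain ⟨s', hs', e, -⟩ := key s hs
    exact ⟨s', hs', e⟩
  · obtain ⟨s', hs', -, e⟩ := key s hs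
    exact ⟨s', hs', e.symm⟩
  · induction ha using Subgroup.closure_induction with
    | mem x hx =>
      obtain ⟨s, hs, rfl⟩ := hx
      obtain ⟨s', -, e1, e2⟩ := key s hs
      change σ M s * q M w0 ^ 2 = q M w0 ^ 2 * σ M s
      rw [sq, ← mul_assoc, e1, mul_assoc, e2, mul_assoc]
    | one => exact Commute.one_left _
    | mul x y _ _ hx hy => exact hx.mul_left hy
    | inv x _ hx => exact hx.inv_left

theorem emb_frac {X : Set S} {a : ArtinGroup M} (ha : a ∈ AX M X) :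
    ∃ v ∈ PosOn M X, Commute a v ∧ a * v ∈ PosOn M X := by
  obtain ⟨w0, hw0, hle, -, -, hc⟩ := exists_delta M X
  have hΔ : q M w0 ∈ PosOn M X := q_mem_posOn M hw0
  have hD : q M w0 ^ 2 ∈ PosOn M X := pow_mem hΔ 2
  have key : ∀ a ∈ AX M X, (∃ N : ℕ, a * (q M w0 ^ 2) ^ N ∈ PosOn M X) ∧
      ∃ N : ℕ, a⁻¹ * (q M w0 ^ 2) ^ N ∈ PosOn M X := by
    have hmul : ∀ x y : ArtinGroup M, y ∈ AX M X → (∃ N : ℕ, x * (q M w0 ^ 2) ^ N ∈ PosOn M X) →
        (∃ N : ℕ, y * (q M w0 ^ 2) ^ N ∈ PosOn M X) →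
        ∃ N : ℕ, x * y * (q M w0 ^ 2) ^ N ∈ PosOn M X := by
      rintro x y hy ⟨N, hN⟩ ⟨N', hN'⟩
      refine ⟨N + N', ?_⟩
      have e : x * y * (q M w0 ^ 2) ^ (N + N') =
          x * (q M w0 ^ 2) ^ N * (y * (q M w0 ^ 2) ^ N') := by
        rw [pow_add, mul_assoc x, mul_assoc x, ← mul_assoc y, ((hc y hy).pow_right N).eq, mul_assoc]
      rw [e]
      exact mul_mem hN hN'
    intro a ha
    induction ha using Subgroup.closure_induction with
    | mem x hx =>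
      obtain ⟨s, hs, rfl⟩ := hx
      have hσ : σ M s ∈ PosOn M X := Submonoid.subset_closure ⟨s, hs, rfl⟩
      refine ⟨⟨0, by simpa using hσ⟩, 1, ?_⟩
      have h1 : Pre M (q M (sr M s)) (q M w0) := pre_q_of_wle M (hle _ (emb_sr_mem M hs))
      rw [show q M (sr M s) = σ M s from qq_sr M _ (braidRel_σ M) s] at h1
      have h2 := (posOn_of_mul M (posOn_le_pos M X hσ) h1 (by rwa [mul_inv_cancel_left])).2
      rw [pow_one, sq, ← mul_assoc]
      exact mul_mem h2 hΔ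
    | one => exact ⟨⟨0, by simp⟩, 0, by simp⟩
    | mul x y hx hy ihx ihy =>
      refine ⟨hmul x y hy ihx.1 ihy.1, ?_⟩
      rw [mul_inv_rev]
      exact hmul _ _ (inv_mem hx) ihy.2 ihx.2
    | inv x _ ih => exact ⟨ih.2, by rw [inv_inv]; exact ih.1⟩
  obtain ⟨N, hN⟩ := (key a ha).1
  exact ⟨_, pow_mem hD N, (hc a ha).pow_right N, hN⟩

/-- right fractions: `a * Δ_X^{2N}` is positive -/
theorem frac_right {X : Set S} {a : ArtinGroup M} (ha : a ∈ AX M X) :
    ∃ u ∈ PosOn M X, ∃ v ∈ PosOn M X, a = u * v⁻¹ := by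
  obtain ⟨v, hv, -, h⟩ := emb_frac M ha
  exact ⟨_, h, v, hv, by group⟩

theorem frac_left {X : Set S} {a : ArtinGroup M} (ha : a ∈ AX M X) :
    ∃ u ∈ PosOn M X, ∃ v ∈ PosOn M X, a = u⁻¹ * v := by
  obtain ⟨v, hv, hc, h⟩ := emb_frac M ha
  exact ⟨v, hv, _, h, by rw [hc.eq]; group⟩

theorem posOn_of_pos_of_AX {X : Set S} {p : ArtinGroup M} (hp : p ∈ Pos M) (ha : p ∈ AX M X) :
    p ∈ PosOn M X := by
  obtain ⟨v, hv, -, h⟩ := emb_frac M ha
  exact (posOn_of_mul M hp (posOn_le_pos M X hv) h).1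

end Crest.R175
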