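import Crest.Agent.R175.Mon

/-! Row 175: for finite `W` the Artin monoid embeds in the Artin group; consequences in the group. -/

set_option autoImplicit false
set_option linter.unusedSectionVars false

namespace Crest.R175

open Crest.GroupTheory

variable {S : Type} [Fintype S] [DecidableEq S] (M : CoxeterMatrix S)

/-- the map from the monoid to the group -/
def toG : Mon M →* ArtinGroup M :=
  PresentedMonoid.lift (σ M) (by
    rintro _ _ ⟨s, t, rfl, rfl⟩
    simpa [FreeMonoid.lift_ofList, wp] using braidRel_σ M s t)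

@[simp] theorem toG_mg (s : S) : toG M (mg M s) = σ M s := rfl

theorem emb1_loc {N : Type} [Monoid N] (hc : ∀ a b c : N, a * b = a * c → b = c) (z : N)
    (hz : ∀ a, Commute a z) : ∃ (G : Type) (_ : Monoid G) (φ : N →* G),
      Function.Injective φ ∧ IsUnit (φ z) := by
  have hs : ∀ (s : Submonoid.powers z) (a : N), a * s = s * a := by
    rintro ⟨_, n, rfl⟩ a
    exact ((hz a).pow_right n).eq
  let _ : OreLocalization.OreSet (Submonoid.powers z) :=
    { ore_right_cancel := fun r₁ r₂ s h => ⟨s, by rw [← hs, ← hs, h]⟩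
      oreNum := fun r _ => r
      oreDenom := fun _ s => s
      ore_eq := fun r s => (hs s r).symm }
  refine ⟨OreLocalization (Submonoid.powers z) N, inferInstance, OreLocalization.numeratorHom,
    fun a b h => ?_, OreLocalization.numerator_isUnit (⟨z, Submonoid.mem_powers z⟩ :
      Submonoid.powers z)⟩
  rw [OreLocalization.numeratorHom_apply, OreLocalization.numeratorHom_apply,
    OreLocalization.oreDiv_eq_iff] at h
  obtain ⟨u, v, h1, h2⟩ := h
  simp only [OneMemClass.coe_one, mul_one] at h2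
  rw [← h2] at h1
  exact (hc _ _ _ h1).symm

theorem emb1_twist {w0 : M.Group} {s s' : S} (hs : WLe M (sr M s) w0)
    (h : sr M s * w0 = w0 * sr M s') :
    ∃ u, mq M w0 = mg M s * u ∧ mq M w0 = u * mg M s' := by
  have e1 : sr M s * (sr M s * w0) = w0 := (cs M).simple_mul_simple_cancel_left s
  have e2 : sr M s * w0 * sr M s' = w0 := by rw [h, (cs M).simple_mul_simple_cancel_right]
  rw [WLe, (cs M).inv_simple] at hs
  refine ⟨mq M (sr M s * w0), ?_, ?_⟩
  · rw [← qq_sr M _ (braidRel_mg M) s, ← qq_mul M (braidRel_mg M) (by rw [e1, hs]), e1]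
  · rw [← qq_sr M _ (braidRel_mg M) s', ← qq_mul M (braidRel_mg M) (by
      rw [e2, ← hs, add_comm]
      simp only [ℓ, CoxeterSystem.length_simple]), e2]

/-- Let `Δ = mq w0` (`exists_longest univ`).  `σ_s Δ = Δ σ_{s'}` (because `Δ = σ_s mq (s w0) =
mq (s w0) σ_{s'}`), `Δ²` is central.  The group acts on `(Mon × ℕ)/∼`, `(b,n) ∼ (b',n')` iff
`Δ^{2n'} b = Δ^{2n} b'`, the generator `s` by left multiplication (inverse: `(b,n) ↦ (c b, n+1)` with
`σ_s c = Δ² = c σ_s`); evaluate at `[(1,0)]`.  Only left cancellation is used. -/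
theorem toG_injective [Finite M.Group] : Function.Injective (toG M) := by
  obtain ⟨w0, -, h0, h1, -, h2⟩ := exists_longest M Set.univ
  have hle : ∀ s, WLe M (sr M s) w0 := fun s => h1 _ (Subgroup.subset_closure ⟨s, trivial, rfl⟩)
  have tw : ∀ s s', sr M s * w0 = w0 * sr M s' → mg M s * mq M w0 = mq M w0 * mg M s' := by
    intro s s' h
    obtain ⟨u, a1, a2⟩ := emb1_twist M (hle s) h
    calc mg M s * mq M w0 = mg M s * (u * mg M s') := by rw [← a2]
      _ = _ := by rw [← mul_assoc, ← a1]
  have cm : ∀ s, Commute (mg M s) (mq M w0 * mq M w0) := by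
    intro s
    obtain ⟨s', -, h⟩ := h2 s trivial
    have h' : sr M s' * w0 = w0 * sr M s := by
      calc sr M s' * w0 = w0 * (w0 * sr M s') * w0 := by rw [← mul_assoc, h0, one_mul]
        _ = w0 * sr M s := by rw [← h, mul_assoc, mul_assoc, h0, mul_one]
    rw [Commute, SemiconjBy, ← mul_assoc, tw s s' h, mul_assoc, tw s' s h', mul_assoc]
  have cm' : ∀ a, Commute a (mq M w0 * mq M w0) := by
    intro a
    obtain ⟨l, rfl⟩ := mon_surj M a
    induction l with
    | nil => exact Commute.one_left _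
    | cons s l ih => rw [wp_cons]; exact (cm s).mul_left ih
  obtain ⟨G, _, φ, hφ, z, hz⟩ := emb1_loc (fun a b c h => mon_left_cancel M h) _ cm'
  have hu : ∀ s, IsUnit (φ (mg M s)) := by
    intro s
    obtain ⟨s', -, h⟩ := h2 s trivial
    obtain ⟨u, a1, -⟩ := emb1_twist M (hle s) h
    have b1 : mg M s * (u * mq M w0) = mq M w0 * mq M w0 := by rw [← mul_assoc, ← a1]
    have b2 : u * mq M w0 * mg M s = mq M w0 * mq M w0 :=
      mon_left_cancel M (a := mg M s) (by rw [← mul_assoc, b1, (cm s).eq])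
    refine isUnit_iff_exists_and_exists.2 ⟨⟨φ (u * mq M w0) * ↑z⁻¹, ?_⟩,
      ⟨↑z⁻¹ * φ (u * mq M w0), ?_⟩⟩
    · rw [← mul_assoc, ← map_mul, b1, ← hz, Units.mul_inv]
    · rw [mul_assoc, ← map_mul, b2, ← hz, Units.inv_mul]
  have hw : ∀ l, ((wp (fun s => (hu s).unit) l : Gˣ) : G) = φ (wp (mg M) l) := fun l => by
    rw [map_wp]
    exact map_wp (Units.coeHom G) _ l
  have hb : BraidRel M fun s => (hu s).unit := fun s t =>
    Units.ext (by rw [hw, hw, braidRel_mg M s t])
  have key : ∀ a, ((artinLift M _ hb (toG M a) : Gˣ) : G) = φ a := by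
    intro a
    obtain ⟨l, rfl⟩ := mon_surj M a
    rw [← hw, map_wp, map_wp]
    simp only [toG_mg, artinLift_σ]
  intro a b h
  exact hφ (by rw [← key, ← key, h])

end Crest.R175
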