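import Crest.Agent.R175.Fin1

/-! Row 175: positive definite forms, finiteness of `W`, galleries along segments. -/

set_option autoImplicit false
set_option linter.unusedSectionVars false

namespace Crest.R175

variable {S : Type} [Fintype S] [DecidableEq S] (M : CoxeterMatrix S)

theorem fin_sr_al (s : S) : rho M (sr M s) (al s) = -al s := by
  have h : Bf M (al s) (al s) = 2 := by
    rw [Bf_al_left, ← Bm_self M s]
    simp [al, Pi.single_apply]
  rw [rho_sr, h, two_smul]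
  abel

theorem fin_sr_sr (s : S) (v : S → ℝ) : rho M (sr M s) (rho M (sr M s) v) = v := by
  rw [← rho_mul, (cs M).simple_mul_simple_self, rho_one]

/-- every covector is `W_X`-conjugate to one that is dominant on `X`.  (Take `u ∈ W_X` of maximal
length among... or maximise `lam ⬝ᵥ rho u (∑ ...)`; e.g. induct on the number of inversions of the
longest element of `W_X` on which the covector is negative.) -/
theorem exists_dominant [Finite M.Group] (X : Set S) (lam : S → ℝ) :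
    ∃ u ∈ WX M X, ∀ s ∈ X, 0 ≤ rhoD M u⁻¹ lam s := by
  set N : M.Group → Set (S → ℝ) := fun u => {β | IsRt M β ∧ 0 ≤ β ∧ lam ⬝ᵥ rho M u β < 0} with hN
  have hfin : ∀ u, (N u).Finite := fun u =>
    (Set.finite_range fun p : M.Group × S => rho M p.1 (al p.2)).subset
      fun β ⟨⟨w, s, h⟩, _⟩ => ⟨(w, s), h.symm⟩
  obtain ⟨u, hu, hmin⟩ := Set.exists_min_image (WX M X : Set M.Group) (fun u => (N u).ncard)
    (Set.toFinite _) ⟨1, (WX M X).one_mem⟩
  refine ⟨u, hu, fun s hs => ?_⟩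
  by_contra hneg
  rw [rhoD, inv_inv, not_le] at hneg
  have hal : IsRt M (al s) := ⟨1, s, (rho_one M _).symm⟩
  have hal0 : (0 : S → ℝ) ≤ al s := Pi.single_nonneg.2 zero_le_one
  have h1 := hmin (u * sr M s) ((WX M X).mul_mem hu (Subgroup.subset_closure ⟨s, hs, rfl⟩))
  have h2 : (N (u * sr M s)).ncard ≤ (N u \ {al s}).ncard := by
    refine Set.ncard_le_ncard_of_injOn (rho M (sr M s)) (fun β ⟨b1, b2, b3⟩ => ?_)
      (fun β _ γ _ e => by rw [← fin_sr_sr M s β, e, fin_sr_sr]) (hfin u).sdiff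
    rw [rho_mul] at b3
    refine ⟨⟨b1.rho _, b1.sr_nonneg b2 fun e => ?_, b3⟩, fun e => ?_⟩
    · rw [e, fin_sr_al, rho_neg, dotProduct_neg] at b3
      linarith
    · rw [← fin_sr_sr M s β, Set.mem_singleton_iff.1 e, fin_sr_al] at b2
      exact hal.ne_zero (le_antisymm (neg_nonneg.1 b2) hal0)
  have h3 := Set.ncard_sdiff_singleton_lt_of_mem (s := N u) ⟨hal, hal0, hneg⟩ (hfin u)
  omega

/-- near `e_t` everything is covered by the chambers of `W_{S ∖ t}` -/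
theorem exists_dominant_near [Finite M.Group] (t : S) (lam : S → ℝ) :
    ∃ ε : ℝ, 0 < ε ∧ ∃ u ∈ WX M {s | s ≠ t}, 0 ≤ rhoD M u⁻¹ (al t + ε • lam) := by
  obtain ⟨u, hu, h⟩ := exists_dominant M {s | s ≠ t} lam
  have h0 : 0 < |rhoD M u⁻¹ lam t| + 1 := by positivity
  refine ⟨(|rhoD M u⁻¹ lam t| + 1)⁻¹, inv_pos.2 h0, u, hu, fun s => ?_⟩
  rw [rhoD_add, rhoD_smul, rhoD_of_mem_WX M ((WX M _).inv_mem hu)
    fun s hs => Pi.single_eq_of_ne hs 1]
  simp only [Pi.zero_apply, Pi.add_apply, Pi.smul_apply, smul_eq_mul, al]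
  by_cases hs : s = t
  · rw [hs, Pi.single_eq_same, ← neg_le_iff_add_nonneg', le_inv_mul_iff₀ h0]
    linarith [neg_abs_le (rhoD M u⁻¹ lam t)]
  · rw [Pi.single_eq_of_ne hs, zero_add]
    exact mul_nonneg (inv_pos.2 h0).le (h s hs)

/-- **Galleries.**  Induction on `ℓ (u₁⁻¹ u₂)`.  After translating by `u₁`, `l₁ ≥ 0` and
`rhoD w⁻¹ l₂ ≥ 0`; for a left descent `s` of `w` the coordinate `s` of `l₂` is `≤ 0`, otherwise `≥ 0`.
Among the left descents take the one whose coordinate vanishes first on the segment. -/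
theorem gallery {C : Set (S → ℝ)} (hC : Convex ℝ C) (P : M.Group → Prop)
    (step : ∀ u s lam, lam ∈ C → 0 ≤ rhoD M u⁻¹ lam → rhoD M u⁻¹ lam s = 0 → P u →
      P (u * sr M s))
    {u₁ u₂ : M.Group} {l₁ l₂ : S → ℝ} (h₁ : l₁ ∈ C) (h₂ : l₂ ∈ C) (d₁ : 0 ≤ rhoD M u₁⁻¹ l₁)
    (d₂ : 0 ≤ rhoD M u₂⁻¹ l₂) (hP : P u₁) : P u₂ := by
  induction hn : ℓ M (u₁⁻¹ * u₂) using Nat.strong_induction_on generalizing u₁ l₁ with
  | _ n ih =>
  subst hn
  by_cases hw : u₁⁻¹ * u₂ = 1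
  · exact inv_mul_eq_one.1 hw ▸ hP
  set w := u₁⁻¹ * u₂ with hwdef
  set a := rhoD M u₁⁻¹ l₁ with ha
  set b := rhoD M u₁⁻¹ l₂ with hb
  have hb' : ∀ s, b s = rhoD M u₂⁻¹ l₂ ⬝ᵥ rho M w⁻¹ (al s) := fun s => by
    rw [hb, show u₁⁻¹ = w * u₂⁻¹ by rw [hwdef, mul_inv_cancel_right], rhoD_mul]
    rfl
  have hl : ∀ s, ℓ M (w⁻¹ * sr M s) = ℓ M (sr M s * w) := fun s => by
    rw [ℓ, ← (cs M).length_inv, mul_inv_rev, inv_inv, (cs M).inv_simple]
  have hb1 : ∀ s, ℓ M (sr M s * w) < ℓ M w → b s ≤ 0 := fun s hs => by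
    rw [hb']
    exact Finset.sum_nonpos fun r _ => mul_nonpos_of_nonneg_of_nonpos (d₂ r)
      (rho_al_nonpos M (by rwa [hl, ℓ, ℓ, (cs M).length_inv]) r)
  have hb2 : ∀ s, ¬ ℓ M (sr M s * w) < ℓ M w → 0 ≤ b s := fun s hs => by
    rw [hb']
    refine dotProduct_nonneg_of_nonneg d₂ (rho_al_nonneg M ?_)
    rw [hl, ℓ, (cs M).length_inv]
    exact lt_of_le_of_ne (not_lt.1 hs) ((cs M).length_simple_mul_ne w s).symm
  obtain ⟨s, hs, hmin⟩ := Set.exists_min_image {s | ℓ M (sr M s * w) < ℓ M w}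
    (fun s => a s / (a s - b s)) (Set.toFinite _) ((cs M).exists_leftDescent_of_ne_one hw)
  set τ := a s / (a s - b s) with hτ
  have key : ∀ r, ℓ M (sr M r * w) < ℓ M w → a r / (a r - b r) * (a r - b r) = a r := fun r hr =>
    div_mul_cancel_of_imp fun h0 => le_antisymm (by linarith [hb1 r hr]) (d₁ r)
  have hs0 : 0 ≤ a s := d₁ s
  have hτ0 : 0 ≤ τ := div_nonneg hs0 (by linarith [hb1 s hs])
  have hτ1 : τ ≤ 1 := div_le_one_of_le₀ (by linarith [hb1 s hs]) (by linarith [hb1 s hs])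
  have hC' := hC h₁ h₂ (sub_nonneg.2 hτ1) hτ0 (by ring)
  have e : ∀ r, rhoD M u₁⁻¹ ((1 - τ) • l₁ + τ • l₂) r = (1 - τ) * a r + τ * b r := fun r => by
    rw [rhoD_add, rhoD_smul, rhoD_smul]
    rfl
  have p1 : 0 ≤ rhoD M u₁⁻¹ ((1 - τ) • l₁ + τ • l₂) := fun r => by
    have hr0 : 0 ≤ a r := d₁ r
    rw [e, Pi.zero_apply]
    by_cases hr : ℓ M (sr M r * w) < ℓ M w
    · linarith [key r hr, mul_le_mul_of_nonneg_right (hmin r hr)
        (show 0 ≤ a r - b r by linarith [hb1 r hr])]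
    · exact add_nonneg (mul_nonneg (sub_nonneg.2 hτ1) hr0) (mul_nonneg hτ0 (hb2 r hr))
  have p2 : rhoD M u₁⁻¹ ((1 - τ) • l₁ + τ • l₂) s = 0 := by
    rw [e]
    linarith [key s hs]
  have e2 : (u₁ * sr M s)⁻¹ = sr M s * u₁⁻¹ := by rw [mul_inv_rev, (cs M).inv_simple]
  refine ih _ ?_ hC' (fun r => ?_) (step u₁ s _ hC' p1 p2 hP) rfl
  · rwa [e2, mul_assoc]
  · rw [e2, rhoD_mul, rhoD_sr, p2, zero_mul, sub_zero]
    exact p1 r

end Crest.R175
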