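import Crest.Agent.R175.Rank2

/-! Row 175: positive definite forms, finiteness of `W`, galleries along segments. -/

set_option autoImplicit false
set_option linter.unusedSectionVars false

namespace Crest.R175

variable {S : Type} [Fintype S] [DecidableEq S] (M : CoxeterMatrix S)

theorem fin1_add_left (u u' v : S → ℝ) : Bf M (u + u') v = Bf M u v + Bf M u' v := by
  simp [Bf, add_mul, Finset.sum_add_distrib]

theorem fin1_smul_left (c : ℝ) (u v : S → ℝ) : Bf M (c • u) v = c * Bf M u v := by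
  simp [Bf, Finset.mul_sum, mul_assoc]

theorem fin1_al_al (s : S) : Bf M (al s) (al s) = 2 := by
  rw [Bf_al_left, Finset.sum_eq_single s]
  · simp [al, Bm_self]
  · intro t _ ht
    simp [al, ht]
  · simp

theorem fin1_expand (v : S → ℝ) (t : ℝ) (s : S) :
    Bf M (v + t • al s) (v + t • al s) = Bf M v v + 2 * t * Bf M (al s) v + 2 * t ^ 2 := by
  rw [fin1_add_left, fin1_smul_left, Bf_symm M v, Bf_symm M (al s), fin1_add_left, fin1_add_left,
    fin1_smul_left, fin1_smul_left, fin1_al_al, Bf_symm M v (al s)]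
  ring

theorem fin1_sq_expand (v : S → ℝ) (t : ℝ) (s : S) :
    ∑ r, (v + t • al s) r ^ 2 = ∑ r, v r ^ 2 + 2 * t * v s + t ^ 2 := by
  have : ∀ r, (v + t • al s) r ^ 2 = v r ^ 2 + if r = s then 2 * t * v s + t ^ 2 else 0 := by
    intro r
    by_cases h : r = s
    · subst h; simp [al]; ring
    · simp [al, h]
  simp only [this, Finset.sum_add_distrib, Finset.sum_ite_eq', Finset.mem_univ, if_true]
  ring

theorem fin1_sq_pos {v : S → ℝ} (hv : v ≠ 0) : 0 < ∑ r, v r ^ 2 := by
  obtain ⟨r, hr⟩ := Function.ne_iff.1 hv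
  exact lt_of_lt_of_le (pow_pos (abs_pos.2 hr) 2 |>.trans_eq (sq_abs _))
    (Finset.single_le_sum (f := fun r => v r ^ 2) (fun _ _ => sq_nonneg _) (Finset.mem_univ r))

/-- a minimiser of the Rayleigh quotient -/
theorem fin1_min {T : Set S} {v1 : S → ℝ} (h1 : Supp T v1) (h2 : v1 ≠ 0) :
    ∃ v0, Supp T v0 ∧ ∑ r, v0 r ^ 2 = 1 ∧
      ∀ v, Supp T v → Bf M v0 v0 * ∑ r, v r ^ 2 ≤ Bf M v v := by
  let K : Set (S → ℝ) := {v | Supp T v ∧ ∑ r, v r ^ 2 = 1}
  have hnorm : ∀ v, Supp T v → v ≠ 0 → (√(∑ r, v r ^ 2))⁻¹ • v ∈ K := by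
    intro v hv h0
    have := fin1_sq_pos h0
    refine ⟨fun s hs => by simp [hv s hs], ?_⟩
    simp only [Pi.smul_apply, smul_eq_mul, mul_pow, ← Finset.mul_sum, inv_pow, Real.sq_sqrt this.le]
    exact inv_mul_cancel₀ this.ne'
  have hK : IsCompact K := by
    refine Metric.isCompact_of_isClosed_isBounded ?_ ?_
    · have : K = (⋂ s ∈ Tᶜ, {v : S → ℝ | v s = 0}) ∩ {v | ∑ r, v r ^ 2 = 1} := by
        ext v; simp [K, Supp]
      rw [this]
      exact (isClosed_biInter fun s _ => isClosed_eq (by fun_prop) (by fun_prop)).inter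
        (isClosed_eq (by fun_prop) (by fun_prop))
    · refine (Metric.isBounded_closedBall (x := (0 : S → ℝ)) (r := 1)).subset fun v hv => ?_
      rw [mem_closedBall_zero_iff, pi_norm_le_iff_of_nonneg zero_le_one]
      intro s
      rw [Real.norm_eq_abs, ← sq_le_one_iff_abs_le_one, ← hv.2]
      exact Finset.single_le_sum (f := fun r => v r ^ 2) (fun _ _ => sq_nonneg _) (Finset.mem_univ s)
  have hc : Continuous fun v : S → ℝ => Bf M v v := by unfold Bf; fun_prop
  obtain ⟨v0, hv0, hmin⟩ := hK.exists_isMinOn ⟨_, hnorm v1 h1 h2⟩ hc.continuousOn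
  refine ⟨v0, hv0.1, hv0.2, fun v hv => ?_⟩
  by_cases h0 : v = 0
  · subst h0; simp [Bf]
  have hp := fin1_sq_pos h0
  have := hmin (hnorm v hv h0)
  simp only [Set.mem_ofPred_eq] at this
  rw [fin1_smul_left, Bf_symm M _ (_ • v), fin1_smul_left, ← mul_assoc, ← mul_inv,
    Real.mul_self_sqrt hp.le, inv_mul_eq_div, le_div_iff₀ hp] at this
  exact this

theorem fin1_upper : ∃ C : ℝ, 0 < C ∧ ∀ v : S → ℝ, Bf M v v ≤ C * ‖v‖ ^ 2 := by
  refine ⟨1 + ∑ s, ∑ t, |Bm M s t|, by positivity, fun v => ?_⟩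
  have : Bf M v v ≤ (∑ s, ∑ t, |Bm M s t|) * ‖v‖ ^ 2 := by
    simp only [Bf, Finset.sum_mul]
    refine Finset.sum_le_sum fun s _ => Finset.sum_le_sum fun t _ => (le_abs_self _).trans ?_
    rw [abs_mul, abs_mul]
    have a1 : |v s| ≤ ‖v‖ := norm_le_pi_norm v s
    have a2 : |v t| ≤ ‖v‖ := norm_le_pi_norm v t
    calc |v s| * |Bm M s t| * |v t| ≤ ‖v‖ * |Bm M s t| * ‖v‖ := by gcongr
      _ = _ := by ring
  nlinarith [sq_nonneg ‖v‖]

theorem fin1_sub (w : M.Group) (u v : S → ℝ) : rho M w (u - v) = rho M w u - rho M w v := by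
  rw [sub_eq_add_neg, rho_add, rho_neg, ← sub_eq_add_neg]

/-- Take `ρ` with `Bf (al s) ρ = 1` for all `s` (the form is nondegenerate).  For `w ≠ 1` with left
descent `s`, `Bf (al s) (rho w ρ) = Bf (rho w⁻¹ (al s)) ρ < 0`, so by Cauchy-Schwarz `ρ - w ρ` has
`B`-norm at least `1/√2`; the orbit is a separated subset of a bounded set. -/
theorem finite_of_posDef (h : PosDef M) : Finite M.Group := by
  obtain ⟨c, hc, hlow⟩ : ∃ c : ℝ, 0 < c ∧ ∀ v : S → ℝ, c * ∑ r, v r ^ 2 ≤ Bf M v v := by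
    rcases isEmpty_or_nonempty S with hS | ⟨⟨s⟩⟩
    · exact ⟨1, one_pos, fun v => by simp [Bf]⟩
    · obtain ⟨v0, -, h2, h3⟩ := fin1_min M (T := Set.univ) (v1 := al s) (fun _ h => by simp at h)
        (fun e => by simpa [al] using congrFun e s)
      refine ⟨_, h v0 (fun _ h => by simp at h) ?_, fun v => h3 v fun _ h => by simp at h⟩
      rintro rfl
      simp at h2
  have hlow' : ∀ (v : S → ℝ) s, c * v s ^ 2 ≤ Bf M v v := fun v s =>
    le_trans (mul_le_mul_of_nonneg_left (Finset.single_le_sum (f := fun r => v r ^ 2)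
      (fun _ _ => sq_nonneg _) (Finset.mem_univ s)) hc.le) (hlow v)
  obtain ⟨C, hC, hup⟩ := fin1_upper M
  let F : M.Group → S → S → ℝ := fun w s => rho M w (al s)
  have hb : Bornology.IsBounded (Set.range F) := by
    refine (Metric.isBounded_closedBall (x := (0 : S → S → ℝ)) (r := √(2 / c))).subset ?_
    rintro _ ⟨w, rfl⟩
    rw [mem_closedBall_zero_iff, pi_norm_le_iff_of_nonneg (Real.sqrt_nonneg _)]
    intro s
    rw [pi_norm_le_iff_of_nonneg (Real.sqrt_nonneg _)]
    intro t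
    have := hlow' (rho M w (al s)) t
    rw [Bf_rho, fin1_al_al] at this
    refine Real.abs_le_sqrt ?_
    rw [le_div_iff₀ hc]
    linarith
  have hδ : 0 < √(c / C) := Real.sqrt_pos.2 (div_pos hc hC)
  have hsep : ∀ w w', dist (F w) (F w') < √(c / C) → w = w' := by
    intro w w' hd
    by_contra hne
    have hne' : w⁻¹ * w' ≠ 1 := fun e => hne (inv_mul_eq_one.1 e)
    obtain ⟨s, hs⟩ := (cs M).exists_rightDescent_of_ne_one hne'
    have a1 := rho_al_nonpos M (w := w⁻¹ * w') (s := s) hs s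
    have a2 : rho M w (al s - rho M (w⁻¹ * w') (al s)) = F w s - F w' s := by
      rw [fin1_sub, ← rho_mul, mul_inv_cancel_left]
    have a3 := hlow' (al s - rho M (w⁻¹ * w') (al s)) s
    rw [← Bf_rho M w, a2] at a3
    have a4 : ‖F w s - F w' s‖ < √(c / C) := by
      rw [← dist_eq_norm]; exact (dist_le_pi_dist _ _ s).trans_lt hd
    have a5 : ‖F w s - F w' s‖ ^ 2 < c / C := by
      rwa [Real.lt_sqrt (norm_nonneg _)] at a4
    rw [lt_div_iff₀ hC] at a5
    have a6 := hup (F w s - F w' s)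
    have a7 : 1 ≤ (al s - rho M (w⁻¹ * w') (al s)) s := by
      simp only [Pi.sub_apply, al, Pi.single_eq_same, Pi.zero_apply] at a1 ⊢
      linarith
    have a8 : 1 ≤ (al s - rho M (w⁻¹ * w') (al s)) s ^ 2 := one_le_pow₀ a7
    nlinarith
  have htb : TotallyBounded (Set.range F) :=
    hb.isCompact_closure.totallyBounded.subset subset_closure
  obtain ⟨t, ht, hcov⟩ := Metric.totallyBounded_iff.1 htb _ (half_pos hδ)
  have : ∀ w, ∃ y : t, F w ∈ Metric.ball (y : S → S → ℝ) (√(c / C) / 2) := fun w => by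
    obtain ⟨y, hy, hy'⟩ := Set.mem_iUnion₂.1 (hcov ⟨w, rfl⟩)
    exact ⟨⟨y, hy⟩, hy'⟩
  choose g hg using this
  have := ht.to_subtype
  refine Finite.of_injective g fun w w' e => hsep w w' ?_
  have b1 := hg w
  have b2 := hg w'
  rw [← e] at b2
  rw [Metric.mem_ball] at b1 b2
  linarith [dist_triangle_right (F w) (F w') (g w)]

/-- Dichotomy: minimise the form on the unit sphere of vectors supported in `T`; `|v|` is again a
minimiser since the off-diagonal entries are `≤ 0`; Lagrange (or vary one coordinate). -/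
theorem exists_subharmonic_of_not_posDefOn {T : Set S} (h : ¬ PosDefOn M T) :
    ∃ γ : S → ℝ, 0 ≤ γ ∧ γ ≠ 0 ∧ Supp T γ ∧ ∀ s ∈ T, Bf M (al s) γ ≤ 0 := by
  simp only [PosDefOn, not_forall, not_lt] at h
  obtain ⟨v1, h1, h2, h3⟩ := h
  obtain ⟨v0, a1, a2, a3⟩ := fin1_min M (T := T) h1 h2
  have hc : Bf M v0 v0 ≤ 0 := by
    by_contra hc
    nlinarith [a3 v1 h1, fin1_sq_pos h2, mul_pos (not_le.1 hc) (fin1_sq_pos h2)]
  let γ : S → ℝ := fun s => |v0 s|
  have g1 : Supp T γ := fun s hs => by simp [γ, a1 s hs]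
  have g2 : ∑ r, γ r ^ 2 = 1 := by simpa [γ] using a2
  have g3 : Bf M γ γ ≤ Bf M v0 v0 := by
    refine Finset.sum_le_sum fun s _ => Finset.sum_le_sum fun t _ => ?_
    by_cases hst : s = t
    · subst hst
      rw [Bm_self]
      nlinarith [abs_mul_abs_self (v0 s)]
    · rw [Bm_eq_neg_cc]
      have b1 := cc_nonneg M hst
      have b2 : v0 s * v0 t ≤ |v0 s| * |v0 t| := by rw [← abs_mul]; exact le_abs_self _
      nlinarith [mul_le_mul_of_nonneg_left b2 b1]
  refine ⟨γ, fun s => abs_nonneg _, ?_, g1, fun s hs => ?_⟩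
  · intro e
    rw [e] at g2
    simp at g2
  · have key : ∀ t : ℝ, Bf M v0 v0 * (1 + 2 * t * γ s + t ^ 2) ≤
        Bf M γ γ + 2 * t * Bf M (al s) γ + 2 * t ^ 2 := by
      intro t
      have := a3 (γ + t • al s) fun r hr => by
        have : r ≠ s := by rintro rfl; exact hr hs
        simp [g1 r hr, al, this]
      rwa [fin1_expand, fin1_sq_expand, g2] at this
    have g4 : 0 ≤ γ s := abs_nonneg _
    generalize Bf M v0 v0 = c at *
    generalize Bf M (al s) γ = b at *
    by_contra hb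
    have hb : 0 < b - c * γ s := by nlinarith [mul_nonneg (neg_nonneg.2 hc) g4]
    have h2c : 0 < 2 - c := by linarith
    have := key (-((b - c * γ s) / (2 - c)))
    have ht := div_pos hb h2c
    have e : (b - c * γ s) / (2 - c) * (2 - c) = b - c * γ s := div_mul_cancel₀ _ h2c.ne'
    generalize (b - c * γ s) / (2 - c) = t at *
    nlinarith [mul_pos ht hb]

/-- maximum principle: consider the positive part of `e` -/
theorem nonpos_of_posDefOn {T : Set S} (h : PosDefOn M T) {e : S → ℝ}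
    (h1 : ∀ s, s ∉ T → e s ≤ 0) (h2 : ∀ s ∈ T, 0 < e s → Bf M (al s) e ≤ 0) : e ≤ 0 := by
  let p : S → ℝ := fun s => max (e s) 0
  by_contra hne
  have hp : p ≠ 0 := fun hp => hne fun s => (le_max_left _ _).trans (congrFun hp s).le
  have := h p (fun s hs => max_eq_right (h1 s hs)) hp
  refine absurd this (not_lt.2 ?_)
  rw [Bf_eq_sum]
  refine Finset.sum_nonpos fun s _ => ?_
  rcases le_or_gt (e s) 0 with hs | hs
  · simp [p, max_eq_right hs]
  · have hT : s ∈ T := by_contra fun hT => absurd (h1 s hT) (not_le.2 hs)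
    refine mul_nonpos_of_nonneg_of_nonpos (le_max_right _ _) (le_trans ?_ (h2 s hT hs))
    rw [Bf_al_left', Bf_al_left', show p s = e s from max_eq_left hs.le]
    refine sub_le_sub_left (Finset.sum_le_sum fun t ht => ?_) _
    exact mul_le_mul_of_nonneg_left (le_max_left _ _) (cc_nonneg M (Finset.ne_of_mem_erase ht).symm)

/-- adding a vertex not adjacent to `T` -/
theorem PosDefOn.insert {M : CoxeterMatrix S} {T : Set S} (h : PosDefOn M T) {s : S}
    (hs : ∀ t ∈ T, t ≠ s → cc M s t = 0) : PosDefOn M (insert s T) := by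
  intro v hv h0
  let v' : S → ℝ := Function.update v s 0
  have e : v = v' + v s • al s := by
    funext r
    by_cases hr : r = s
    · subst hr; simp [v', al]
    · simp [v', al, hr]
  have a1 : ∀ r, r ∉ T → v' r = 0 := fun r hr => by
    by_cases hrs : r = s
    · subst hrs; simp [v']
    · simp only [v', Function.update_of_ne hrs]
      exact hv r (by simp [hr, hrs])
  have a2 : Bf M (al s) v' = 0 := by
    rw [Bf_al_left', show v' s = 0 by simp [v'], Finset.sum_eq_zero, mul_zero, sub_zero]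
    intro t ht
    by_cases hT : t ∈ T
    · rw [hs t hT (Finset.ne_of_mem_erase ht), zero_mul]
    · rw [a1 t hT, mul_zero]
  rw [e, fin1_expand, a2]
  by_cases h' : v' = 0
  · have : v s ≠ 0 := fun hh => h0 (by rw [e, h', hh]; simp)
    have : Bf M v' v' = 0 := by simp [h', Bf]
    have := sq_pos_of_ne_zero ‹v s ≠ 0›
    linarith
  · have := h v' a1 h'
    nlinarith [sq_nonneg (v s)]

end Crest.R175
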