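import Crest.Agent.R175.Mats

/-! Row 175: folded braid relations from Perron-Frobenius weights. -/

set_option autoImplicit false
set_option linter.unusedSectionVars false

namespace Crest.R175

open Classical in
/-- the simply laced Coxeter matrix of a graph -/
noncomputable def graphM {I : Type} (Γ : SimpleGraph I) : CoxeterMatrix I where
  M := Matrix.of fun i j => if i = j then 1 else if Γ.Adj i j then 3 else 2
  isSymm := Matrix.IsSymm.ext fun i j => by simp [eq_comm, Γ.adj_comm]
  diagonal := fun i => by simp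
  off_diagonal := fun i j h => by
    simp only [Matrix.of_apply, if_neg h]
    split_ifs <;> decide

section FoldAux
variable {I : Type} [Fintype I] [DecidableEq I]

theorem fold_M_self (Γ : SimpleGraph I) (i : I) : graphM Γ i i = 1 := (graphM Γ).diagonal i

theorem fold_M_adj (Γ : SimpleGraph I) {i j : I} (h : Γ.Adj i j) : graphM Γ i j = 3 := by
  simp [graphM, h.ne, h]

theorem fold_M_nadj (Γ : SimpleGraph I) {i j : I} (h : i ≠ j) (h' : ¬ Γ.Adj i j) :
    graphM Γ i j = 2 := by
  simp [graphM, h, h']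

theorem fold_Bm_adj (Γ : SimpleGraph I) {i j : I} (h : Γ.Adj i j) : Bm (graphM Γ) i j = -1 := by
  rw [Bm, fold_M_adj Γ h]
  have : ((3 : ℕ) : ℝ) = 3 := by norm_num
  rw [this, Real.cos_pi_div_three]; norm_num

theorem fold_Bm_nadj (Γ : SimpleGraph I) {i j : I} (h : i ≠ j) (h' : ¬ Γ.Adj i j) :
    Bm (graphM Γ) i j = 0 := by
  rw [Bm, fold_M_nadj Γ h h']
  simp

theorem fold_wπ_cons (N : CoxeterMatrix I) (i : I) (l : List I) :
    wπ N (i :: l) = sr N i * wπ N l := (cs N).wordProd_cons i l

theorem fold_wπ_append (N : CoxeterMatrix I) (l l' : List I) :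
    wπ N (l ++ l') = wπ N l * wπ N l' := (cs N).wordProd_append l l'

theorem fold_rhoD_list (N : CoxeterMatrix I) (l : List I)
    (hl : l.Pairwise fun i k => Bm N i k = 0) (μ : I → ℝ) (j : I) :
    rhoD N (wπ N l)⁻¹ μ j = μ j - (l.map fun i => μ i * Bm N i j).sum := by
  induction l generalizing μ with
  | nil => simp [rhoD_one]
  | cons i l ih =>
    rw [List.pairwise_cons] at hl
    rw [fold_wπ_cons, mul_inv_rev, (cs N).inv_simple, rhoD_mul, ih hl.2, rhoD_sr, List.map_cons,
      List.sum_cons]
    have : (l.map fun k => rhoD N (sr N i) μ k * Bm N k j) = l.map fun k => μ k * Bm N k j := by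
      refine List.map_congr_left fun k hk => ?_
      rw [rhoD_sr, hl.1 k hk, mul_zero, sub_zero]
    rw [this]; ring

theorem fold_pos_iff (N : CoxeterMatrix I) {μ : I → ℝ} (hμ : ∀ i, 0 < μ i) (w : N.Group) (i : I) :
    0 < rhoD N w⁻¹ μ i ↔ ℓ N w < ℓ N (w * sr N i) := by
  rw [rhoD, inv_inv]
  constructor
  · intro h
    refine ((cs N).length_mul_simple_ne w i).lt_or_gt.resolve_left fun h' => ?_
    have h1 := rho_al_nonpos N h'
    have : μ ⬝ᵥ rho N w (al i) ≤ 0 :=
      Finset.sum_nonpos fun t _ => mul_nonpos_of_nonneg_of_nonpos (hμ t).le (h1 t)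
    linarith
  · intro h
    have h1 := rho_al_nonneg N h
    obtain ⟨t, ht⟩ := Function.ne_iff.1 (rho_al_ne_zero N w i)
    exact Finset.sum_pos' (fun t _ => mul_nonneg (hμ t).le (h1 t))
      ⟨t, Finset.mem_univ t, mul_pos (hμ t) (lt_of_le_of_ne (h1 t) (Ne.symm ht))⟩

theorem fold_length_list (N : CoxeterMatrix I) {μ : I → ℝ} (hμ : ∀ i, 0 < μ i) (l : List I)
    (hl : l.Pairwise fun i k => Bm N i k = 0) (w : N.Group)
    (h : ∀ i ∈ l, 0 < rhoD N w⁻¹ μ i) : ℓ N (w * wπ N l) = ℓ N w + l.length := by
  induction l generalizing w with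
  | nil => simp
  | cons i l ih =>
    rw [List.pairwise_cons] at hl
    have h1 := (fold_pos_iff N hμ w i).1 (h i List.mem_cons_self)
    have h2 : ℓ N (w * sr N i) = ℓ N w + 1 := by
      rcases (cs N).length_mul_simple w i with h3 | h3
      · exact h3
      · have h4 : ℓ N (w * sr N i) + 1 = ℓ N w := h3
        omega
    rw [fold_wπ_cons, ← mul_assoc, ih hl.2, h2, List.length_cons]
    · ring
    · intro k hk
      rw [mul_inv_rev, (cs N).inv_simple, rhoD_mul, rhoD_sr, hl.1 k hk, mul_zero, sub_zero]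
      exact h k (List.mem_cons_of_mem _ hk)

theorem fold_wp_flatMap {S G : Type*} [Monoid G] (τ : I → G) (f : S → List I) (ω : List S) :
    wp (fun s => wp τ (f s)) ω = wp τ (ω.flatMap f) := by
  induction ω with
  | nil => simp
  | cons s ω ih => simp [ih]

end FoldAux

open Classical in
/-- **Folding.**  Put `Φ lam i = lam (p i) * π i`.  For a nodup list `l` inside the fibre of `s`,
`rhoD (wπ l) μ` negates the coordinates in `l`, and adds `μ i` to the neighbours; so for the full
fibre `Φ` intertwines `rhoD (sr s)` with `rhoD (wπ (f s))` (hypothesis `pf`).  With `lam₀ = 1`: if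
`ω ++ [s]` is reduced then `rhoD (wπ ω)⁻¹ lam₀ s > 0`, hence (`lt_iff_rho_nonneg`, `IsRt.nonneg_or`)
each letter of `f s` increases the length of the unfolded word; so unfolded reduced words are
reduced.  Two words with the same product in `W` unfold to elements whose quotient fixes `Φ lam₀`,
so they are equal (`eq_one_of_rhoD_pos`).  Conclude with `matsumoto`, `alt_reduced`, `braidRel_sr`. -/
theorem fold_braidRel {S I : Type} [Fintype S] [DecidableEq S] [Fintype I] [DecidableEq I]
    (M : CoxeterMatrix S) (Γ : SimpleGraph I) (p : I → S) (π : I → ℝ) (hπ : ∀ i, 0 < π i)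
    (nadj : ∀ i j, p i = p j → ¬ Γ.Adj i j)
    (pf : ∀ j s, s ≠ p j →
      ∑ i ∈ Finset.univ.filter (fun i => p i = s ∧ Γ.Adj j i), π i = cc M s (p j) * π j)
    (f : S → List I) (hf : ∀ s, (f s).Nodup) (hf' : ∀ s i, i ∈ f s ↔ p i = s)
    {G : Type*} [Monoid G] (τ : I → G) (hτ : BraidRel (graphM Γ) τ) :
    BraidRel M (fun s => wp τ (f s)) := by
  set N := graphM Γ with hN
  let Φ : (S → ℝ) → I → ℝ := fun lam i => lam (p i) * π i
  have hpw : ∀ s, (f s).Pairwise fun i k => Bm N i k = 0 := by
    intro s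
    refine List.Pairwise.imp_of_mem ?_ (hf s)
    intro i k hi hk hik
    exact fold_Bm_nadj Γ hik (nadj i k (((hf' s i).1 hi).trans ((hf' s k).1 hk).symm))
  have hsum : ∀ s j, ∑ i ∈ Finset.univ.filter (fun i => p i = s), π i * Bm N i j =
      Bm M s (p j) * π j := by
    intro s j
    by_cases hs : s = p j
    · rw [Finset.sum_eq_single j, Bm_self, hs, Bm_self, mul_comm]
      · intro i hi hij
        rw [fold_Bm_nadj Γ hij (nadj i j (((Finset.mem_filter.1 hi).2).trans hs)), mul_zero]
      · intro hj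
        exact absurd (Finset.mem_filter.2 ⟨Finset.mem_univ j, hs.symm⟩) hj
    · rw [Bm_eq_neg_cc, neg_mul, ← pf j s hs, ← Finset.sum_neg_distrib, Finset.sum_filter,
        Finset.sum_filter]
      refine Finset.sum_congr rfl fun i _ => ?_
      by_cases hi : p i = s
      · by_cases ha : Γ.Adj j i
        · rw [if_pos hi, if_pos ⟨hi, ha⟩, fold_Bm_adj Γ ha.symm]; ring
        · have hij : i ≠ j := fun e => hs (by rw [← hi, e])
          rw [if_pos hi, if_neg (fun h => ha h.2), fold_Bm_nadj Γ hij (fun h => ha h.symm),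
            mul_zero]
      · rw [if_neg hi, if_neg (fun h => hi h.1)]
  have h1 : ∀ s lam, rhoD N (wπ N (f s))⁻¹ (Φ lam) = Φ (rhoD M (sr M s) lam) := by
    intro s lam
    funext j
    rw [fold_rhoD_list N _ (hpw s), ← List.sum_toFinset _ (hf s)]
    have e : (f s).toFinset = Finset.univ.filter (fun i => p i = s) := by
      ext i; simp [hf']
    have e2 : ∑ i ∈ Finset.univ.filter (fun i => p i = s), Φ lam i * Bm N i j =
        lam s * ∑ i ∈ Finset.univ.filter (fun i => p i = s), π i * Bm N i j := by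
      rw [Finset.mul_sum]
      refine Finset.sum_congr rfl fun i hi => ?_
      simp only [Φ, (Finset.mem_filter.1 hi).2]
      ring
    rw [e, e2, hsum]
    simp only [Φ, rhoD_sr]
    ring
  have h2 : ∀ (ω : List S) lam,
      rhoD N (wπ N (ω.flatMap f))⁻¹ (Φ lam) = Φ (rhoD M (wπ M ω)⁻¹ lam) := by
    intro ω
    induction ω with
    | nil => intro lam; simp [rhoD_one]
    | cons s ω ih =>
      intro lam
      rw [List.flatMap_cons, fold_wπ_append, mul_inv_rev, rhoD_mul, h1, ih, fold_wπ_cons,
        mul_inv_rev, (cs M).inv_simple, rhoD_mul]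
  have hΦ : ∀ i, 0 < Φ 1 i := fun i => by simpa [Φ] using hπ i
  have h3 : ∀ ω : List S, (cs M).IsReduced ω → (cs N).IsReduced (ω.flatMap f) := by
    intro ω
    induction ω using List.reverseRecOn with
    | nil => intro _; simp [CoxeterSystem.IsReduced]
    | append_singleton ω s ih =>
      intro hr
      have hω : (cs M).IsReduced ω := by
        have := hr.take ω.length
        simpa using this
      have hlt : ℓ M (wπ M ω) < ℓ M (wπ M ω * sr M s) := by
        have e1 : ℓ M (wπ M ω) = ω.length := hω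
        have e2 : ℓ M (wπ M (ω ++ [s])) = (ω ++ [s]).length := hr
        rw [fold_wπ_append, fold_wπ_cons] at e2
        simp only [CoxeterSystem.wordProd_nil, mul_one, List.length_append,
          List.length_singleton] at e2
        omega
      have hpos := (fold_pos_iff M (μ := 1) (fun _ => one_pos) _ s).2 hlt
      have e3 : ℓ N (wπ N (ω.flatMap f)) = (ω.flatMap f).length := ih hω
      have e4 := fold_length_list N hΦ (f s) (hpw s) (wπ N (ω.flatMap f)) fun i hi => by
        rw [h2]
        simp only [Φ, (hf' s i).1 hi]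
        exact mul_pos hpos (hπ i)
      change ℓ N (wπ N ((ω ++ [s]).flatMap f)) = _
      rw [List.flatMap_append, List.flatMap_singleton, fold_wπ_append, e4, e3, List.length_append]
  intro s t
  by_cases hst : s = t
  · rw [hst]
  rw [fold_wp_flatMap, fold_wp_flatMap]
  have r1 := h3 _ (alt_reduced M hst (k := M s t) fun _ => le_rfl)
  have r2 := h3 _ (alt_reduced M (Ne.symm hst) (k := M s t) fun _ => (M.symmetric s t).le)
  refine matsumoto N hτ r1 r2 ?_
  have e : wπ M (alt s t (M s t)) = wπ M (alt t s (M s t)) := braidRel_sr M s t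
  rw [← mul_inv_eq_one]
  refine eq_one_of_rhoD_pos N hΦ fun i => ?_
  rw [rhoD_mul, h2, ← e, ← h2, ← rhoD_mul, mul_inv_cancel, rhoD_one]
  exact (hΦ i).le

/-- the braid relations of a graph -/
theorem braidRel_graphM {I : Type} (Γ : SimpleGraph I) {G : Type*} [Monoid G] (τ : I → G)
    (h2 : ∀ i j, i ≠ j → ¬ Γ.Adj i j → τ i * τ j = τ j * τ i)
    (h3 : ∀ i j, Γ.Adj i j → τ i * τ j * τ i = τ j * τ i * τ j) : BraidRel (graphM Γ) τ := by
  intro i j
  by_cases hij : i = j
  · rw [hij]
  by_cases ha : Γ.Adj i j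
  · have : graphM Γ i j = 3 := by
      simp [graphM, hij, ha]
    rw [this]
    simpa [mul_assoc] using h3 i j ha
  · have : graphM Γ i j = 2 := by
      simp [graphM, hij, ha]
    rw [this]
    simpa using h2 i j hij ha

end Crest.R175
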