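import Crest.Agent.R175.Defs

/-! Row 175: unfolding a Coxeter matrix to a simple graph with Perron-Frobenius weights. -/

set_option autoImplicit false
set_option linter.unusedSectionVars false

namespace Crest.R175

open Real

/-- number of vertices of the auxiliary graph of a label -/
def unfN (m : ℕ) : ℕ := if m = 0 then 2 else if m = 1 then 1 else m - 1

/-- adjacency in the auxiliary graph -/
def unfR (m : ℕ) (x y : ℕ) : Prop := m = 0 ∨ x + 1 = y ∨ y + 1 = x

instance (m x y : ℕ) : Decidable (unfR m x y) := by unfold unfR; infer_instance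

/-- weights -/
noncomputable def unfW (m : ℕ) (x : ℕ) : ℝ := if m ≤ 1 then 1 else sin ((x + 1) * (π / m))

theorem unfN_pos {m : ℕ} : 0 < unfN m := by
  unfold unfN; split_ifs <;> omega

theorem unfW_pos {m x : ℕ} (hx : x < unfN m) : 0 < unfW m x := by
  unfold unfW
  split_ifs with h
  · exact one_pos
  · have hm : 2 ≤ m := by omega
    have hx' : x + 1 < m := by
      unfold unfN at hx; rw [if_neg (by omega), if_neg (by omega)] at hx; omega
    have hm0 : (0 : ℝ) < m := by exact_mod_cast (by omega : 0 < m)
    apply sin_pos_of_pos_of_lt_pi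
    · positivity
    · have : ((x : ℝ) + 1) < m := by exact_mod_cast hx'
      calc ((x : ℝ) + 1) * (π / m) < m * (π / m) := by gcongr
        _ = π := by field_simp

theorem unf_sum {m : ℕ} (hm : m ≠ 1) (x : Fin (unfN m)) :
    ∑ y : Fin (unfN m), (if unfR m x y then unfW m y else 0) = 2 * cos (π / m) * unfW m x := by
  by_cases h0 : m = 0
  · subst h0
    simp [unfR, unfW, unfN]
    exact_mod_cast Fintype.card_fin 2
  · have hm2 : 2 ≤ m := by omega
    have hN : unfN m = m - 1 := by unfold unfN; rw [if_neg h0, if_neg hm]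
    have hx := x.2
    have hW : ∀ y : ℕ, unfW m y = sin ((y + 1) * (π / m)) := fun y => by
      unfold unfW; rw [if_neg (by omega)]
    have hm0 : (m : ℝ) ≠ 0 := by exact_mod_cast h0
    rw [Fin.sum_univ_eq_sum_range (fun y => if unfR m x y then unfW m y else 0)]
    have e1 : ∀ y : ℕ, (if unfR m x y then unfW m y else 0) =
        (if y = x + 1 then unfW m y else 0) + (if y + 1 = x then unfW m y else 0) := by
      intro y
      unfold unfR
      by_cases a : (x : ℕ) + 1 = y
      · rw [if_pos (Or.inr (Or.inl a)), if_pos a.symm, if_neg (by omega), add_zero]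
      · by_cases b : y + 1 = x
        · rw [if_pos (Or.inr (Or.inr b)), if_neg (fun h => a h.symm), if_pos b, zero_add]
        · rw [if_neg (by tauto), if_neg (fun h => a h.symm), if_neg b, add_zero]
    simp only [e1, Finset.sum_add_distrib]
    have s1 : ∑ y ∈ Finset.range (unfN m), (if y = x + 1 then unfW m y else 0) =
        sin (((x : ℕ) + 2) * (π / m)) := by
      rw [Finset.sum_ite_eq']
      split_ifs with h
      · rw [hW]; push_cast; ring_nf
      · have : (x : ℕ) + 2 = m := by
          simp only [Finset.mem_range] at h; omega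
        have : ((x : ℕ) : ℝ) + 2 = m := by exact_mod_cast this
        rw [this, mul_div_cancel₀ _ hm0, sin_pi]
    have s2 : ∑ y ∈ Finset.range (unfN m), (if y + 1 = x then unfW m y else 0) =
        sin ((x : ℕ) * (π / m)) := by
      rcases Nat.eq_zero_or_pos x with h | h
      · simp [h]
      · rw [Finset.sum_eq_single ((x : ℕ) - 1)]
        · rw [if_pos (by omega), hW]
          congr 2
          rw [Nat.cast_sub h]; simp
        · intro y _ hy; rw [if_neg (by omega)]
        · intro hy; simp only [Finset.mem_range] at hy; omega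
    rw [s1, s2, hW]
    have a : (((x : ℕ) : ℝ) + 2) * (π / m) = ((x : ℕ) + 1) * (π / m) + π / m := by ring
    have b : ((x : ℕ) : ℝ) * (π / m) = ((x : ℕ) + 1) * (π / m) - π / m := by ring
    rw [a, b, sin_add, sin_sub]; ring

open Classical in
/-- **Unfolding.** -/
theorem exists_unfold {S : Type} [Fintype S] [DecidableEq S] (M : CoxeterMatrix S) :
    ∃ (I : Type) (_ : Fintype I) (_ : DecidableEq I) (Γ : SimpleGraph I) (p : I → S) (w : I → ℝ),
      (∀ i, 0 < w i) ∧ Function.Surjective p ∧ (∀ i j, p i = p j → ¬ Γ.Adj i j) ∧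
      ∀ j s, s ≠ p j →
        ∑ i ∈ Finset.univ.filter (fun i => p i = s ∧ Γ.Adj j i), w i = cc M s (p j) * w j := by
  let m : Sym2 S → ℕ := Sym2.lift ⟨fun s t => M s t, fun s t => M.symmetric s t⟩
  have hm : ∀ s t, m s(s, t) = M s t := fun s t => rfl
  let A := (e : Sym2 S) → Fin (unfN (m e))
  let Γ : SimpleGraph (S × A) :=
    { Adj := fun i j => i.1 ≠ j.1 ∧ (∀ e, e ≠ s(i.1, j.1) → i.2 e = j.2 e) ∧
        unfR (m s(i.1, j.1)) (i.2 s(i.1, j.1)) (j.2 s(i.1, j.1))
      symm := ⟨by
        rintro i j ⟨h1, h2, h3⟩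
        rw [Sym2.eq_swap] at h2 h3
        refine ⟨h1.symm, fun e he => (h2 e he).symm, ?_⟩
        unfold unfR at h3 ⊢; tauto⟩
      loopless := ⟨fun i h => h.1 rfl⟩ }
  let w : S × A → ℝ := fun i => ∏ e, unfW (m e) (i.2 e)
  refine ⟨S × A, inferInstance, inferInstance, Γ, Prod.fst, w, ?_, ?_, ?_, ?_⟩
  · exact fun i => Finset.prod_pos fun e _ => unfW_pos (i.2 e).2
  · exact fun s => ⟨(s, fun e => ⟨0, unfN_pos⟩), rfl⟩
  · exact fun i j h h' => h'.1 h
  · rintro ⟨t, x⟩ s hst
    simp only at hst
    set e₀ : Sym2 S := s(t, s) with he₀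
    have hm1 : m e₀ ≠ 1 := by rw [he₀, hm]; exact M.off_diagonal _ _ (Ne.symm hst)
    have key := unf_sum hm1 (x e₀)
    have hw : ∀ y : Fin (unfN (m e₀)), w (s, Function.update x e₀ y) =
        unfW (m e₀) y * ∏ e ∈ Finset.univ.erase e₀, unfW (m e) (x e) := by
      intro y
      simp only [w]
      rw [← Finset.mul_prod_erase _ _ (Finset.mem_univ e₀)]
      congr 1
      · simp
      · exact Finset.prod_congr rfl fun e he => by
          rw [Function.update_of_ne (Finset.ne_of_mem_erase he)]
    have hw' : w (t, x) = unfW (m e₀) (x e₀) * ∏ e ∈ Finset.univ.erase e₀, unfW (m e) (x e) := by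
      simp only [w]
      rw [← Finset.mul_prod_erase _ _ (Finset.mem_univ e₀)]
    have hcc : cc M s t = 2 * cos (π / m e₀) := by
      rw [he₀, hm, cc, M.symmetric]
    rw [hw', hcc, ← mul_assoc, ← key, Finset.sum_mul]
    simp only [ite_mul, zero_mul]
    rw [← Finset.sum_filter]
    symm
    refine Finset.sum_bij (fun y _ => (s, Function.update x e₀ y)) ?_ ?_ ?_ ?_
    · intro y hy
      simp only [Finset.mem_filter, Finset.mem_univ, true_and] at hy ⊢
      refine ⟨Ne.symm hst, fun e he => ?_, ?_⟩
      · simp only at he ⊢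
        rw [Function.update_of_ne he]
      · simp only
        rw [← he₀, Function.update_self]; exact hy
    · intro y _ y' _ h
      have := congrFun (Prod.ext_iff.1 h).2 e₀
      simpa using this
    · rintro ⟨s', y⟩ hy
      simp only [Finset.mem_filter, Finset.mem_univ, true_and] at hy
      obtain ⟨rfl, -, h2, h3⟩ := hy
      refine ⟨y e₀, ?_, ?_⟩
      · simp only [Finset.mem_filter, Finset.mem_univ, true_and]; exact h3
      · refine Prod.ext rfl (funext fun e => ?_)
        by_cases he : e = e₀
        · subst he; simp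
        · simp only; rw [Function.update_of_ne he]; exact h2 e he
    · intro y _; exact (hw y).symm

end Crest.R175
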