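import Crest.Agent.R175.DG8
import Crest.Agent.R175.Fold
import Crest.Agent.R175.Unfold

/-! Row 175: existence of the framed setup (end product of the dg part). -/

set_option autoImplicit false

namespace Crest.R175

open Crest.GroupTheory

/-- A setup framed along the complement of `X`: invariant under left multiplication by `A_X`,
with nothing over `S` at the identity, and frozen input (in degree `0` only) exactly off `X`. -/
structure Setup.Framed {S : Type} {M : CoxeterMatrix S} (𝒮 : Setup M) (X : Set S) : Prop where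
  inv : ∀ a ∈ AX M X, ∀ x, 𝒮.H (a * x) = 𝒮.H x
  dim_one : ∀ k s, 𝒮.dimS 1 k s = 0
  inp_zero : ∀ s ∈ X, ∀ k, 𝒮.inp 1 k s = 0
  inp_pos : ∀ s, s ∉ X → 0 < 𝒮.inp 1 0 s

/-- the graph with one framing vertex joined to the vertices satisfying `P` -/
def frG {I : Type} (Γ : SimpleGraph I) (P : I → Prop) : SimpleGraph (Option I) where
  Adj
    | some i, some j => Γ.Adj i j
    | none, some j => P j
    | some i, none => P i
    | none, none => False
  symm := ⟨by
    rintro (_ | i) (_ | j) h
    · exact h
    · exact h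
    · exact h
    · exact Γ.adj_symm h⟩
  loopless := ⟨by
    rintro (_ | i) h
    · exact h
    · exact Γ.loopless.irrefl i h⟩

open Classical in
/-- the simple module at the framing vertex -/
noncomputable def frX {I : Type} [Fintype I] (Γ : SimpleGraph (Option I)) : DG Γ K2 where
  L i k := if i = none ∧ k = 0 then ⊤ else ⊥
  d _ := 0
  a _ _ := 0
  t _ := 0
  d_mem _ _ _ _ := zero_mem _
  a_mem _ _ _ _ _ := zero_mem _
  t_mem _ _ _ _ := zero_mem _
  d_d _ _ := rfl
  d_a _ _ _ := rfl
  a_zero _ _ _ _ := rfl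
  d_t _ _ := by simp

theorem frX_L {I : Type} [Fintype I] (Γ : SimpleGraph (Option I)) (i : I) (k : ℤ) :
    (frX Γ).L (some i) k = ⊥ := by simp [frX]

theorem frX_dim_zero {I : Type} [Fintype I] [DecidableEq I] (Γ : SimpleGraph (Option I))
    [DecidableRel Γ.Adj] (i : Option I) (k : ℤ)
    (h : ¬ (i = none ∧ k = 0)) : ((frX Γ).H k).dim i = 0 := by
  rw [PM.dim, Module.finrank_zero_iff]
  refine ⟨fun z z' => ?_⟩
  have key : ∀ z : (frX Γ).HV i k, z = 0 := fun z => by
    obtain ⟨v, hv, rfl⟩ := (frX Γ).cls_surj z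
    have : v = 0 := by simpa [frX, h] using hv.1
    subst this; rfl
  exact (key z).trans (key z').symm

theorem frX_dim_pos {I : Type} [Fintype I] [DecidableEq I] (Γ : SimpleGraph (Option I))
    [DecidableRel Γ.Adj] :
    0 < ((frX Γ).H 0).dim none := by
  rw [PM.dim, Module.finrank_pos_iff]
  have h1 : (1 : K2) ∈ (frX Γ).Zc none 0 := (frX Γ).mem_Zc.2 ⟨by simp [frX], rfl⟩
  refine ⟨(frX Γ).cls none 0 1 h1, 0, fun h => ?_⟩
  obtain ⟨w, -, hw⟩ := (frX Γ).cls_eq_zero.1 h
  exact zero_ne_one hw

/-- **Existence of the framed setup** (see `F_plan.md` of the owner / the files `DG*.lean`). -/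
theorem exists_setup {S : Type} [Fintype S] [DecidableEq S] (M : CoxeterMatrix S) (X : Set S) :
    ∃ 𝒮 : Setup M, 𝒮.Framed X := by
  classical
  obtain ⟨I, _, _, Γ0, p, w, hw, hp, nadj, pf⟩ := exists_unfold M
  let Γ := frG Γ0 fun i => p i ∉ X
  let f : S → List I := fun s => (Finset.univ.filter fun i => p i = s).toList
  have hf : ∀ s, (f s).Nodup := fun s => Finset.nodup_toList _
  have hf' : ∀ s i, i ∈ f s ↔ p i = s := fun s i => by simp [f]
  let τ : I → Equiv.Perm (Cl Γ) := fun i => tw (some i)
  have hτ : BraidRel (graphM Γ0) τ := braidRel_graphM Γ0 τ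
    (fun i j hij h => tw_comm (Γ := Γ) (by simpa using hij) h) fun i j h => tw_braid (Γ := Γ) h
  let ρ := artinLift M _ (fold_braidRel M Γ0 p w hw nadj pf f hf hf' τ hτ)
  have hρ : ∀ s, ρ (σ M s) = wp tw ((f s).map some) := fun s => by
    simp only [ρ, artinLift_σ, wp, List.map_map]; rfl
  have hfib : ∀ s, {i | i ∈ (f s).map some} = {i : Option I | i.map p = some s} := fun s => by
    ext (_ | i) <;> simp [hf']
  have hind : ∀ s, Indep Γ {i : Option I | i.map p = some s} := by
    rintro s (_ | i) hi (_ | j) hj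
    · simp at hi
    · simp at hi
    · simp at hj
    · simp only [Set.mem_ofPred_eq, Option.map_some, Option.some.injEq] at hi hj
      exact nadj i j (hi.trans hj.symm)
  let q0 : Cl Γ := cl (frX Γ)
  let H : ArtinGroup M → ℤ → PM Γ := fun x => HQ (ρ x⁻¹ q0)
  have step : ∀ x s, Step {i : Option I | i.map p = some s} (H x) (H (x * σ M s)) := by
    intro x s
    have e : ρ x⁻¹ q0 = wp tw ((f s).map some) (ρ (x * σ M s)⁻¹ q0) := by
      rw [← hρ, ← Equiv.Perm.mul_apply, ← map_mul]; congr 2; group
    simp only [H]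
    rw [e, ← hfib]
    exact step_wp _ ((hf s).map (Option.some_injective _)) (hfib s ▸ hind s) _
  have h1 : ∀ k i, (H 1 k).dim i = ((frX Γ).H k).dim i := fun k i => by
    simp only [H, inv_one, map_one, Equiv.Perm.one_apply]
    exact ((HQ_iso ⟨K2, frX Γ⟩ k).dim_eq i).symm
  have bdd : ∀ x, Bdd (H x) := by
    intro x
    have hx : x ∈ AX M Set.univ := by rw [AX_univ]; trivial
    induction hx using Subgroup.closure_induction_right with
    | one => exact ⟨1, fun k hk i => by rw [h1, frX_dim_zero _ _ _ (by omega)]⟩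
    | mul_right x _ y hy ih =>
      obtain ⟨s, -, rfl⟩ := hy
      exact ((step x s).bdd_iff (hind s)).1 ih
    | mul_inv_cancel x _ y hy ih =>
      obtain ⟨s, -, rfl⟩ := hy
      refine ((step _ s).bdd_iff (hind s)).2 ?_
      simpa using ih
  refine ⟨⟨Option I, Γ, Option.map p, fun o => o.elim 1 w, ?_, hind, ?_, H, step, bdd⟩,
    ?_, ?_, ?_, ?_⟩
  · rintro (_ | i)
    · exact one_pos
    · exact hw i
  · rintro (_ | j) t s hj hst
    · simp at hj
    · simp only [Option.map_some, Option.some.injEq] at hj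
      subst hj
      rw [Finset.sum_filter, Fintype.sum_option]
      have := pf j s hst
      rw [Finset.sum_filter] at this
      simp only [Option.map_none, reduceCtorEq, false_and, if_false, zero_add, Option.map_some,
        Option.some.injEq, Option.elim_some]
      rw [← this]
      exact Finset.sum_congr rfl fun i _ => if_congr Iff.rfl rfl rfl
  · intro a ha x
    have hfix : ∀ a ∈ AX M X, ρ a q0 = q0 := by
      intro a ha
      have : AX M X ≤ (MulAction.stabilizer (Equiv.Perm (Cl Γ)) q0).comap ρ := by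
        refine (Subgroup.closure_le _).2 ?_
        rintro _ ⟨s, hs, rfl⟩
        change ρ (σ M s) ∈ MulAction.stabilizer (Equiv.Perm (Cl Γ)) q0
        rw [hρ]
        refine Subgroup.list_prod_mem _ fun g hg => ?_
        simp only [List.map_map, List.mem_map, Function.comp] at hg
        obtain ⟨i, hi, rfl⟩ := hg
        refine cl_eq ((frX Γ).rel_T_triv _ (fun _ _ => rfl) (fun _ _ _ => rfl)
          (frX_L Γ i) ?_)
        rintro (_ | l) k hl
        · exact absurd (((hf' s i).1 hi).symm ▸ hs) hl
        · exact frX_L Γ l k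
      exact this ha
    change HQ (ρ (a * x)⁻¹ q0) = HQ (ρ x⁻¹ q0)
    rw [mul_inv_rev, map_mul, Equiv.Perm.mul_apply, hfix _ (inv_mem ha)]
  · intro k s
    refine Finset.sum_eq_zero fun i hi => ?_
    have hi' : i ≠ none := by rintro rfl; simp at hi
    change _ * (((H 1 k).dim i : ℕ) : ℝ) = 0
    rw [h1, frX_dim_zero _ _ _ fun h => hi' h.1]; simp
  · intro s hs k
    refine Finset.sum_eq_zero fun i hi => ?_
    refine mul_eq_zero_of_right _ (Finset.sum_eq_zero fun l hl => ?_)
    exfalso
    rcases i with _ | i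
    · simp at hi
    · rcases l with _ | l
      · have h2 : p i = s := by simpa using hi
        have h3 : p i ∉ X := (Finset.mem_filter.1 hl).2.2
        exact h3 (h2 ▸ hs)
      · simp at hl
  · intro s hs
    obtain ⟨i, rfl⟩ := hp s
    refine Finset.sum_pos' (fun l _ => mul_nonneg ?_ (Finset.sum_nonneg fun _ _ => by positivity))
      ⟨some i, by simp, mul_pos (hw i) (Finset.sum_pos' (fun _ _ => by positivity)
        ⟨none, Finset.mem_filter.2 ⟨Finset.mem_univ _, rfl, hs⟩, ?_⟩)⟩
    · rcases l with _ | l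
      · exact zero_le_one
      · exact (hw l).le
    · change (0 : ℝ) < (((H 1 0).dim none : ℕ) : ℝ)
      rw [h1]; exact_mod_cast frX_dim_pos Γ

end Crest.R175
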