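import Crest.Agent.R175.Fin

/-! Row 175: leading terms and harmonic heights (definitions). -/

set_option autoImplicit false
set_option linter.unusedSectionVars false

namespace Crest.R175

/-- leading terms `r q^k`, ordered lexicographically; `(0,0)` is zero -/
abbrev LT : Type := ℕ ×ₗ ℝ

/-- level -/
def LT.lev (v : LT) : ℕ := (ofLex v).1
/-- coefficient -/
def LT.co (v : LT) : ℝ := (ofLex v).2
/-- constructor -/
def LT.mk (k : ℕ) (r : ℝ) : LT := toLex (k, r)
/-- zero -/
def LT.zero : LT := LT.mk 0 0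

@[simp] theorem LT.lev_mk (k : ℕ) (r : ℝ) : (LT.mk k r).lev = k := rfl
@[simp] theorem LT.co_mk (k : ℕ) (r : ℝ) : (LT.mk k r).co = r := rfl
@[simp] theorem LT.mk_lev_co (v : LT) : LT.mk v.lev v.co = v := rfl

theorem LT.le_iff (v w : LT) : v ≤ w ↔ v.lev < w.lev ∨ v.lev = w.lev ∧ v.co ≤ w.co :=
  Prod.Lex.le_iff

theorem LT.lt_iff (v w : LT) : v < w ↔ v.lev < w.lev ∨ v.lev = w.lev ∧ v.co < w.co :=
  Prod.Lex.lt_iff

/-- a genuine leading term: positive coefficient, or zero -/
def LT.Valid (v : LT) : Prop := 0 ≤ v.co ∧ (v.co = 0 → v.lev = 0)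

/-- the monomial as a sequence -/
noncomputable def LT.emb (v : LT) (k : ℕ) : ℝ := if k = v.lev then v.co else 0

/-- twice a leading term -/
noncomputable def LT.dbl (v : LT) : LT := LT.mk v.lev (2 * v.co)

/-- nonnegative and finitely supported -/
def Adm (f : ℕ → ℝ) : Prop := (∀ k, 0 ≤ f k) ∧ ∃ K, ∀ k, K ≤ k → f k = 0

/-- the leading term of a sequence -/
noncomputable def lead (f : ℕ → ℝ) : LT := LT.mk (sSup {k | f k ≠ 0}) (f (sSup {k | f k ≠ 0}))

variable {S : Type} [Fintype S] [DecidableEq S] (M : CoxeterMatrix S) (u : S → ℕ → ℝ)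

/-- the input at `s` in each level -/
noncomputable def nbf (δ : S → LT) (s : S) (k : ℕ) : ℝ :=
  u s k + ∑ t ∈ Finset.univ.erase s, cc M s t * (δ t).emb k

/-- the leading term of the input at `s` -/
noncomputable def nb (δ : S → LT) (s : S) : LT := lead (nbf M u δ s)

/-- `Y`-subharmonic minorants of `D` -/
def SubH (Y : Set S) (D δ : S → LT) : Prop :=
  (∀ s, (δ s).Valid) ∧ δ ≤ D ∧ (∀ s, s ∉ Y → δ s = D s) ∧ ∀ s ∈ Y, (δ s).dbl ≤ nb M u δ s

open Classical in
/-- the harmonic height: the greatest subharmonic minorant -/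
noncomputable def hgt (Y : Set S) (D : S → LT) : S → LT :=
  if h : ∃ δ, IsGreatest {δ | SubH M u Y D δ} δ then h.choose else D

/-- the harmonic set -/
def Harm (Y : Set S) (δ : S → LT) : Set S := {s | s ∈ Y ∧ (δ s).dbl = nb M u δ s}

/-- admissible data -/
def Data (D : S → LT) : Prop := (∀ s, Adm (u s)) ∧ ∀ s, (D s).Valid

end Crest.R175
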