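import Crest.Agent.R175.Hgt

/-! Row 175: calculus of leading terms. -/

set_option autoImplicit false
set_option linter.unusedSectionVars false

namespace Crest.R175

theorem hgta_ext {v w : LT} (h1 : v.lev = w.lev) (h2 : v.co = w.co) : v = w := by
  rw [← LT.mk_lev_co v, ← LT.mk_lev_co w, h1, h2]

theorem hgta_zero_lev : LT.zero.lev = 0 := rfl
theorem hgta_zero_co : LT.zero.co = 0 := rfl
theorem hgta_dbl_lev (v : LT) : v.dbl.lev = v.lev := rfl
theorem hgta_dbl_co (v : LT) : v.dbl.co = 2 * v.co := rfl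
theorem hgta_co (f : ℕ → ℝ) : (lead f).co = f (lead f).lev := rfl

theorem hgta_bdd {f : ℕ → ℝ} (h : Adm f) : BddAbove {k | f k ≠ 0} := by
  obtain ⟨K, hK⟩ := h.2
  exact ⟨K, fun k hk => le_of_not_ge fun hc => hk (hK k hc)⟩

theorem hgta_le_lev {f : ℕ → ℝ} (h : Adm f) {k : ℕ} (hk : f k ≠ 0) : k ≤ (lead f).lev :=
  le_csSup (hgta_bdd h) hk

theorem hgta_valid {f : ℕ → ℝ} (h : Adm f) : (lead f).Valid := by
  refine ⟨h.1 _, fun h0 => ?_⟩
  by_cases hne : {k | f k ≠ 0}.Nonempty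
  · exact absurd h0 (Nat.sSup_mem hne (hgta_bdd h))
  · rw [Set.not_nonempty_iff_eq_empty] at hne
    change sSup {k | f k ≠ 0} = 0
    rw [hne]
    simp

theorem hgta_lev_le {f : ℕ → ℝ} (h : Adm f) {k : ℕ} (hk : ∀ j, k < j → f j = 0) :
    (lead f).lev ≤ k := by
  by_contra hc
  have hc' := not_le.1 hc
  have := (hgta_valid h).2 (hk _ hc')
  omega

theorem hgta_eq_mk {f : ℕ → ℝ} (h : Adm f) {k : ℕ} (hk : ∀ j, k < j → f j = 0) (h0 : f k ≠ 0) :
    lead f = LT.mk k (f k) := by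
  have e : (lead f).lev = k := le_antisymm (hgta_lev_le h hk) (hgta_le_lev h h0)
  exact hgta_ext e (by rw [hgta_co, e]; rfl)

theorem LT.zero_valid : LT.zero.Valid :=
  ⟨le_rfl, fun _ => rfl⟩

theorem LT.Valid.zero_le {v : LT} (h : v.Valid) : LT.zero ≤ v := by
  rw [LT.le_iff, hgta_zero_lev, hgta_zero_co]
  rcases Nat.eq_zero_or_pos v.lev with h0 | h0
  · exact Or.inr ⟨h0.symm, h.1⟩
  · exact Or.inl h0

theorem LT.Valid.co_pos {v : LT} (h : v.Valid) (h0 : v ≠ LT.zero) : 0 < v.co := by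
  refine lt_of_le_of_ne h.1 fun hc => h0 ?_
  exact hgta_ext (h.2 hc.symm) hc.symm

theorem LT.dbl_le_dbl {v w : LT} : v.dbl ≤ w.dbl ↔ v ≤ w := by
  simp only [LT.le_iff, hgta_dbl_lev, hgta_dbl_co]
  refine or_congr Iff.rfl (and_congr Iff.rfl ⟨fun h => by linarith, fun h => by linarith⟩)

theorem LT.dbl_lt_dbl {v w : LT} : v.dbl < w.dbl ↔ v < w := by
  simp only [LT.lt_iff, hgta_dbl_lev, hgta_dbl_co]
  refine or_congr Iff.rfl (and_congr Iff.rfl ⟨fun h => by linarith, fun h => by linarith⟩)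

theorem LT.Valid.dbl {v : LT} (h : v.Valid) : v.dbl.Valid := by
  have h1 := h.1
  refine ⟨by rw [hgta_dbl_co]; linarith, fun h0 => ?_⟩
  rw [hgta_dbl_co] at h0
  exact h.2 (by linarith)

theorem LT.Valid.exists_half {v : LT} (h : v.Valid) : ∃ w : LT, w.Valid ∧ w.dbl = v := by
  have h1 := h.1
  refine ⟨LT.mk v.lev (v.co / 2), ⟨by rw [LT.co_mk]; linarith, fun h0 => ?_⟩, ?_⟩
  · rw [LT.co_mk] at h0
    exact h.2 (by linarith)
  · refine hgta_ext rfl ?_
    rw [hgta_dbl_co, LT.co_mk]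
    ring

theorem LT.Valid.emb_adm {v : LT} (h : v.Valid) : Adm v.emb := by
  refine ⟨fun k => ?_, v.lev + 1, fun k hk => ?_⟩
  · unfold LT.emb
    split_ifs
    · exact h.1
    · exact le_rfl
  · unfold LT.emb
    rw [if_neg (by omega)]

theorem LT.Valid.lead_emb {v : LT} (h : v.Valid) : lead v.emb = v := by
  have hz : ∀ j, v.lev < j → v.emb j = 0 := fun j hj => by
    unfold LT.emb
    rw [if_neg (by omega)]
  have he : v.emb v.lev = v.co := by
    unfold LT.emb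
    rw [if_pos rfl]
  by_cases h0 : v.co = 0
  · have h1 := hgta_lev_le h.emb_adm hz
    have h2 := h.2 h0
    have e : (lead v.emb).lev = v.lev := by omega
    exact hgta_ext e (by rw [hgta_co, e, he])
  · rw [hgta_eq_mk h.emb_adm hz (by rw [he]; exact h0), he, LT.mk_lev_co]

theorem lead_valid {f : ℕ → ℝ} (h : Adm f) : (lead f).Valid :=
  hgta_valid h

theorem lead_co (f : ℕ → ℝ) : (lead f).co = f (lead f).lev := rfl

theorem eq_zero_of_lead_lt {f : ℕ → ℝ} (h : Adm f) {k : ℕ} (hk : (lead f).lev < k) : f k = 0 := by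
  by_contra hc
  have := hgta_le_lev h hc
  omega

theorem lead_eq_mk {f : ℕ → ℝ} (h : Adm f) {k : ℕ} (hk : ∀ j, k < j → f j = 0) (h0 : 0 < f k) :
    lead f = LT.mk k (f k) :=
  hgta_eq_mk h hk h0.ne'

theorem lead_eq_zero_iff {f : ℕ → ℝ} (h : Adm f) : lead f = LT.zero ↔ ∀ k, f k = 0 := by
  constructor
  · intro h0 k
    rcases Nat.eq_zero_or_pos k with hk | hk
    · have h1 : (lead f).co = 0 := by rw [h0]; rfl
      have h2 : (lead f).lev = 0 := by rw [h0]; rfl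
      rw [lead_co, h2] at h1
      rw [hk, h1]
    · exact eq_zero_of_lead_lt h (by rw [h0]; exact hk)
  · intro h0
    have h1 : (lead f).co = 0 := h0 _
    exact hgta_ext ((lead_valid h).2 h1) h1

theorem lead_lt_mk_iff {f : ℕ → ℝ} (h : Adm f) {k : ℕ} {r : ℝ} (hr : 0 < r) :
    lead f < LT.mk k r ↔ (∀ j, k < j → f j = 0) ∧ f k < r := by
  rw [LT.lt_iff, LT.lev_mk, LT.co_mk, lead_co]
  constructor
  · rintro (h1 | ⟨h1, h2⟩)
    · exact ⟨fun j hj => eq_zero_of_lead_lt h (h1.trans hj), by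
        rw [eq_zero_of_lead_lt h h1]; exact hr⟩
    · exact ⟨fun j hj => eq_zero_of_lead_lt h (h1 ▸ hj), h1 ▸ h2⟩
  · rintro ⟨h1, h2⟩
    rcases (hgta_lev_le h h1).lt_or_eq with h3 | h3
    · exact Or.inl h3
    · exact Or.inr ⟨h3, by rw [h3]; exact h2⟩

theorem lead_le_mk_iff {f : ℕ → ℝ} (h : Adm f) {k : ℕ} {r : ℝ} (hr : 0 ≤ r) :
    lead f ≤ LT.mk k r ↔ (∀ j, k < j → f j = 0) ∧ f k ≤ r := by
  rw [LT.le_iff, LT.lev_mk, LT.co_mk, lead_co]
  constructor
  · rintro (h1 | ⟨h1, h2⟩)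
    · exact ⟨fun j hj => eq_zero_of_lead_lt h (h1.trans hj), by
        rw [eq_zero_of_lead_lt h h1]; exact hr⟩
    · exact ⟨fun j hj => eq_zero_of_lead_lt h (h1 ▸ hj), h1 ▸ h2⟩
  · rintro ⟨h1, h2⟩
    rcases (hgta_lev_le h h1).lt_or_eq with h3 | h3
    · exact Or.inl h3
    · exact Or.inr ⟨h3, by rw [h3]; exact h2⟩

theorem lead_eq_mk_iff {f : ℕ → ℝ} (h : Adm f) {k : ℕ} {r : ℝ} (hr : 0 < r) :
    lead f = LT.mk k r ↔ (∀ j, k < j → f j = 0) ∧ f k = r := by
  constructor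
  · intro h0
    have h1 : (lead f).lev = k := by rw [h0]; rfl
    have h2 : (lead f).co = r := by rw [h0]; rfl
    rw [lead_co, h1] at h2
    exact ⟨fun j hj => eq_zero_of_lead_lt h (h1 ▸ hj), h2⟩
  · rintro ⟨h1, h2⟩
    rw [lead_eq_mk h h1 (h2 ▸ hr), h2]

theorem lead_mono {f g : ℕ → ℝ} (hf : Adm f) (hg : Adm g) (h : ∀ k, f k ≤ g k) :
    lead f ≤ lead g := by
  rw [← LT.mk_lev_co (lead g), lead_le_mk_iff hf (lead_valid hg).1]
  refine ⟨fun j hj => le_antisymm ?_ (hf.1 j), h _⟩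
  rw [← eq_zero_of_lead_lt hg hj]
  exact h j

/-- above or at its level a sequence agrees with its leading monomial -/
theorem emb_lead_of_le {f : ℕ → ℝ} (h : Adm f) {k : ℕ} (hk : (lead f).lev ≤ k) :
    (lead f).emb k = f k := by
  unfold LT.emb
  split_ifs with h1
  · rw [lead_co, ← h1]
  · exact (eq_zero_of_lead_lt h (lt_of_le_of_ne hk (Ne.symm h1))).symm

theorem emb_lead_le {f : ℕ → ℝ} (h : Adm f) (k : ℕ) : (lead f).emb k ≤ f k := by
  unfold LT.emb
  split_ifs with h1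
  · rw [lead_co, ← h1]
  · exact h.1 k

theorem hgta_adm_add {f g : ℕ → ℝ} (hf : Adm f) (hg : Adm g) : Adm fun k => f k + g k := by
  obtain ⟨K, hK⟩ := hf.2
  obtain ⟨K', hK'⟩ := hg.2
  refine ⟨fun k => add_nonneg (hf.1 k) (hg.1 k), max K K', fun k hk => ?_⟩
  change f k + g k = 0
  rw [hK k (le_of_max_le_left hk), hK' k (le_of_max_le_right hk), add_zero]

/-- if both summands are at most `v` then the sum is at most `2 v`, strictly if one is smaller
(`v` valid) -/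
theorem lead_add_le {f g : ℕ → ℝ} (hf : Adm f) (hg : Adm g) {v : LT} (hv : v.Valid)
    (h1 : lead f ≤ v) (h2 : lead g ≤ v) : lead (fun k => f k + g k) ≤ v.dbl := by
  rw [← LT.mk_lev_co v, lead_le_mk_iff hf hv.1] at h1
  rw [← LT.mk_lev_co v, lead_le_mk_iff hg hv.1] at h2
  unfold LT.dbl
  have := hv.1
  rw [lead_le_mk_iff (hgta_adm_add hf hg) (by linarith)]
  refine ⟨fun j hj => by rw [h1.1 j hj, h2.1 j hj, add_zero], ?_⟩
  linarith [h1.2, h2.2]

theorem lead_add_lt {f g : ℕ → ℝ} (hf : Adm f) (hg : Adm g) {v : LT} (hv : v.Valid)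
    (h1 : lead f ≤ v) (h2 : lead g < v) : lead (fun k => f k + g k) < v.dbl := by
  have hpos : 0 < v.co := hv.co_pos fun h0 =>
    absurd ((lead_valid hg).zero_le.trans_lt h2) (by rw [h0]; exact lt_irrefl _)
  rw [← LT.mk_lev_co v, lead_le_mk_iff hf hv.1] at h1
  rw [← LT.mk_lev_co v, lead_lt_mk_iff hg hpos] at h2
  unfold LT.dbl
  rw [lead_lt_mk_iff (hgta_adm_add hf hg) (by linarith)]
  refine ⟨fun j hj => by rw [h1.1 j hj, h2.1 j hj, add_zero], ?_⟩
  linarith [h1.2, h2.2]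

variable {S : Type} [Fintype S] [DecidableEq S] {M : CoxeterMatrix S} {u : S → ℕ → ℝ}

theorem hgta_adm_input (hu : ∀ s, Adm (u s)) {f : S → ℕ → ℝ} (hf : ∀ s, Adm (f s)) (s : S) :
    Adm fun k => u s k + ∑ t ∈ Finset.univ.erase s, cc M s t * f t k := by
  refine hgta_adm_add (hu s) ⟨fun k => Finset.sum_nonneg fun t ht => mul_nonneg
    (cc_nonneg M (Finset.ne_of_mem_erase ht).symm) ((hf t).1 k), ?_⟩
  choose K hK using fun t => (hf t).2
  refine ⟨Finset.univ.sup K, fun k hk => Finset.sum_eq_zero fun t _ => ?_⟩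
  rw [hK t k ((Finset.le_sup (Finset.mem_univ t)).trans hk), mul_zero]

theorem hgta_term_le (hu : ∀ s, Adm (u s)) {f : S → ℕ → ℝ} (hf : ∀ s, Adm (f s)) {s t : S}
    (hts : t ≠ s) (k : ℕ) :
    cc M s t * f t k ≤ u s k + ∑ t ∈ Finset.univ.erase s, cc M s t * f t k := by
  have h1 : cc M s t * f t k ≤ ∑ t ∈ Finset.univ.erase s, cc M s t * f t k :=
    Finset.single_le_sum (f := fun t => cc M s t * f t k) (fun t ht => mul_nonneg
      (cc_nonneg M (Finset.ne_of_mem_erase ht).symm) ((hf t).1 k))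
      (Finset.mem_erase.2 ⟨hts, Finset.mem_univ t⟩)
  have := (hu s).1 k
  linarith

theorem hgta_lev_le_input (hu : ∀ s, Adm (u s)) {f : S → ℕ → ℝ} (hf : ∀ s, Adm (f s)) {s t : S}
    (hts : t ≠ s) (hc : cc M s t ≠ 0) : (lead (f t)).lev ≤
      (lead fun k => u s k + ∑ t ∈ Finset.univ.erase s, cc M s t * f t k).lev := by
  refine hgta_lev_le (hf t) fun j hj => ?_
  have h1 := eq_zero_of_lead_lt (hgta_adm_input (M := M) hu hf s) hj
  have h2 := hgta_term_le (M := M) hu hf hts j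
  have h3 : 0 < cc M s t := lt_of_le_of_ne (cc_nonneg M hts.symm) hc.symm
  have h4 := (hf t).1 j
  have h5 : cc M s t * f t j ≤ 0 := h2.trans h1.le
  by_contra hne
  have := mul_pos h3 (lt_of_le_of_ne h4 (Ne.symm hne))
  linarith

theorem hgta_lev_le_nb {δ : S → LT} (h : Data u δ) {s t : S} (hts : t ≠ s) (hc : cc M s t ≠ 0) :
    (δ t).lev ≤ (nb M u δ s).lev := by
  have := hgta_lev_le_input (M := M) h.1 (f := fun t => (δ t).emb) (fun t => (h.2 t).emb_adm) hts hc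
  rw [(h.2 t).lead_emb] at this
  exact this

theorem hgta_emb_le {v w : LT} (hw : w.Valid) (h : v ≤ w) {k : ℕ} (hk : w.lev ≤ k) :
    v.emb k ≤ w.emb k := by
  by_cases h1 : k = v.lev
  · rw [LT.le_iff] at h
    rcases h with h | ⟨h, h'⟩
    · omega
    · unfold LT.emb
      rw [if_pos h1, if_pos (h1.trans h)]
      exact h'
  · have : v.emb k = 0 := by
      unfold LT.emb
      rw [if_neg h1]
    rw [this]
    exact hw.emb_adm.1 k

theorem hgta_term_mono {δ δ' : S → LT} (h' : Data u δ') {s : S}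
    (hle : ∀ t, t ≠ s → cc M s t ≠ 0 → δ t ≤ δ' t) {k : ℕ} (hk : (nb M u δ' s).lev ≤ k) :
    ∀ t ∈ Finset.univ.erase s, cc M s t * (δ t).emb k ≤ cc M s t * (δ' t).emb k := by
  intro t ht
  have hts := Finset.ne_of_mem_erase ht
  by_cases hc : cc M s t = 0
  · rw [hc, zero_mul, zero_mul]
  · exact mul_le_mul_of_nonneg_left (hgta_emb_le (h'.2 t) (hle t hts hc)
      ((hgta_lev_le_nb h' hts hc).trans hk)) (cc_nonneg M hts.symm)

theorem nbf_adm {δ : S → LT} (h : Data u δ) (s : S) : Adm (nbf M u δ s) :=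
  hgta_adm_input (M := M) h.1 (f := fun t => (δ t).emb) (fun t => (h.2 t).emb_adm) s

theorem nb_valid {δ : S → LT} (h : Data u δ) (s : S) : (nb M u δ s).Valid :=
  lead_valid (nbf_adm h s)

/-- `nb` is monotone, and only depends on the neighbours of `s` -/
theorem nb_mono {δ δ' : S → LT} (h : Data u δ) (h' : Data u δ') {s : S}
    (hle : ∀ t, t ≠ s → cc M s t ≠ 0 → δ t ≤ δ' t) : nb M u δ s ≤ nb M u δ' s := by
  have key : ∀ k, (nb M u δ' s).lev ≤ k → nbf M u δ s k ≤ nbf M u δ' s k := fun k hk =>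
    add_le_add le_rfl (Finset.sum_le_sum (hgta_term_mono h' hle hk))
  rw [← LT.mk_lev_co (nb M u δ' s)]
  unfold nb at key ⊢
  rw [lead_le_mk_iff (nbf_adm h s) (lead_valid (nbf_adm h' s)).1]
  refine ⟨fun j hj => le_antisymm ?_ ((nbf_adm h s).1 j), key _ le_rfl⟩
  rw [← eq_zero_of_lead_lt (nbf_adm h' s) hj]
  exact key j hj.le

/-- strict monotonicity at the leading level -/
theorem eq_of_nb_eq {δ δ' : S → LT} (h : Data u δ) (h' : Data u δ') {s : S}
    (hle : ∀ t, t ≠ s → cc M s t ≠ 0 → δ t ≤ δ' t) (heq : nb M u δ' s ≤ nb M u δ s) {t : S}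
    (hts : t ≠ s) (hc : cc M s t ≠ 0) (hlev : (nb M u δ s).lev ≤ (δ' t).lev) : δ t = δ' t := by
  have e : nb M u δ s = nb M u δ' s := le_antisymm (nb_mono h h' hle) heq
  have hk : (δ' t).lev = (nb M u δ' s).lev :=
    le_antisymm (hgta_lev_le_nb h' hts hc) (e ▸ hlev)
  have e1 : nbf M u δ s (nb M u δ' s).lev = nbf M u δ' s (nb M u δ' s).lev := by
    have h1 : (nb M u δ s).co = nbf M u δ s (nb M u δ s).lev := rfl
    have h2 : (nb M u δ' s).co = nbf M u δ' s (nb M u δ' s).lev := rfl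
    rw [← h2, ← e, ← h1]
  have e2 := (Finset.sum_eq_sum_iff_of_le (hgta_term_mono h' hle le_rfl)).1
    (add_left_cancel e1) t (Finset.mem_erase.2 ⟨hts, Finset.mem_univ t⟩)
  have e3 := mul_left_cancel₀ hc e2
  rw [← hk] at e3
  unfold LT.emb at e3
  rw [if_pos rfl] at e3
  split_ifs at e3 with h4
  · exact hgta_ext h4.symm e3
  · have h5 : δ' t = LT.zero := hgta_ext ((h'.2 t).2 e3.symm) e3.symm
    refine le_antisymm (hle t hts hc) ?_
    rw [h5]
    exact (h.2 t).zero_le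

/-- a neighbour is not of higher level than the input -/
theorem lev_le_nb {δ : S → LT} (h : Data u δ) {s t : S} (hts : t ≠ s) (hc : cc M s t ≠ 0) :
    (δ t).lev ≤ (nb M u δ s).lev :=
  hgta_lev_le_nb h hts hc

theorem nb_ne_zero {δ : S → LT} (h : Data u δ) {s t : S} (hts : t ≠ s) (hc : cc M s t ≠ 0)
    (h0 : δ t ≠ LT.zero) : nb M u δ s ≠ LT.zero := by
  intro h1
  have h2 := (lead_eq_zero_iff (nbf_adm (M := M) h s)).1 h1 (δ t).lev
  have h3 := hgta_term_le (M := M) h.1 (f := fun t => (δ t).emb) (fun t => (h.2 t).emb_adm) hts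
    (δ t).lev
  have h4 : (δ t).emb (δ t).lev = (δ t).co := by
    unfold LT.emb
    rw [if_pos rfl]
  have h5 := mul_pos (lt_of_le_of_ne (cc_nonneg M hts.symm) hc.symm) ((h.2 t).co_pos h0)
  have h6 : cc M s t * (δ t).emb (δ t).lev ≤ 0 := h3.trans h2.le
  rw [h4] at h6
  linarith

/-- the leading term of the true input is `nb` of the leading terms -/
theorem nb_lead (hu : ∀ s, Adm (u s)) {f : S → ℕ → ℝ} (hf : ∀ s, Adm (f s)) (s : S) :
    nb M u (fun t => lead (f t)) s =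
      lead (fun k => u s k + ∑ t ∈ Finset.univ.erase s, cc M s t * f t k) := by
  have hF := hgta_adm_input (M := M) hu hf s
  have hD : Data u fun t => lead (f t) := ⟨hu, fun t => lead_valid (hf t)⟩
  have hN := nbf_adm (M := M) hD s
  have key : ∀ j, (lead fun k => u s k + ∑ t ∈ Finset.univ.erase s, cc M s t * f t k).lev ≤ j →
      nbf M u (fun t => lead (f t)) s j
        = u s j + ∑ t ∈ Finset.univ.erase s, cc M s t * f t j := by
    intro j hj
    unfold nbf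
    congr 1
    refine Finset.sum_congr rfl fun t ht => ?_
    by_cases hc : cc M s t = 0
    · rw [hc, zero_mul, zero_mul]
    · rw [emb_lead_of_le (hf t)
        ((hgta_lev_le_input hu hf (Finset.ne_of_mem_erase ht) hc).trans hj)]
  by_cases h0 : (lead fun k => u s k + ∑ t ∈ Finset.univ.erase s, cc M s t * f t k) = LT.zero
  · rw [h0] at key ⊢
    refine (lead_eq_zero_iff hN).2 fun k => ?_
    rw [key k (Nat.zero_le k)]
    exact (lead_eq_zero_iff hF).1 h0 k
  · have hpos := (lead_valid hF).co_pos h0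
    rw [← LT.mk_lev_co (lead fun k => u s k + ∑ t ∈ Finset.univ.erase s, cc M s t * f t k)]
    refine (lead_eq_mk_iff hN hpos).2 ⟨fun j hj => ?_, key _ le_rfl⟩
    rw [key j hj.le]
    exact eq_zero_of_lead_lt hF hj

end Crest.R175
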