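import Crest.Agent.R175.HgtA

/-! Row 175: existence of the harmonic height. -/

set_option autoImplicit false
set_option linter.unusedSectionVars false

namespace Crest.R175

variable {S : Type} [Fintype S] [DecidableEq S] {M : CoxeterMatrix S} {u : S → ℕ → ℝ}

theorem SubH.sup {Y : Set S} {D δ δ' : S → LT} (hD : Data u D) (h : SubH M u Y D δ)
    (h' : SubH M u Y D δ') : SubH M u Y D (δ ⊔ δ') := by
  have hv : ∀ s, ((δ ⊔ δ') s).Valid := fun s => by
    rw [Pi.sup_apply]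
    rcases max_choice (δ s) (δ' s) with e | e <;> rw [e]
    exacts [h.1 s, h'.1 s]
  refine ⟨hv, sup_le h.2.1 h'.2.1, fun s hs => ?_, fun s hs => ?_⟩
  · rw [Pi.sup_apply, h.2.2.1 s hs, h'.2.2.1 s hs, sup_idem]
  · rw [Pi.sup_apply]
    rcases max_choice (δ s) (δ' s) with e | e <;> rw [e]
    · exact (h.2.2.2 s hs).trans (nb_mono ⟨hD.1, h.1⟩ ⟨hD.1, hv⟩ fun t _ _ => le_sup_left)
    · exact (h'.2.2.2 s hs).trans (nb_mono ⟨hD.1, h'.1⟩ ⟨hD.1, hv⟩ fun t _ _ => le_sup_right)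

theorem hgtb_co_pos {v : LT} (h : v.Valid) (h0 : 0 < v.lev) : 0 < v.co :=
  h.1.lt_of_ne fun e => h0.ne' (h.2 e.symm)

theorem hgtb_mk_le {v : LT} {k : ℕ} {r : ℝ} (hk : k ≤ v.lev) (hr : r ≤ v.co) : LT.mk k r ≤ v := by
  rw [LT.le_iff]
  rcases hk.lt_or_eq with h | h
  exacts [Or.inl h, Or.inr ⟨h, hr⟩]

theorem hgtb_lev_le {v w : LT} (h : v ≤ w) : v.lev ≤ w.lev := by
  rcases (LT.le_iff _ _).1 h with h | h
  exacts [h.le, h.1.le]

theorem hgtb_co_le {v w : LT} (h : v ≤ w) (e : w.lev ≤ v.lev) : v.co ≤ w.co := by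
  rcases (LT.le_iff _ _).1 h with h | h
  exacts [absurd h (not_lt.2 e), h.2]

theorem hgtb_small (a b : S → ℝ) (h : ∀ s, 0 < a s → 0 < b s) :
    ∃ ε : ℝ, 0 < ε ∧ ∀ s, 0 < a s → ε * a s ≤ b s := by
  have h1 : ∀ s, ∀ᶠ ε in nhdsWithin (0 : ℝ) (Set.Ioi 0), 0 < a s → ε * a s ≤ b s := fun s => by
    by_cases hs : 0 < a s
    · have h2 : ∀ᶠ ε in nhds (0 : ℝ), ε < b s / a s := eventually_lt_nhds (div_pos (h s hs) hs)
      filter_upwards [nhdsWithin_le_nhds h2] with ε hε _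
      exact ((lt_div_iff₀ hs).1 hε).le
    · exact Filter.Eventually.of_forall fun _ h' => absurd h' hs
  obtain ⟨ε, h2, h3⟩ := ((Filter.eventually_all.2 h1).and self_mem_nhdsWithin).exists
  exact ⟨ε, h3, h2⟩

/-- raising the level along a subharmonic vector: if `γ ≥ 0` is supported on `T ⊆ Y`, `Bγ ≤ 0` on `T`,
and on the support of `γ` we have `lev (δ s) < k ≤ lev (D s)`, then replacing `δ s` by `(k, ε γ s)` on
the support of `γ` gives a subharmonic minorant for small `ε > 0`. -/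
theorem SubH.raise {Y : Set S} {D δ : S → LT} (hD : Data u D) (h : SubH M u Y D δ) {γ : S → ℝ}
    (h0 : 0 ≤ γ) (hY : Supp Y γ) (hB : ∀ s, 0 < γ s → Bf M (al s) γ ≤ 0) {k : ℕ}
    (hk : ∀ s, 0 < γ s → (δ s).lev < k ∧ k ≤ (D s).lev) :
    ∃ ε : ℝ, 0 < ε ∧ SubH M u Y D (fun s => if 0 < γ s then LT.mk k (ε * γ s) else δ s) := by
  obtain ⟨ε, hε, hεD⟩ := hgtb_small γ (fun s => (D s).co) fun s hs =>
    hgtb_co_pos (hD.2 s) (by have := hk s hs; omega)
  refine ⟨ε, hε, ?_⟩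
  obtain ⟨δ', hδ'⟩ : ∃ δ' : S → LT, δ' = fun s => if 0 < γ s then LT.mk k (ε * γ s) else δ s :=
    ⟨_, rfl⟩
  rw [← hδ']
  have e1 : ∀ s, 0 < γ s → δ' s = LT.mk k (ε * γ s) := fun s hs => by rw [hδ']; exact if_pos hs
  have e2 : ∀ s, ¬ 0 < γ s → δ' s = δ s := fun s hs => by rw [hδ']; exact if_neg hs
  have hv : ∀ s, (δ' s).Valid := fun s => by
    by_cases hs : 0 < γ s
    · rw [e1 s hs]
      exact ⟨(mul_pos hε hs).le, fun e => absurd e (mul_pos hε hs).ne'⟩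
    · rw [e2 s hs]
      exact h.1 s
  have hle : ∀ s, δ s ≤ δ' s := fun s => by
    by_cases hs : 0 < γ s
    · rw [e1 s hs, LT.le_iff]
      exact Or.inl (hk s hs).1
    · rw [e2 s hs]
  refine ⟨hv, fun s => ?_, fun s hs => ?_, fun s hsY => ?_⟩
  · by_cases hs : 0 < γ s
    · rw [e1 s hs]
      exact hgtb_mk_le (hk s hs).2 (hεD s hs)
    · rw [e2 s hs]
      exact h.2.1 s
  · rw [e2 s (hY s hs ▸ lt_irrefl _), h.2.2.1 s hs]
  · by_cases hs : 0 < γ s
    · rw [e1 s hs]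
      change LT.mk k (2 * (ε * γ s)) ≤ lead _
      refine not_lt.1 fun hlt => ?_
      have h1 := ((lead_lt_mk_iff (nbf_adm ⟨hD.1, hv⟩ s) (by positivity)).1 hlt).2
      have h2 := hB s hs
      rw [Bf_al_left'] at h2
      have h3 : ε * ∑ t ∈ Finset.univ.erase s, cc M s t * γ t ≤
          ∑ t ∈ Finset.univ.erase s, cc M s t * (δ' t).emb k := by
        rw [Finset.mul_sum]
        refine Finset.sum_le_sum fun t ht => ?_
        rw [mul_left_comm]
        refine mul_le_mul_of_nonneg_left ?_ (cc_nonneg M (Finset.ne_of_mem_erase ht).symm)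
        by_cases htγ : 0 < γ t
        · rw [e1 t htγ, LT.emb, LT.lev_mk, if_pos rfl, LT.co_mk]
        · rw [le_antisymm (not_lt.1 htγ) (h0 t), mul_zero]
          exact (hv t).emb_adm.1 k
      have h4 := (hD.1 s).1 k
      unfold nbf at h1
      nlinarith
    · rw [e2 s hs]
      exact (h.2.2.2 s hsY).trans (nb_mono ⟨hD.1, h.1⟩ ⟨hD.1, hv⟩ fun t _ _ => hle t)

/-- raising the level at one vertex -/
theorem hgtb_raise_one {Y : Set S} {D δ : S → LT} (hD : Data u D) (h : SubH M u Y D δ) {s : S}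
    (hs : s ∈ Y) {k : ℕ} (h1 : (δ s).lev < k) (h2 : k ≤ (D s).lev) (h3 : k ≤ (nb M u δ s).lev) :
    ∃ δ', SubH M u Y D δ' ∧ (δ' s).lev = k := by
  have hd : Data u δ := ⟨hD.1, h.1⟩
  have p1 : 0 < (D s).co := hgtb_co_pos (hD.2 s) (by omega)
  have p2 : 0 < (nb M u δ s).co := hgtb_co_pos (nb_valid hd s) (by omega)
  obtain ⟨ε, hε⟩ : ∃ ε, ε = min (D s).co ((nb M u δ s).co / 2) := ⟨_, rfl⟩
  have p3 : 0 < ε := hε ▸ lt_min p1 (half_pos p2)
  have p4 : ε ≤ (D s).co := hε ▸ min_le_left _ _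
  have p5 : ε ≤ (nb M u δ s).co / 2 := hε ▸ min_le_right _ _
  have hv : ∀ t, (Function.update δ s (LT.mk k ε) t).Valid := fun t => by
    rcases eq_or_ne t s with rfl | ht
    · rw [Function.update_self]
      exact ⟨p3.le, fun e => absurd e p3.ne'⟩
    · rw [Function.update_of_ne ht]
      exact h.1 t
  have hle : ∀ t, δ t ≤ Function.update δ s (LT.mk k ε) t := fun t => by
    rcases eq_or_ne t s with rfl | ht
    · rw [Function.update_self, LT.le_iff]
      exact Or.inl h1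
    · rw [Function.update_of_ne ht]
  refine ⟨Function.update δ s (LT.mk k ε), ⟨hv, fun t => ?_, fun t ht => ?_, fun t ht => ?_⟩,
    by rw [Function.update_self, LT.lev_mk]⟩
  · rcases eq_or_ne t s with rfl | ht
    · rw [Function.update_self]
      exact hgtb_mk_le h2 p4
    · rw [Function.update_of_ne ht]
      exact h.2.1 t
  · rw [Function.update_of_ne fun e : t = s => ht (e ▸ hs), h.2.2.1 t ht]
  · refine le_trans ?_ (nb_mono hd ⟨hD.1, hv⟩ fun r _ _ => hle r)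
    rcases eq_or_ne t s with rfl | ht'
    · rw [Function.update_self]
      exact hgtb_mk_le h3 (by rw [LT.co_mk]; linarith)
    · rw [Function.update_of_ne ht']
      exact h.2.2.2 t ht

/-- the Dirichlet problem on a positive definite set -/
theorem hgtb_solve {T : Set S} (h : PosDefOn M T) (C : S → ℝ) :
    ∃ w : S → ℝ, (∀ s, s ∉ T → w s = 0) ∧ ∀ s ∈ T, Bf M (al s) w = C s := by
  classical
  let L : (S → ℝ) →ₗ[ℝ] (S → ℝ) :=
    { toFun := fun v s => if s ∈ T then Bf M (al s) v else v s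
      map_add' := fun v w => by
        funext s
        by_cases hs : s ∈ T
        · simp only [if_pos hs, Pi.add_apply, Bf_al_left, mul_add, Finset.sum_add_distrib]
        · simp only [if_neg hs, Pi.add_apply]
      map_smul' := fun c v => by
        funext s
        by_cases hs : s ∈ T
        · simp only [if_pos hs, Pi.smul_apply, Bf_al_left, smul_eq_mul, RingHom.id_apply,
            Finset.mul_sum, mul_left_comm c]
        · simp only [if_neg hs, Pi.smul_apply, RingHom.id_apply] }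
  have hL : ∀ v s, L v s = if s ∈ T then Bf M (al s) v else v s := fun _ _ => rfl
  have hinj : Function.Injective L := by
    rw [injective_iff_map_eq_zero]
    intro v hv
    by_contra h0
    have h1 : ∀ s, s ∉ T → v s = 0 := fun s hs => by
      have := congrFun hv s
      rwa [hL, if_neg hs] at this
    refine (h v h1 h0).ne' ?_
    rw [Bf_eq_sum]
    refine Finset.sum_eq_zero fun s _ => ?_
    by_cases hs : s ∈ T
    · have := congrFun hv s
      rw [hL, if_pos hs] at this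
      rw [this, Pi.zero_apply, mul_zero]
    · rw [h1 s hs, zero_mul]
  obtain ⟨w, hw⟩ := LinearMap.injective_iff_surjective.1 hinj fun s => if s ∈ T then C s else 0
  refine ⟨w, fun s hs => ?_, fun s hs => ?_⟩
  · have := congrFun hw s
    rwa [hL, if_neg hs, if_neg hs] at this
  · have := congrFun hw s
    rwa [hL, if_pos hs, if_pos hs] at this

/-- the coefficients are bounded once the levels are maximal -/
theorem hgtb_bdd {Y : Set S} {D δ₀ : S → LT} (hD : Data u D) (h₀ : SubH M u Y D δ₀)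
    (hmax : ∀ δ, SubH M u Y D δ → ∀ s, (δ s).lev ≤ (δ₀ s).lev) (s : S) :
    ∃ b : ℝ, ∀ δ, SubH M u Y D δ → δ₀ ≤ δ → (δ s).co ≤ b := by
  classical
  have hlev : ∀ δ, SubH M u Y D δ → δ₀ ≤ δ → ∀ t, (δ t).lev = (δ₀ t).lev := fun δ h1 h2 t =>
    le_antisymm (hmax δ h1 t) (hgtb_lev_le (h2 t))
  by_cases hs : (D s).lev ≤ (δ₀ s).lev
  · exact ⟨(D s).co, fun δ h1 h2 => hgtb_co_le (h1.2.1 s) (hlev δ h1 h2 s ▸ hs)⟩
  obtain ⟨k, hk⟩ : ∃ k, k = (δ₀ s).lev := ⟨_, rfl⟩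
  obtain ⟨T, hT⟩ : ∃ T : Set S, ∀ t, t ∈ T ↔ (δ₀ t).lev = k ∧ k < (D t).lev :=
    ⟨{t | (δ₀ t).lev = k ∧ k < (D t).lev}, fun _ => Iff.rfl⟩
  have hTY : ∀ t ∈ T, t ∈ Y := fun t ht => by
    by_contra hY
    have h1 := (hT t).1 ht
    rw [h₀.2.2.1 t hY] at h1
    omega
  have hpd : PosDefOn M T := by
    by_contra hn
    obtain ⟨γ, g0, g1, g2, g3⟩ := exists_subharmonic_of_not_posDefOn M hn
    have g4 : ∀ t, 0 < γ t → t ∈ T := fun t ht => by
      by_contra h1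
      exact ht.ne' (g2 t h1)
    obtain ⟨ε, -, h1⟩ := h₀.raise hD g0 (fun t ht => g2 t fun h' => ht (hTY t h'))
      (fun t ht => g3 t (g4 t ht)) (k := k + 1) fun t ht => by
        have := (hT t).1 (g4 t ht)
        omega
    obtain ⟨t, ht⟩ := Function.ne_iff.1 g1
    have h2 : 0 < γ t := (g0 t).lt_of_ne (Ne.symm ht)
    have h3 := hmax _ h1 t
    rw [if_pos h2, LT.lev_mk, ((hT t).1 (g4 t h2)).1] at h3
    omega
  obtain ⟨w, hw0, hw⟩ := hgtb_solve hpd
    fun t => u t k + ∑ r ∈ Finset.univ.erase t, cc M t r * (D r).co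
  refine ⟨w s, fun δ h1 h2 => ?_⟩
  have hd : Data u δ := ⟨hD.1, h1.1⟩
  obtain ⟨c, hc⟩ : ∃ c : S → ℝ, c = fun t => if t ∈ T then (δ t).co else 0 := ⟨_, rfl⟩
  have c1 : ∀ t ∈ T, c t = (δ t).co := fun t ht => by rw [hc]; exact if_pos ht
  have c2 : ∀ t, t ∉ T → c t = 0 := fun t ht => by rw [hc]; exact if_neg ht
  have key : c - w ≤ 0 := by
    refine nonpos_of_posDefOn M hpd (fun t ht => ?_) fun t ht _ => ?_
    · rw [Pi.sub_apply, c2 t ht, hw0 t ht, sub_zero]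
    have e : Bf M (al t) (c - w) = Bf M (al t) c - Bf M (al t) w := by
      simp only [Bf_al_left, Pi.sub_apply, mul_sub, Finset.sum_sub_distrib]
    obtain ⟨t1, t2⟩ := (hT t).1 ht
    have l1 : (δ t).lev = k := (hlev δ h1 h2 t).trans t1
    have l2 : (nb M u δ t).lev ≤ k := by
      by_contra h3
      obtain ⟨δ', h4, h5⟩ := hgtb_raise_one hD h1 (hTY t ht) (k := k + 1) (by omega) (by omega)
        (by omega)
      have := hmax δ' h4 t
      omega
    have l3 := h1.2.2.2 t (hTY t ht)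
    have l4 : (nb M u δ t).lev = k :=
      le_antisymm l2 (l1.ge.trans (hgtb_lev_le (v := (δ t).dbl) l3))
    have l5 : 2 * (δ t).co ≤ nbf M u δ t k := by
      have h3 := hgtb_co_le l3 (l2.trans l1.ge)
      rw [nb, lead_co, ← nb, l4] at h3
      exact h3
    have l6 : ∑ r ∈ Finset.univ.erase t, cc M t r * (δ r).emb k ≤
        ∑ r ∈ Finset.univ.erase t, cc M t r * c r +
          ∑ r ∈ Finset.univ.erase t, cc M t r * (D r).co := by
      rw [← Finset.sum_add_distrib]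
      refine Finset.sum_le_sum fun r hr => ?_
      rw [← mul_add]
      refine mul_le_mul_of_nonneg_left ?_ (cc_nonneg M (Finset.ne_of_mem_erase hr).symm)
      have d0 := (hD.2 r).1
      have d1 := (h1.1 r).1
      by_cases hrT : r ∈ T
      · rw [c1 r hrT, LT.emb]
        split_ifs <;> linarith
      · rw [c2 r hrT, zero_add, LT.emb]
        split_ifs with h3
        · refine hgtb_co_le (h1.2.1 r) (not_lt.1 fun h4 => hrT ((hT r).2 ⟨?_, h3 ▸ h4⟩))
          rw [← hlev δ h1 h2 r, h3]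
        · exact d0
    rw [e, hw t ht, Bf_al_left', c1 t ht]
    unfold nbf at l5
    linarith
  have h3 : c s - w s ≤ 0 := key s
  rw [c1 s ((hT s).2 ⟨hk.symm, by omega⟩)] at h3
  linarith

/-- **Existence.**  The set is nonempty (zero on `Y`) and closed under `⊔`.  Take `δ*` maximising the
sum of the levels; all `δ ≥ δ*` in the set have the same levels `k_s`.  Let `N = {s ∈ Y | k_s <
lev (D s)}`.  For each level `k` the set `N_k = {s ∈ N | k_s = k}` is positive definite (otherwise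
`exists_subharmonic_of_not_posDefOn` and `SubH.raise` with `k + 1`), and for `s ∈ N` the input
`nb δ s` has level `≤ k_s` (otherwise raise `δ s` alone).  So the coefficients are bounded: off `N` by
those of `D`, on `N_k` because `B(r, r) ≤ C |r|`.  Take the supremum of the coefficients (the set is
directed); the inequalities are closed. -/
theorem exists_isGreatest {Y : Set S} {D : S → LT} (hD : Data u D) :
    ∃ δ, IsGreatest {δ | SubH M u Y D δ} δ := by
  classical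
  have hne : SubH M u Y D fun s => if s ∈ Y then LT.zero else D s := by
    have hv : ∀ s, (if s ∈ Y then LT.zero else D s).Valid := fun s => by
      split_ifs
      exacts [LT.zero_valid, hD.2 s]
    refine ⟨hv, fun s => ?_, fun s hs => if_neg hs, fun s hs => ?_⟩
    · dsimp only
      split_ifs
      exacts [(hD.2 s).zero_le, le_rfl]
    · refine le_trans (le_of_eq ?_) (nb_valid ⟨hD.1, hv⟩ s).zero_le
      simp only [if_pos hs, LT.dbl, LT.zero, LT.lev_mk, LT.co_mk, mul_zero]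
  have hbd : BddAbove ((fun δ : S → LT => ∑ s, (δ s).lev) '' {δ | SubH M u Y D δ}) := by
    refine ⟨∑ s, (D s).lev, ?_⟩
    rintro _ ⟨δ, hδ, rfl⟩
    exact Finset.sum_le_sum fun s _ => hgtb_lev_le (hδ.2.1 s)
  obtain ⟨δ₀, h₀, e₀⟩ := Nat.sSup_mem
    (Set.Nonempty.image _ (⟨_, hne⟩ : {δ | SubH M u Y D δ}.Nonempty)) hbd
  replace h₀ : SubH M u Y D δ₀ := h₀
  have hmax : ∀ δ, SubH M u Y D δ → ∀ s, (δ s).lev ≤ (δ₀ s).lev := fun δ hδ s => by
    have h1 : ∑ s, ((δ₀ ⊔ δ) s).lev ≤ ∑ s, (δ₀ s).lev :=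
      (le_csSup hbd (Set.mem_image_of_mem _ (SubH.sup hD h₀ hδ))).trans e₀.ge
    have h2 := (Finset.sum_eq_sum_iff_of_le (s := Finset.univ) fun s _ =>
      hgtb_lev_le (le_sup_left : δ₀ s ≤ (δ₀ ⊔ δ) s)).1
        (le_antisymm (Finset.sum_le_sum fun s _ => hgtb_lev_le le_sup_left) h1) s (Finset.mem_univ s)
    exact (hgtb_lev_le (le_sup_right : δ s ≤ (δ₀ ⊔ δ) s)).trans h2.ge
  have hlev : ∀ δ, SubH M u Y D δ → δ₀ ≤ δ → ∀ t, (δ t).lev = (δ₀ t).lev := fun δ h1 h2 t =>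
    le_antisymm (hmax δ h1 t) (hgtb_lev_le (h2 t))
  obtain ⟨A, hA⟩ : ∃ A : S → Set ℝ, ∀ s x, x ∈ A s ↔ ∃ δ, SubH M u Y D δ ∧ δ₀ ≤ δ ∧ (δ s).co = x :=
    ⟨fun s => {x | ∃ δ, SubH M u Y D δ ∧ δ₀ ≤ δ ∧ (δ s).co = x}, fun _ _ => Iff.rfl⟩
  have A0 : ∀ s, (A s).Nonempty := fun s => ⟨_, (hA s _).2 ⟨δ₀, h₀, le_rfl, rfl⟩⟩
  have A1 : ∀ s, BddAbove (A s) := fun s => by
    obtain ⟨b, hb⟩ := hgtb_bdd hD h₀ hmax s
    refine ⟨b, fun x hx => ?_⟩
    obtain ⟨δ, h1, h2, rfl⟩ := (hA s x).1 hx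
    exact hb δ h1 h2
  have hup : ∀ δ, SubH M u Y D δ → δ₀ ≤ δ → ∀ s, δ s ≤ LT.mk (δ₀ s).lev (sSup (A s)) :=
    fun δ h1 h2 s => (LT.le_iff _ _).2
      (Or.inr ⟨hlev δ h1 h2 s, le_csSup (A1 s) ((hA s _).2 ⟨δ, h1, h2, rfl⟩)⟩)
  have hleast : ∀ s v, (∀ δ, SubH M u Y D δ → δ₀ ≤ δ → δ s ≤ v) →
      LT.mk (δ₀ s).lev (sSup (A s)) ≤ v := fun s v hv => by
    rcases (hgtb_lev_le (hv δ₀ h₀ le_rfl)).lt_or_eq with h1 | h1
    · exact (LT.le_iff _ _).2 (Or.inl h1)
    · refine hgtb_mk_le h1.le (csSup_le (A0 s) fun x hx => ?_)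
      obtain ⟨δ, h2, h3, rfl⟩ := (hA s x).1 hx
      exact hgtb_co_le (hv δ h2 h3) (h1.symm.trans (hlev δ h2 h3 s).symm).le
  have hv : ∀ s, (LT.mk (δ₀ s).lev (sSup (A s))).Valid := fun s => by
    have h1 : (δ₀ s).co ≤ sSup (A s) := hgtb_co_le (hup δ₀ h₀ le_rfl s) le_rfl
    exact ⟨(h₀.1 s).1.trans h1, fun e => (h₀.1 s).2 (le_antisymm (h1.trans e.le) (h₀.1 s).1)⟩
  have hle : ∀ s, LT.mk (δ₀ s).lev (sSup (A s)) ≤ D s := fun s =>
    hleast s _ fun δ h1 _ => h1.2.1 s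
  refine ⟨fun s => LT.mk (δ₀ s).lev (sSup (A s)), ⟨hv, hle, fun s hs => ?_, fun s hs => ?_⟩,
    fun δ hδ s => ?_⟩
  · exact le_antisymm (hle s) ((h₀.2.2.1 s hs).ge.trans (hup δ₀ h₀ le_rfl s))
  · obtain ⟨v, -, hv'⟩ := (nb_valid (M := M) ⟨hD.1, hv⟩ s).exists_half
    rw [← hv', LT.dbl_le_dbl]
    refine hleast s v fun δ h1 h2 => ?_
    rw [← LT.dbl_le_dbl, hv']
    exact (h1.2.2.2 s hs).trans (nb_mono ⟨hD.1, h1.1⟩ ⟨hD.1, hv⟩ fun t _ _ => hup δ h1 h2 t)
  · exact le_sup_right.trans (hup _ (SubH.sup hD h₀ hδ) le_sup_left s)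

theorem hgt_subH {Y : Set S} {D : S → LT} (hD : Data u D) : SubH M u Y D (hgt M u Y D) := by
  have h := exists_isGreatest (M := M) (Y := Y) hD
  rw [hgt, dif_pos h]; exact h.choose_spec.1

theorem SubH.le_hgt {Y : Set S} {D δ : S → LT} (hD : Data u D) (h : SubH M u Y D δ) :
    δ ≤ hgt M u Y D := by
  have h' := exists_isGreatest (M := M) (Y := Y) hD
  rw [hgt, dif_pos h']; exact h'.choose_spec.2 h

theorem hgt_data {Y : Set S} {D : S → LT} (hD : Data u D) : Data u (hgt M u Y D) :=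
  ⟨hD.1, (hgt_subH hD).1⟩

theorem hgt_le {Y : Set S} {D : S → LT} (hD : Data u D) : hgt M u Y D ≤ D := (hgt_subH hD).2.1

theorem hgt_of_not_mem {Y : Set S} {D : S → LT} (hD : Data u D) {s : S} (hs : s ∉ Y) :
    hgt M u Y D s = D s := (hgt_subH hD).2.2.1 s hs

end Crest.R175
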