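import Crest.Agent.R175.HgtC1

/-! Row 175: properties of the harmonic height. -/

set_option autoImplicit false
set_option linter.unusedSectionVars false

namespace Crest.R175

variable {S : Type} [Fintype S] [DecidableEq S] {M : CoxeterMatrix S} {u : S → ℕ → ℝ}

/-- **Maximum principle.**  Let `N' = {s | δ s < δ' s} ⊆ N`, `K` the top level of `δ'` on `N'`;
apply `nonpos_of_posDefOn` to `e s = (δ' s).emb K - (δ s).emb K` (set to `0` where it is irrelevant),
on the set `{s ∈ N' | lev (δ' s) = K}`. -/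
theorem le_of_harm {N : Set S} (hN : PosDefOn M N) {δ δ' : S → LT} (hδ : Data u δ)
    (hδ' : Data u δ') (h1 : ∀ s ∈ N, (δ s).dbl = nb M u δ s)
    (h2 : ∀ s ∈ N, (δ' s).dbl ≤ nb M u δ' s) (h3 : ∀ s, s ∉ N → δ' s ≤ δ s) : δ' ≤ δ := by
  classical
  by_contra hcon
  have hne : (Finset.univ.filter fun s => δ s < δ' s).Nonempty := by
    by_contra h
    refine hcon fun s => not_lt.1 fun hs => h ⟨s, by simpa using hs⟩
  obtain ⟨s₀, hs₀, hmax⟩ := Finset.exists_max_image _ (fun s => (δ' s).lev) hne
  have hs₀' : δ s₀ < δ' s₀ := by simpa using hs₀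
  set K := (δ' s₀).lev with hK
  have hmax' : ∀ s, δ s < δ' s → (δ' s).lev ≤ K := fun s hs => hmax s (by simpa using hs)
  have hinN : ∀ s, δ s < δ' s → s ∈ N := fun s hs => by
    by_contra h
    exact absurd (h3 s h) (not_le.2 hs)
  have hlev : ∀ {v w : LT}, v ≤ w → v.lev ≤ w.lev := fun {v w} h => by
    rcases (LT.le_iff _ _).1 h with h | h
    · exact h.le
    · exact h.1.le
  let T : Set S := {s | δ s < δ' s ∧ (δ' s).lev = K}
  let e : S → ℝ := fun s => if s ∈ T then (δ' s).co - (δ s).emb K else 0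
  have hpos : ∀ s ∈ T, 0 < e s := by
    intro s hs
    simp only [e, if_pos hs]
    obtain ⟨hlt, hl⟩ := hs
    rcases (LT.lt_iff _ _).1 hlt with h | h
    · have h0 : δ' s ≠ LT.zero := by
        intro h0
        exact absurd ((hδ.2 s).zero_le) (not_le.2 (h0 ▸ hlt))
      have : (δ s).emb K = 0 := by
        rw [LT.emb, if_neg]; omega
      rw [this, sub_zero]
      exact (hδ'.2 s).co_pos h0
    · have : (δ s).emb K = (δ s).co := by
        rw [LT.emb, if_pos]; omega
      rw [this]; linarith [h.2]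
  have hT : PosDefOn M T := hN.mono fun s hs => hinN s hs.1
  have key : e ≤ 0 := by
    refine nonpos_of_posDefOn M hT (fun s hs => by simp only [e, if_neg hs, le_refl]) ?_
    intro s hs _
    have hsN := hinN s hs.1
    have hH : s ∈ Harm M u N δ := ⟨hsN, h1 s hsN⟩
    have hsK : (δ s).lev ≤ K := (hlev hs.1.le).trans hs.2.le
    have hnb : ∀ t, t ≠ s → cc M s t ≠ 0 → (δ t).lev ≤ K := fun t hts hc =>
      (Harm.lev_le hδ hH hts hc).trans hsK
    have hnb' : ∀ t, t ≠ s → cc M s t ≠ 0 → (δ' t).lev ≤ K := fun t hts hc => by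
      by_cases ht : δ t < δ' t
      · exact hmax' t ht
      · exact (hlev (not_lt.1 ht)).trans (hnb t hts hc)
    have hzero : ∀ (d : S → LT), (∀ t, t ≠ s → cc M s t ≠ 0 → (d t).lev ≤ K) → ∀ j, K < j →
        nbf M u d s j = u s j := by
      intro d hd j hj
      rw [nbf, Finset.sum_eq_zero, add_zero]
      intro t ht
      by_cases hc : cc M s t = 0
      · rw [hc, zero_mul]
      · have := hd t (Finset.ne_of_mem_erase ht) hc
        rw [LT.emb, if_neg (by omega), mul_zero]
    have hz' : ∀ j, K < j → nbf M u δ' s j = 0 := by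
      intro j hj
      rw [hzero δ' hnb' j hj, ← hzero δ hnb j hj, Harm.nbf_eq hδ hH (by omega), LT.emb,
        if_neg (by omega), mul_zero]
    have hadm := nbf_adm (M := M) hδ' s
    have hle : nb M u δ' s ≤ LT.mk K (nbf M u δ' s K) :=
      (lead_le_mk_iff hadm (hadm.1 K)).2 ⟨hz', le_rfl⟩
    have h2' : 2 * (δ' s).co ≤ nbf M u δ' s K := by
      rcases (LT.le_iff _ _).1 ((h2 s hsN).trans hle) with h | h
      · simp only [LT.dbl, LT.lev_mk] at h
        exact absurd hs.2 h.ne
      · simpa [LT.dbl] using h.2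
    have h1' := Harm.nbf_eq hδ hH hsK
    have hsum : ∑ t ∈ Finset.univ.erase s, cc M s t * (δ' t).emb K -
        ∑ t ∈ Finset.univ.erase s, cc M s t * (δ t).emb K ≤
        ∑ t ∈ Finset.univ.erase s, cc M s t * e t := by
      rw [← Finset.sum_sub_distrib]
      refine Finset.sum_le_sum fun t ht => ?_
      have hts := Finset.ne_of_mem_erase ht
      by_cases hc : cc M s t = 0
      · simp [hc]
      rw [← mul_sub]
      refine mul_le_mul_of_nonneg_left ?_ (cc_nonneg M hts.symm)
      by_cases htT : t ∈ T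
      · simp only [e, if_pos htT]
        rw [show (δ' t).emb K = (δ' t).co from by rw [LT.emb, if_pos htT.2.symm]]
      · simp only [e, if_neg htT, sub_nonpos]
        have h0 : 0 ≤ (δ t).emb K := (hδ.2 t).emb_adm.1 K
        by_cases hl : (δ' t).lev = K
        · have hnot : δ' t ≤ δ t := not_lt.1 fun h => htT ⟨h, hl⟩
          have hk := hnb t hts hc
          rcases (LT.le_iff _ _).1 hnot with h | h
          · omega
          · rw [LT.emb, LT.emb, if_pos hl.symm, if_pos (by omega)]
            exact h.2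
        · rw [LT.emb, if_neg fun h => hl h.symm]
          exact h0
    rw [Bf_al_left']
    simp only [nbf] at h2' h1'
    have : e s = (δ' s).co - (δ s).emb K := by simp only [e, if_pos hs]
    rw [this]
    linarith
  exact absurd (key s₀) (not_le.2 (hpos s₀ ⟨hs₀', rfl⟩))

/-- changing `D` only on non-tight vertices cannot raise the height -/
theorem hgt_le_of_eq_on_tight {Y : Set S} {D D' : S → LT} (hD : Data u D) (hD' : Data u D')
    (h : ∀ s, hgt M u Y D s = D s → D' s = D s) (hY : ∀ s, s ∉ Y → D' s = D s) :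
    hgt M u Y D' ≤ hgt M u Y D := by
  refine le_of_harm (posDefOn_nontight (M := M) (Y := Y) hD) (hgt_data hD) (hgt_data hD')
    (fun s hs => (mem_harm_of_lt hD hs).2)
    (fun s hs => (hgt_subH hD').2.2.2 s (mem_harm_of_lt hD hs).1) fun s hs => ?_
  have he : hgt M u Y D s = D s := le_antisymm (hgt_le hD s) (not_lt.1 hs)
  rw [he, ← h s he]
  exact hgt_le hD' s

/-- **Well-foundedness.**  In a strictly decreasing sequence pass to a subsequence with constant tight
set `R`; on `R` the values lie in `Λ`, so they are eventually constant; then `le_of_harm` on the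
complement of `R` gives equality.  (Use `Set.IsWF`/`WellFounded` via `RelEmbedding`, or
`Set.IsPWO` of `Λ`: `Set.IsWF.isPWO` in a linear order.) -/
theorem hgt_wf (hu : ∀ s, Adm (u s)) (Y : Set S) {Λ : Set LT} (hΛ : Λ.IsWF) :
    {δ | ∃ D : S → LT, (∀ s, (D s).Valid ∧ D s ∈ Λ) ∧ δ = hgt M u Y D}.IsWF := by
  have h1 : (Set.univ.pi fun _ : S => {v : LT | v.Valid ∧ v ∈ Λ}).IsPWO :=
    Set.IsPWO.pi fun _ => (hΛ.mono fun v hv => hv.2).isPWO
  have h2 := h1.image_of_monotoneOn (f := hgt M u Y) fun D hD D' hD' hle =>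
    hgt_mono ⟨hu, fun s => (hD s trivial).1⟩ ⟨hu, fun s => (hD' s trivial).1⟩ hle
  refine h2.isWF.mono ?_
  rintro _ ⟨D, hD, rfl⟩
  exact ⟨D, fun s _ => hD s, rfl⟩

/-- the leading terms with coefficients in a finitely generated monoid of nonnegative reals -/
theorem isWF_lead {A : Set ℝ} (hA : A.Finite) (h0 : ∀ a ∈ A, 0 ≤ a) :
    {v : LT | v.co ∈ AddSubmonoid.closure A}.IsWF := by
  have h1 : (AddSubmonoid.closure A : Set ℝ).IsPWO := hA.isPWO.addSubmonoid_closure h0
  have h2 := ((Set.isPWO_of_wellQuasiOrderedLE (Set.univ : Set ℕ)).prod h1).image_of_monotone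
    Prod.Lex.toLex_mono
  refine h2.isWF.mono fun v hv => ⟨ofLex v, ⟨trivial, hv⟩, rfl⟩

end Crest.R175
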