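import Crest.Agent.R175.HgtB

/-! Row 175: properties of the harmonic height. -/

set_option autoImplicit false
set_option linter.unusedSectionVars false

namespace Crest.R175

variable {S : Type} [Fintype S] [DecidableEq S] {M : CoxeterMatrix S} {u : S → ℕ → ℝ}

theorem hgtc1_emb_mk (l k : ℕ) (r : ℝ) : (LT.mk l r).emb k = if k = l then r else 0 := rfl

/-- a valid `δ ≤ D'`, subharmonic on `Y`, lies below `hgt Y D'` (replace it by `D'` off `Y`) -/
theorem le_hgt_of_le {Y : Set S} {D δ : S → LT} (hD : Data u D) (hδ : Data u δ) (hle : δ ≤ D)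
    (hs : ∀ s ∈ Y, (δ s).dbl ≤ nb M u δ s) : δ ≤ hgt M u Y D := by
  classical
  let δ' : S → LT := fun s => if s ∈ Y then δ s else D s
  have h1 : δ ≤ δ' := fun s => by
    by_cases h : s ∈ Y
    · simp [δ', h]
    · simpa [δ', h] using hle s
  have hv : Data u δ' := ⟨hD.1, fun s => by
    by_cases h : s ∈ Y
    · simpa [δ', h] using hδ.2 s
    · simpa [δ', h] using hD.2 s⟩
  have h2 : SubH M u Y D δ' := by
    refine ⟨hv.2, fun s => ?_, fun s h => by simp [δ', h], fun s h => ?_⟩
    · by_cases h : s ∈ Y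
      · simpa [δ', h] using hle s
      · simp [δ', h]
    · have : δ' s = δ s := by simp [δ', h]
      rw [this]
      exact (hs s h).trans (nb_mono hδ hv fun t _ _ => h1 t)
  exact h1.trans (h2.le_hgt hD)

theorem hgt_mono {Y : Set S} {D D' : S → LT} (hD : Data u D) (hD' : Data u D') (h : D ≤ D') :
    hgt M u Y D ≤ hgt M u Y D' := by
  exact le_hgt_of_le hD' (hgt_data hD) ((hgt_le hD).trans h) (hgt_subH hD).2.2.2

theorem hgt_hgt {Y Y' : Set S} (hY : Y ⊆ Y') {D : S → LT} (hD : Data u D) :
    hgt M u Y' (hgt M u Y D) = hgt M u Y' D := by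
  refine le_antisymm (hgt_mono (hgt_data hD) hD (hgt_le hD)) ?_
  refine le_hgt_of_le (hgt_data hD) (hgt_data hD) ?_ (hgt_subH hD).2.2.2
  exact le_hgt_of_le hD (hgt_data hD) (hgt_le hD) fun s hs => (hgt_subH hD).2.2.2 s (hY hs)

/-- non-tight vertices are harmonic (otherwise raise `δ s` to `min (D s) (nb / 2)`) -/
theorem mem_harm_of_lt {Y : Set S} {D : S → LT} (hD : Data u D) {s : S}
    (h : hgt M u Y D s < D s) : s ∈ Harm M u Y (hgt M u Y D) := by
  have hsub := hgt_subH (M := M) (Y := Y) hD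
  have hδ := hgt_data (M := M) (Y := Y) hD
  have hmax := fun δ' (h' : SubH M u Y D δ') => h'.le_hgt hD
  set δ := hgt M u Y D with hδdef
  have hsY : s ∈ Y := by
    by_contra hs
    exact h.ne (hsub.2.2.1 s hs)
  refine ⟨hsY, (hsub.2.2.2 s hsY).antisymm (not_lt.1 fun hlt => ?_)⟩
  obtain ⟨w, hw, hw2⟩ := (nb_valid (M := M) hδ s).exists_half
  have hlt' : δ s < w := LT.dbl_lt_dbl.1 (hw2 ▸ hlt)
  have hm : δ s < min (D s) w := lt_min h hlt'
  let δ' : S → LT := Function.update δ s (min (D s) w)
  have h1 : δ ≤ δ' := fun t => by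
    by_cases ht : t = s
    · subst ht; simpa [δ'] using hm.le
    · simp [δ', ht]
  have hv : Data u δ' := ⟨hD.1, fun t => by
    by_cases ht : t = s
    · subst ht
      simp only [δ', Function.update_self]
      rcases min_choice (D t) w with e | e <;> rw [e]
      exacts [hD.2 t, hw]
    · simpa [δ', ht] using hδ.2 t⟩
  have h2 : SubH M u Y D δ' := by
    refine ⟨hv.2, fun t => ?_, fun t ht => ?_, fun t ht => ?_⟩
    · by_cases ht : t = s
      · subst ht; simp [δ']
      · simpa [δ', ht] using hsub.2.1 t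
    · have : t ≠ s := fun e => ht (e ▸ hsY)
      simpa [δ', this] using hsub.2.2.1 t ht
    · refine le_trans ?_ (nb_mono hδ hv fun r _ _ => h1 r)
      by_cases hts : t = s
      · subst hts
        simp only [δ', Function.update_self]
        rw [← hw2]
        exact LT.dbl_le_dbl.2 (min_le_right _ _)
      · simpa [δ', hts] using hsub.2.2.2 t ht
  have h3 := hmax δ' h2 s
  simp only [δ', Function.update_self] at h3
  exact absurd hm (not_lt.2 h3)

theorem harm_subset_harm {Y Y' : Set S} (hY : Y ⊆ Y') {D : S → LT} (hD : Data u D) :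
    Harm M u Y (hgt M u Y D) ⊆ Harm M u Y' (hgt M u Y' D) := by
  intro s hs
  have hle : hgt M u Y' D ≤ hgt M u Y D :=
    le_hgt_of_le hD (hgt_data hD) (hgt_le hD) fun s hs => (hgt_subH hD).2.2.2 s (hY hs)
  rcases (hgt_le (M := M) (Y := Y') hD s).lt_or_eq with h | h
  · exact mem_harm_of_lt hD h
  · refine ⟨hY hs.1, ((hgt_subH hD).2.2.2 s (hY hs.1)).antisymm ?_⟩
    have h1 : hgt M u Y' D s = hgt M u Y D s :=
      (hle s).antisymm (by rw [h]; exact hgt_le hD s)
    rw [h1, hs.2]
    exact nb_mono (hgt_data hD) (hgt_data hD) fun t _ _ => hle t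

/-- at a harmonic vertex all neighbours and the input have level at most that of `δ s` -/
theorem Harm.lev_le {Y : Set S} {δ : S → LT} (hδ : Data u δ) {s t : S} (hs : s ∈ Harm M u Y δ)
    (hts : t ≠ s) (hc : cc M s t ≠ 0) : (δ t).lev ≤ (δ s).lev := by
  have h := lev_le_nb hδ hts hc
  rw [← hs.2] at h
  exact h

theorem Harm.eq_zero {Y : Set S} {δ : S → LT} (hδ : Data u δ) {s t : S} (hs : s ∈ Harm M u Y δ)
    (h0 : δ s = LT.zero) (hts : t ≠ s) (hc : cc M s t ≠ 0) : δ t = LT.zero := by
  by_contra h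
  refine nb_ne_zero hδ hts hc h ?_
  rw [← hs.2, h0]
  simp [LT.dbl, LT.zero]

/-- the harmonic equation in the leading level and above -/
theorem Harm.nbf_eq {Y : Set S} {δ : S → LT} (hδ : Data u δ) {s : S} (hs : s ∈ Harm M u Y δ)
    {k : ℕ} (hk : (δ s).lev ≤ k) : nbf M u δ s k = 2 * (δ s).emb k := by
  have h1 : lead (nbf M u δ s) = (δ s).dbl := hs.2.symm
  rw [← emb_lead_of_le (nbf_adm hδ s) (by rw [h1]; exact hk), h1]
  rw [LT.dbl, hgtc1_emb_mk, LT.emb]
  split_ifs <;> simp

/-- The non-tight set is positive definite.  Otherwise take `γ` from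
`exists_subharmonic_of_not_posDefOn`; adjacent non-tight vertices have the same level, so `γ` may be
restricted to one level `k` (vertices of different levels are not adjacent), and adding `ε γ` to the
coefficients gives a larger subharmonic minorant. -/
theorem posDefOn_nontight {Y : Set S} {D : S → LT} (hD : Data u D) :
    PosDefOn M {s | hgt M u Y D s < D s} := by
  have hsub := hgt_subH (M := M) (Y := Y) hD
  have hδ := hgt_data (M := M) (Y := Y) hD
  have hmax := fun δ' (h' : SubH M u Y D δ') => h'.le_hgt hD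
  have hharm := fun s (h : hgt M u Y D s < D s) => mem_harm_of_lt hD h
  set δ := hgt M u Y D with hδdef
  by_contra hn
  obtain ⟨γ, h0, hne, hsupp, hB⟩ := exists_subharmonic_of_not_posDefOn M hn
  obtain ⟨s₀, hs₀⟩ : ∃ s, γ s ≠ 0 := Function.ne_iff.1 hne
  have hT : ∀ s, γ s ≠ 0 → δ s < D s := fun s hs => by
    by_contra h
    exact hs (hsupp s h)
  set k := (δ s₀).lev with hk
  let g : S → ℝ := fun s => if (δ s).lev = k then γ s else 0
  have hg0 : ∀ s, 0 ≤ g s := fun s => by
    simp only [g]; split_ifs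
    exacts [h0 s, le_rfl]
  have hgne : ∀ s, g s ≠ 0 → (δ s).lev = k ∧ γ s ≠ 0 ∧ g s = γ s := fun s hs => by
    by_cases h : (δ s).lev = k
    · simp only [g, if_pos h] at hs ⊢
      exact ⟨h, hs, trivial⟩
    · simp [g, h] at hs
  have hgB : ∀ s, g s ≠ 0 → 2 * g s ≤ ∑ t ∈ Finset.univ.erase s, cc M s t * g t := fun s hs => by
    obtain ⟨h1, h2, h3⟩ := hgne s hs
    have h4 := hB s (hT s h2)
    rw [Bf_al_left'] at h4
    have h5 : ∑ t ∈ Finset.univ.erase s, cc M s t * g t =
        ∑ t ∈ Finset.univ.erase s, cc M s t * γ t := by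
      refine Finset.sum_congr rfl fun t ht => ?_
      have hts : t ≠ s := Finset.ne_of_mem_erase ht
      by_cases hc : cc M s t = 0
      · simp [hc]
      by_cases hγ : γ t = 0
      · simp [g, hγ]
      have e1 := Harm.lev_le hδ (hharm s (hT s h2)) hts hc
      have e2 := Harm.lev_le hδ (hharm t (hT t hγ)) hts.symm (by rwa [cc_symm])
      have : (δ t).lev = k := by omega
      simp [g, this]
    rw [h5, h3]; linarith
  have hev : ∀ s, ∀ᶠ ε in nhdsWithin (0 : ℝ) (Set.Ioi 0),
      LT.mk (δ s).lev ((δ s).co + ε * g s) ≤ D s := fun s => by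
    by_cases hs : g s = 0
    · refine Filter.Eventually.of_forall fun ε => ?_
      rw [hs, mul_zero, add_zero, LT.mk_lev_co]
      exact hsub.2.1 s
    · rcases (LT.lt_iff _ _).1 (hT s (hgne s hs).2.1) with h | h
      · exact Filter.Eventually.of_forall fun ε => (LT.le_iff _ _).2 (Or.inl h)
      · have hc : Filter.Tendsto (fun ε : ℝ => (δ s).co + ε * g s) (nhds 0)
            (nhds ((δ s).co + 0 * g s)) :=
          (by fun_prop : Continuous fun ε : ℝ => (δ s).co + ε * g s).tendsto 0
        rw [zero_mul, add_zero] at hc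
        filter_upwards [nhdsWithin_le_nhds (hc.eventually (gt_mem_nhds h.2))] with ε hε
        exact (LT.le_iff _ _).2 (Or.inr ⟨h.1, hε.le⟩)
  obtain ⟨ε, hε, hε0⟩ := ((Filter.eventually_all.2 hev).and self_mem_nhdsWithin).exists
  have hε0 : 0 < ε := hε0
  let δ' : S → LT := fun s => LT.mk (δ s).lev ((δ s).co + ε * g s)
  have h1 : δ ≤ δ' := fun s => (LT.le_iff _ _).2 (Or.inr ⟨rfl, by
    have := mul_nonneg hε0.le (hg0 s)
    simp only [δ', LT.co_mk]; linarith⟩)
  have hv : Data u δ' := ⟨hD.1, fun s => by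
    have h2 := mul_nonneg hε0.le (hg0 s)
    have h3 := (hδ.2 s).1
    refine ⟨by simp only [δ', LT.co_mk]; linarith, fun h => (hδ.2 s).2 ?_⟩
    simp only [δ', LT.co_mk] at h
    linarith⟩
  have heq : ∀ s, g s = 0 → δ' s = δ s := fun s hs => by
    simp only [δ', hs, mul_zero, add_zero, LT.mk_lev_co]
  have h2 : SubH M u Y D δ' := by
    refine ⟨hv.2, hε, fun s hs => ?_, fun s hs => ?_⟩
    · have e := hsub.2.2.1 s hs
      rw [heq s, e]
      by_contra hg
      exact (hT s (hgne s hg).2.1).ne e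
    · by_cases hg : g s = 0
      · rw [heq s hg]
        exact (hsub.2.2.2 s hs).trans (nb_mono hδ hv fun t _ _ => h1 t)
      obtain ⟨e1, e2, e3⟩ := hgne s hg
      have hpos : 0 < 2 * ((δ s).co + ε * g s) := by
        have := mul_pos hε0 (lt_of_le_of_ne (hg0 s) (Ne.symm hg))
        have := (hδ.2 s).1
        linarith
      refine not_lt.1 fun hlt => ?_
      have h3 := ((lead_lt_mk_iff (nbf_adm (M := M) hv s) hpos).1 hlt).2
      have h4 := Harm.nbf_eq hδ (hharm s (hT s e2)) le_rfl
      have h5 : nbf M u δ' s (δ s).lev = nbf M u δ s (δ s).lev +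
          ε * ∑ t ∈ Finset.univ.erase s, cc M s t * g t := by
        simp only [nbf]
        rw [add_assoc, Finset.mul_sum, ← Finset.sum_add_distrib]
        congr 1
        refine Finset.sum_congr rfl fun t _ => ?_
        simp only [δ']
        rw [hgtc1_emb_mk, LT.emb]
        split_ifs with h
        · ring
        · have : g t = 0 := by
            by_contra hg'
            exact h (e1.trans (hgne t hg').1.symm)
          simp [this]
      have h6 := mul_le_mul_of_nonneg_left (hgB s hg) hε0.le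
      have h7 : (δ s).emb (δ s).lev = (δ s).co := by simp [LT.emb]
      rw [h7] at h4
      have h8 : nbf M u δ' s (δ s).lev < 2 * ((δ s).co + ε * g s) := h3
      linarith
  have h3 := (LT.le_iff _ _).1 (hmax δ' h2 s₀)
  have h4 : g s₀ = γ s₀ := by simp [g, hk]
  have h5 : 0 < ε * g s₀ := mul_pos hε0 (by rw [h4]; exact lt_of_le_of_ne (h0 s₀) (Ne.symm hs₀))
  simp only [δ', LT.lev_mk, LT.co_mk, lt_irrefl, false_or, true_and] at h3
  linarith

end Crest.R175
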