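import Crest.Agent.R175.HgtC

/-! Row 175: the height along an edge, and the properness lemma for the chain. -/

set_option autoImplicit false
set_option linter.unusedSectionVars false

namespace Crest.R175

variable {S : Type} [Fintype S] [DecidableEq S] {M : CoxeterMatrix S} {u : S → ℕ → ℝ}

/-- `D` and `D'` are the data at the two ends of an edge labelled `s` -/
structure Edge (M : CoxeterMatrix S) (u : S → ℕ → ℝ) (s : S) (D D' : S → LT) : Prop where
  data : Data u D
  data' : Data u D'
  eq : ∀ t, t ≠ s → D' t = D t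
  le : ∀ v : LT, v.Valid → D s ≤ v → D' s ≤ v → nb M u D s ≤ v.dbl
  lt : ∀ v : LT, v.Valid → D s ≤ v → D' s < v → nb M u D s < v.dbl
  lt' : ∀ v : LT, v.Valid → D s < v → D' s ≤ v → nb M u D s < v.dbl

theorem hgtd_nb_congr {s : S} {D D' : S → LT} (h : ∀ t, t ≠ s → D' t = D t) :
    nb M u D' s = nb M u D s := by
  have : nbf M u D' s = nbf M u D s := by
    funext k
    unfold nbf
    congr 1
    refine Finset.sum_congr rfl fun t ht => ?_
    rw [h t (Finset.ne_of_mem_erase ht)]
  unfold nb
  rw [this]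

theorem hgtd_le_of_le {s : S} {D D' : S → LT} (h : ∀ t, t ≠ s → D' t = D t) (hs : D s ≤ D' s) :
    D ≤ D' := by
  intro t
  by_cases hts : t = s
  · subst hts; exact hs
  · exact (h t hts).ge

theorem hgtd_nb_le {Y : Set S} {D : S → LT} (hD : Data u D) (s : S) :
    nb M u (hgt M u Y D) s ≤ nb M u D s :=
  nb_mono (hgt_data hD) hD fun t _ _ => hgt_le hD t

theorem hgtd_tight {Y : Set S} {D : S → LT} (hD : Data u D) {s : S}
    (hn : s ∉ Harm M u Y (hgt M u Y D)) : hgt M u Y D s = D s := by
  by_contra hne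
  exact hn (mem_harm_of_lt hD (lt_of_le_of_ne (hgt_le hD s) hne))

theorem hgtd_lev_le {v w : LT} (h : v ≤ w) : v.lev ≤ w.lev := by
  rcases (LT.le_iff v w).1 h with h | h
  · exact h.le
  · exact h.1.le

theorem Edge.symm {s : S} {D D' : S → LT} (h : Edge M u s D D') : Edge M u s D' D := by
  have e : nb M u D' s = nb M u D s := hgtd_nb_congr h.eq
  refine ⟨h.data', h.data, fun t ht => (h.eq t ht).symm, fun v hv h1 h2 => ?_,
    fun v hv h1 h2 => ?_, fun v hv h1 h2 => ?_⟩
  · rw [e]; exact h.le v hv h2 h1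
  · rw [e]; exact h.lt' v hv h2 h1
  · rw [e]; exact h.lt v hv h2 h1

theorem Edge.le_total {s : S} {D D' : S → LT} (h : Edge M u s D D') (Y : Set S) :
    hgt M u Y D ≤ hgt M u Y D' ∨ hgt M u Y D' ≤ hgt M u Y D := by
  rcases _root_.le_total (D s) (D' s) with h1 | h1
  · exact Or.inl (hgt_mono h.data h.data' (hgtd_le_of_le h.eq h1))
  · exact Or.inr (hgt_mono h.data' h.data (hgtd_le_of_le (fun t ht => (h.eq t ht).symm) h1))

/-- a move outside the harmonic set strictly raises the height -/
theorem Edge.lt_of_not_harm {s : S} {D D' : S → LT} (h : Edge M u s D D') {Y : Set S}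
    (hs : s ∈ Y) (hn : s ∉ Harm M u Y (hgt M u Y D)) : hgt M u Y D < hgt M u Y D' := by
  have ht := hgtd_tight h.data hn
  have h1 : (hgt M u Y D s).dbl < nb M u (hgt M u Y D) s :=
    lt_of_le_of_ne ((hgt_subH h.data).2.2.2 s hs) fun he => hn ⟨hs, he⟩
  have h2 : (D s).dbl < nb M u D s := by
    rw [← ht]; exact h1.trans_le (hgtd_nb_le h.data s)
  have h3 : D s < D' s := by
    by_contra hc
    exact absurd (h.le (D s) (h.data.2 s) le_rfl (not_lt.1 hc)) (not_le.2 h2)
  refine lt_of_le_of_ne (hgt_mono h.data h.data' (hgtd_le_of_le h.eq h3.le)) fun he => hn ?_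
  have h4 : hgt M u Y D' s < D' s := by rw [← he, ht]; exact h3
  rw [he]
  exact mem_harm_of_lt h.data' h4

/-- a move at a tight vertex does not lower `D s` -/
theorem Edge.le_of_tight {s : S} {D D' : S → LT} (h : Edge M u s D D') {Y : Set S}
    (hs : s ∈ Y) (ht : hgt M u Y D s = D s) : D s ≤ D' s := by
  by_contra hc
  have h1 := h.lt (D s) (h.data.2 s) le_rfl (not_le.1 hc)
  have h2 : (D s).dbl ≤ nb M u D s := by
    rw [← ht]
    exact ((hgt_subH h.data).2.2.2 s hs).trans (hgtd_nb_le h.data s)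
  exact absurd h2 (not_le.2 h1)

/-- a strict descent happens at a non-tight vertex of nonzero height, below the height -/
theorem Edge.of_lt {s : S} {D D' : S → LT} (h : Edge M u s D D') {Y : Set S} (hs : s ∈ Y)
    (hlt : hgt M u Y D' < hgt M u Y D) :
    hgt M u Y D s < D s ∧ hgt M u Y D s ≠ LT.zero ∧ D' s < hgt M u Y D s := by
  have h1 : D' s < hgt M u Y D s := by
    by_contra hc
    have hle : hgt M u Y D ≤ D' := by
      intro t
      by_cases hts : t = s
      · subst hts; exact not_lt.1 hc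
      · rw [h.eq t hts]; exact hgt_le h.data t
    exact absurd (le_hgt_of_le h.data' (hgt_data h.data) hle (hgt_subH h.data).2.2.2)
      (not_le_of_gt hlt)
  refine ⟨lt_of_le_of_ne (hgt_le h.data s) fun he => ?_, fun h0 => ?_, h1⟩
  · have := h.le_of_tight hs he
    rw [he] at h1
    exact absurd this (not_le.2 h1)
  · rw [h0] at h1
    exact absurd (h.data'.2 s).zero_le (not_le.2 h1)

/-- a neutral move at a tight harmonic vertex: all neighbours are tight or of height zero.
(`nb D s ≤ 2 D s = nb δ s`; use `eq_of_nb_eq` for neighbours with `lev (D t) ≥ lev (δ s)`; a neighbour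
of lower level cannot be harmonic, so it is tight by `mem_harm_of_lt`.) -/
theorem Edge.tight_of_neutral {s : S} {D D' : S → LT} (h : Edge M u s D D') {Y : Set S}
    (hs : s ∈ Harm M u Y (hgt M u Y D)) (ht : hgt M u Y D s = D s) (ht' : D' s = D s) {t : S}
    (hts : t ≠ s) (hc : cc M s t ≠ 0) : hgt M u Y D t = D t ∨ hgt M u Y D t = LT.zero := by
  left
  have h1 : nb M u D s ≤ nb M u (hgt M u Y D) s := by
    rw [← hs.2, ht]
    exact h.le (D s) (h.data.2 s) le_rfl ht'.le
  by_cases hlev : (nb M u (hgt M u Y D) s).lev ≤ (D t).lev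
  · exact eq_of_nb_eq (hgt_data h.data) h.data (fun r _ _ => hgt_le h.data r) h1 hts hc hlev
  · apply hgtd_tight h.data
    intro hh
    apply hlev
    have h2 := Harm.lev_le (hgt_data h.data) hh hts.symm (by rw [cc_symm]; exact hc)
    rw [← hs.2]
    exact h2.trans (hgtd_lev_le (hgt_le h.data t))

/-- adjacent non-tight vertices have the same level, and one is zero iff the other is -/
theorem lev_eq_of_nontight {Y : Set S} {D : S → LT} (hD : Data u D) {s t : S}
    (hs : s ∈ Harm M u Y (hgt M u Y D)) (ht : t ∈ Harm M u Y (hgt M u Y D)) (hts : t ≠ s)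
    (hc : cc M s t ≠ 0) : (hgt M u Y D t).lev = (hgt M u Y D s).lev ∧
      (hgt M u Y D t = LT.zero ↔ hgt M u Y D s = LT.zero) := by
  have hc' : cc M t s ≠ 0 := by rw [cc_symm]; exact hc
  refine ⟨le_antisymm (Harm.lev_le (hgt_data hD) hs hts hc)
    (Harm.lev_le (hgt_data hD) ht hts.symm hc'), fun h0 => ?_, fun h0 => ?_⟩
  · exact Harm.eq_zero (hgt_data hD) ht h0 hts.symm hc'
  · exact Harm.eq_zero (hgt_data hD) hs h0 hts hc

/-- the Coxeter graph is connected -/
def Irred (M : CoxeterMatrix S) : Prop :=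
  ∀ A : Set S, A.Nonempty → (∀ s ∈ A, ∀ t, t ≠ s → M s t ≠ 2 → t ∈ A) → A = Set.univ

/-- **Properness.**  Let `E = hgt Y D`, `δ = hgt univ D = hgt univ E`, `T = Harm Y E ≠ univ`.  Suppose
every `s ∉ T` is non-tight and nonzero for `δ`.  Then `δ` is harmonic everywhere
(`harm_subset_harm`), nonzero of constant level.  The set `A = {δ = E}` is nonempty (its complement is
positive definite by `posDefOn_nontight` for `E`), contained in `T` (off `T`, `E = D`), and closed under
neighbours by `eq_of_nb_eq`. -/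
theorem exists_tight_not_mem (hM : Irred M) (hP : ¬ PosDef M) {Y : Set S} (hY : Y ≠ Set.univ)
    {D : S → LT} (hD : Data u D) :
    ∃ s, s ∉ Harm M u Y (hgt M u Y D) ∧
      ¬ (hgt M u Set.univ D s < D s ∧ hgt M u Set.univ D s ≠ LT.zero) := by
  by_contra hcon
  have hcon' : ∀ s, s ∉ Harm M u Y (hgt M u Y D) → hgt M u Set.univ D s < D s := by
    intro s hs
    by_contra hc
    exact hcon ⟨s, hs, fun hh => hc hh.1⟩
  have hE : Data u (hgt M u Y D) := hgt_data hD
  have hδE : hgt M u Set.univ (hgt M u Y D) = hgt M u Set.univ D :=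
    hgt_hgt (Set.subset_univ Y) hD
  have hle : hgt M u Set.univ D ≤ hgt M u Y D := by
    rw [← hδE]; exact hgt_le hE
  have hharm : ∀ s, s ∈ Harm M u Set.univ (hgt M u Set.univ D) := by
    intro s
    by_cases hs : s ∈ Harm M u Y (hgt M u Y D)
    · exact harm_subset_harm (Set.subset_univ Y) hD hs
    · exact mem_harm_of_lt hD (hcon' s hs)
  have hsub : ∀ s, hgt M u Set.univ D s = hgt M u Y D s → s ∈ Harm M u Y (hgt M u Y D) := by
    intro s hs
    by_contra hn
    have h1 := hcon' s hn
    rw [hs, hgtd_tight hD hn] at h1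
    exact lt_irrefl _ h1
  have hA := hM {s | hgt M u Set.univ D s = hgt M u Y D s} ?_ ?_
  · apply hY
    refine Set.eq_univ_of_forall fun s => ?_
    have : s ∈ {s | hgt M u Set.univ D s = hgt M u Y D s} := by rw [hA]; exact Set.mem_univ s
    exact (hsub s this).1
  · by_contra hne
    apply hP
    have h1 := posDefOn_nontight (M := M) (Y := Set.univ) hE
    have h2 : {s | hgt M u Set.univ (hgt M u Y D) s < hgt M u Y D s} = Set.univ := by
      refine Set.eq_univ_of_forall fun s => ?_
      rw [hδE]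
      exact lt_of_le_of_ne (hle s) fun he => hne ⟨s, he⟩
    rw [h2] at h1
    exact h1
  · intro s hs t hts hm
    have hs' : hgt M u Set.univ D s = hgt M u Y D s := hs
    have hc : cc M s t ≠ 0 := fun h0 => hm ((cc_eq_zero_iff M hts.symm).1 h0)
    have h1 : nb M u (hgt M u Y D) s ≤ nb M u (hgt M u Set.univ D) s := by
      rw [← (hsub s hs').2, ← (hharm s).2, hs']
    refine eq_of_nb_eq (hgt_data hD) hE (fun r _ _ => hle r) h1 hts hc ?_
    rw [← (hharm s).2]
    have h2 := (lev_eq_of_nontight hD (hharm s) (hharm t) hts hc).1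
    exact h2.ge.trans (hgtd_lev_le (hle t))

end Crest.R175
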