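import Crest.Agent.R175.Root

/-! Row 175: inversion sets. -/

set_option autoImplicit false
set_option linter.unusedSectionVars false

namespace Crest.R175

variable {S : Type} [Fintype S] [DecidableEq S] (M : CoxeterMatrix S)

theorem inv_Bf_al_al (s : S) : Bf M (al s) (al s) = 2 := by
  rw [Bf_al_left, Finset.sum_eq_single s]
  · simp [al, Bm_self]
  · intro t _ ht
    simp [al, ht]
  · intro h
    exact absurd (Finset.mem_univ s) h

theorem inv_rho_sr_al (s : S) : rho M (sr M s) (al s) = -al s := by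
  rw [rho_sr, inv_Bf_al_al]
  module

theorem inv_al_nonneg (s : S) : (0 : S → ℝ) ≤ al s := by
  intro t
  by_cases h : t = s
  · subst h; simp [al]
  · simp [al, h]

theorem inv_not_al_nonpos (s : S) : ¬ (al s : S → ℝ) ≤ 0 := by
  intro h
  have := h s
  simp [al] at this
  linarith

theorem inv_isRt_al (s : S) : IsRt M (al s) := ⟨1, s, (rho_one M _).symm⟩

theorem inv_rho_inv_rho (w : M.Group) (v : S → ℝ) : rho M w⁻¹ (rho M w v) = v := by
  rw [← rho_mul, inv_mul_cancel, rho_one]

theorem inv_rho_rho_inv (w : M.Group) (v : S → ℝ) : rho M w (rho M w⁻¹ v) = v := by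
  rw [← rho_mul, mul_inv_cancel, rho_one]

theorem inv_sr_sr (s : S) (v : S → ℝ) : rho M (sr M s) (rho M (sr M s) v) = v := by
  rw [← rho_mul, CoxeterSystem.simple_mul_simple_self, rho_one]

theorem inv_len_inv_mul (w : M.Group) (s : S) : ℓ M (w⁻¹ * sr M s) = ℓ M (sr M s * w) := by
  have h := (cs M).length_inv (sr M s * w)
  rw [mul_inv_rev, CoxeterSystem.inv_simple] at h
  exact h

theorem inv_supp_al {X : Set S} {s : S} (hs : s ∈ X) : Supp X (al s) := by
  intro t ht
  have : t ≠ s := fun h => ht (h ▸ hs)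
  simp [al, this]

theorem inv_faithful {x y : M.Group} (h : ∀ v, rho M x v = rho M y v) : x = y := by
  rw [← inv_mul_eq_one]
  by_contra hw
  obtain ⟨i, hi⟩ := (cs M).exists_rightDescent_of_ne_one hw
  have h1 := rho_al_nonpos M (w := x⁻¹ * y) (s := i) hi
  rw [rho_mul, ← h, inv_rho_inv_rho] at h1
  exact inv_not_al_nonpos i h1

theorem IsRt.rho {M : CoxeterMatrix S} {β : S → ℝ} (h : IsRt M β) (w : M.Group) :
    IsRt M (rho M w β) := by
  obtain ⟨x, s, rfl⟩ := h
  exact ⟨w * x, s, (rho_mul M _ _ _).symm⟩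

theorem IsRt.neg {M : CoxeterMatrix S} {β : S → ℝ} (h : IsRt M β) : IsRt M (-β) := by
  obtain ⟨x, s, rfl⟩ := h
  exact ⟨x * sr M s, s, by rw [rho_mul, inv_rho_sr_al, rho_neg]⟩

theorem IsRt.ne_zero {M : CoxeterMatrix S} {β : S → ℝ} (h : IsRt M β) : β ≠ 0 := by
  obtain ⟨x, s, rfl⟩ := h
  exact rho_al_ne_zero M x s

theorem IsRt.nonneg_or {M : CoxeterMatrix S} {β : S → ℝ} (h : IsRt M β) : 0 ≤ β ∨ β ≤ 0 := by
  obtain ⟨x, s, rfl⟩ := h
  rcases ((cs M).length_mul_simple_ne x s).lt_or_gt with h | h
  · exact Or.inr (rho_al_nonpos M h)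
  · exact Or.inl (rho_al_nonneg M h)

/-- A positive root other than `α_s` stays positive under `s` (it has norm `2`, so it is not
supported on `s` alone, and `s` changes only the coordinate `s`). -/
theorem IsRt.sr_nonneg {M : CoxeterMatrix S} {β : S → ℝ} (h : IsRt M β) (h0 : 0 ≤ β) {s : S}
    (hs : β ≠ al s) : 0 ≤ Crest.R175.rho M (sr M s) β := by
  rcases (h.rho (sr M s)).nonneg_or with h1 | h1
  · exact h1
  · exfalso
    apply hs
    have h2 : ∀ t, t ≠ s → β t = 0 := by
      intro t ht
      have h3 := h1 t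
      rw [rho_sr] at h3
      simp [al, ht] at h3
      exact le_antisymm h3 (h0 t)
    have h3 : Bf M β β = 2 := by
      obtain ⟨x, r, rfl⟩ := h
      rw [Bf_rho, inv_Bf_al_al]
    have h4 : Bf M β β = β s * (2 * β s) := by
      rw [Bf_eq_sum, Finset.sum_eq_single s, Bf_al_left, Finset.sum_eq_single s, Bm_self]
      · intro t _ ht
        rw [h2 t ht, mul_zero]
      · intro hh
        exact absurd (Finset.mem_univ s) hh
      · intro t _ ht
        rw [h2 t ht, zero_mul]
      · intro hh
        exact absurd (Finset.mem_univ s) hh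
    have h5 : β s = 1 := by
      have h6 : 0 ≤ β s := h0 s
      nlinarith
    funext t
    by_cases ht : t = s
    · subst ht; simp [al, h5]
    · simp [al, ht, h2 t ht]

theorem al_mem_Inv_iff (w : M.Group) (s : S) : al s ∈ Inv M w ↔ ℓ M (sr M s * w) < ℓ M w := by
  have e : ℓ M w = ℓ M w⁻¹ := ((cs M).length_inv w).symm
  rw [← inv_len_inv_mul, e]
  constructor
  · rintro ⟨-, -, h⟩
    rcases ((cs M).length_mul_simple_ne w⁻¹ s).lt_or_gt with h1 | h1
    · exact h1
    · exact absurd (le_antisymm h (rho_al_nonneg M h1)) (rho_al_ne_zero M _ _)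
  · intro h
    exact ⟨inv_isRt_al M s, inv_al_nonneg s, rho_al_nonpos M h⟩

theorem Inv_one : Inv M 1 = ∅ := by
  ext β
  simp only [Set.mem_empty_iff_false, iff_false]
  rintro ⟨h1, h2, h3⟩
  rw [inv_one, rho_one] at h3
  exact h1.ne_zero (le_antisymm h3 h2)

theorem Inv_sr_mul {w : M.Group} {s : S} (h : ℓ M w < ℓ M (sr M s * w)) :
    Inv M (sr M s * w) = insert (al s) (rho M (sr M s) '' Inv M w) := by
  have e : ∀ v, rho M (sr M s * w)⁻¹ v = rho M w⁻¹ (rho M (sr M s) v) := by
    intro v
    rw [mul_inv_rev, CoxeterSystem.inv_simple, rho_mul]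
  ext β
  constructor
  · rintro ⟨h1, h2, h3⟩
    by_cases hb : β = al s
    · exact Or.inl hb
    · rw [e] at h3
      exact Or.inr ⟨rho M (sr M s) β, ⟨h1.rho _, h1.sr_nonneg h2 hb, h3⟩, inv_sr_sr M s β⟩
  · rintro (rfl | ⟨γ, hγ, rfl⟩)
    · rw [al_mem_Inv_iff, CoxeterSystem.simple_mul_simple_cancel_left]
      exact h
    · have hne : γ ≠ al s := by
        rintro rfl
        exact absurd ((al_mem_Inv_iff M w s).1 hγ) h.not_gt
      obtain ⟨h1, h2, h3⟩ := hγ
      exact ⟨h1.rho _, h1.sr_nonneg h2 hne, by rw [e, inv_sr_sr]; exact h3⟩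

theorem Inv_mul_sr {w : M.Group} {s : S} (h : ℓ M w < ℓ M (w * sr M s)) :
    Inv M (w * sr M s) = insert (rho M w (al s)) (Inv M w) ∧ rho M w (al s) ∉ Inv M w := by
  have e : ∀ v, rho M (w * sr M s)⁻¹ v = rho M (sr M s) (rho M w⁻¹ v) := by
    intro v
    rw [mul_inv_rev, CoxeterSystem.inv_simple, rho_mul]
  have hp := rho_al_nonneg M h
  refine ⟨?_, ?_⟩
  · ext β
    constructor
    · rintro ⟨h1, h2, h3⟩
      rw [e] at h3
      rcases (h1.rho w⁻¹).nonneg_or with h4 | h4
      · left
        by_contra hb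
        have hne : rho M w⁻¹ β ≠ al s := by
          intro hh
          apply hb
          rw [← hh, inv_rho_rho_inv]
        exact ((h1.rho w⁻¹).rho (sr M s)).ne_zero
          (le_antisymm h3 ((h1.rho w⁻¹).sr_nonneg h4 hne))
      · exact Or.inr ⟨h1, h2, h4⟩
    · rintro (rfl | ⟨h1, h2, h3⟩)
      · refine ⟨(inv_isRt_al M s).rho w, hp, ?_⟩
        rw [e, inv_rho_inv_rho, inv_rho_sr_al]
        exact neg_nonpos.2 (inv_al_nonneg s)
      · refine ⟨h1, h2, ?_⟩
        have hne : -rho M w⁻¹ β ≠ al s := by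
          intro hh
          rw [← hh, rho_neg, inv_rho_rho_inv] at hp
          exact h1.ne_zero (le_antisymm (neg_nonneg.1 hp) h2)
        have h4 := (h1.rho w⁻¹).neg.sr_nonneg (neg_nonneg.2 h3) hne
        rw [rho_neg] at h4
        rw [e]
        exact neg_nonneg.1 h4
  · rintro ⟨-, -, h3⟩
    rw [inv_rho_inv_rho] at h3
    exact inv_not_al_nonpos s h3

theorem inv_finite_ncard (w : M.Group) : (Inv M w).Finite ∧ (Inv M w).ncard = ℓ M w := by
  induction hn : ℓ M w using Nat.strong_induction_on generalizing w with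
  | _ n ih =>
    by_cases hw : w = 1
    · subst hw
      rw [Inv_one, ← hn]
      simp
    · obtain ⟨s, hs⟩ := (cs M).exists_rightDescent_of_ne_one hw
      have hs1 : ℓ M (w * sr M s) < ℓ M w := hs
      have hs2 : ℓ M (w * sr M s) + 1 = ℓ M w := by
        rcases (cs M).length_mul_simple w s with h | h
        · simp only [ℓ, sr] at hs1; omega
        · exact h
      have ew : w * sr M s * sr M s = w := (cs M).simple_mul_simple_cancel_right s
      obtain ⟨h1, h2⟩ := Inv_mul_sr M (w := w * sr M s) (s := s) (by rw [ew]; exact hs1)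
      rw [ew] at h1
      obtain ⟨h3, h4⟩ := ih _ (hn ▸ hs1) (w * sr M s) rfl
      rw [h1]
      exact ⟨h3.insert _, by rw [Set.ncard_insert_of_notMem h2 h3, h4, hs2, hn]⟩

theorem Inv_finite (w : M.Group) : (Inv M w).Finite := by
  exact (inv_finite_ncard M w).1

theorem Inv_ncard (w : M.Group) : (Inv M w).ncard = ℓ M w := by
  exact (inv_finite_ncard M w).2

/-- Induction on `ℓ u`, stripping a left descent `s` of `u` (then also of `w`). -/
theorem wle_iff_Inv_subset (u w : M.Group) : WLe M u w ↔ Inv M u ⊆ Inv M w := by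
  induction hn : ℓ M u using Nat.strong_induction_on generalizing u w with
  | _ n ih =>
    by_cases hu : u = 1
    · subst hu
      simp [WLe, Inv_one]
    · obtain ⟨s, hs⟩ := (cs M).exists_leftDescent_of_ne_one hu
      have hs1 : ℓ M (sr M s * u) < ℓ M u := hs
      have hs2 : ℓ M (sr M s * u) + 1 = ℓ M u := by
        rcases (cs M).length_simple_mul u s with h | h
        · simp only [ℓ, sr] at hs1; omega
        · exact h
      have eu : sr M s * (sr M s * u) = u := (cs M).simple_mul_simple_cancel_left s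
      have ew : sr M s * (sr M s * w) = w := (cs M).simple_mul_simple_cancel_left s
      have e1 : (sr M s * u)⁻¹ * (sr M s * w) = u⁻¹ * w := by group
      have hIu : Inv M u = insert (al s) (rho M (sr M s) '' Inv M (sr M s * u)) := by
        have := Inv_sr_mul M (w := sr M s * u) (s := s) (by rw [eu]; exact hs1)
        rwa [eu] at this
      have hIw : ℓ M (sr M s * w) < ℓ M w →
          Inv M w = insert (al s) (rho M (sr M s) '' Inv M (sr M s * w)) := by
        intro hw
        have := Inv_sr_mul M (w := sr M s * w) (s := s) (by rw [ew]; exact hw)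
        rwa [ew] at this
      have hw2 : ℓ M (sr M s * w) < ℓ M w → ℓ M (sr M s * w) + 1 = ℓ M w := by
        intro hw
        rcases (cs M).length_simple_mul w s with h | h
        · simp only [ℓ, sr] at hw; omega
        · exact h
      have IH := ih (ℓ M (sr M s * u)) (hn ▸ hs1) (sr M s * u) (sr M s * w) rfl
      constructor
      · intro h
        have h0 : ℓ M u + ℓ M (u⁻¹ * w) = ℓ M w := h
        have h1 : ℓ M (sr M s * w) ≤ ℓ M (sr M s * u) + ℓ M (u⁻¹ * w) := by
          have := (cs M).length_mul_le (sr M s * u) (u⁻¹ * w)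
          rwa [show sr M s * u * (u⁻¹ * w) = sr M s * w by group] at this
        have hw : ℓ M (sr M s * w) < ℓ M w := by omega
        have h2 := hw2 hw
        have h3 : WLe M (sr M s * u) (sr M s * w) := by
          unfold WLe
          rw [e1]
          omega
        rw [hIu, hIw hw]
        exact Set.insert_subset_insert (Set.image_mono (IH.1 h3))
      · intro h
        have hw : ℓ M (sr M s * w) < ℓ M w :=
          (al_mem_Inv_iff M w s).1 (h ((al_mem_Inv_iff M u s).2 hs1))
        have h2 := hw2 hw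
        have h3 : Inv M (sr M s * u) ⊆ Inv M (sr M s * w) := by
          intro γ hγ
          have h4 : rho M (sr M s) γ ∈ Inv M w := h (by rw [hIu]; exact Or.inr ⟨γ, hγ, rfl⟩)
          rw [hIw hw] at h4
          rcases h4 with h4 | ⟨δ, hδ, h4⟩
          · exfalso
            have h5 : γ = -al s := by rw [← inv_sr_sr M s γ, h4, inv_rho_sr_al]
            have h6 := hγ.2.1
            rw [h5] at h6
            exact inv_not_al_nonpos s (neg_nonneg.1 h6)
          · have h5 : δ = γ := by rw [← inv_sr_sr M s δ, h4, inv_sr_sr]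
            exact h5 ▸ hδ
        have h4 := IH.2 h3
        unfold WLe at h4 ⊢
        rw [e1] at h4
        omega

/-- If `w` has no left descent in `X`, no inversion of `w` is supported in `X`
(`rho w⁻¹ (al t) ≥ 0` for `t ∈ X`). -/
theorem LRed.not_supp {M : CoxeterMatrix S} {X : Set S} {w : M.Group} (h : LRed M X w)
    {β : S → ℝ} (hβ : β ∈ Inv M w) : ¬ Supp X β := by
  intro hX
  obtain ⟨h1, h2, h3⟩ := hβ
  refine (h1.rho w⁻¹).ne_zero (le_antisymm h3 ?_)
  rw [rho_eq_sum]
  refine Finset.sum_nonneg fun s _ => ?_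
  by_cases hs : s ∈ X
  · refine smul_nonneg (h2 s) (rho_al_nonneg M ?_)
    rw [inv_len_inv_mul]
    simpa only [ℓ, CoxeterSystem.length_inv] using h s hs
  · rw [hX s hs, zero_smul]

theorem LRed.of_wle {M : CoxeterMatrix S} {X : Set S} {u w : M.Group} (h : LRed M X w)
    (hu : WLe M u w) : LRed M X u := by
  intro s hs
  rcases ((cs M).length_simple_mul_ne u s).lt_or_gt with h1 | h1
  · exact absurd (inv_supp_al hs)
      (h.not_supp ((wle_iff_Inv_subset M u w).1 hu ((al_mem_Inv_iff M u s).2 h1)))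
  · exact h1

/-- Deodhar: if `w` is `X`-reduced and `w α_r` is supported in `X` then `w α_r = α_t`, `w r = t w`
for some `t ∈ X`, and the length goes up.  (`w α_r ≥ 0` by `LRed.not_supp`; `w r` has the inversion
`w α_r` supported in `X`, so it has a left descent `t ∈ X`; `α_t ∈ Inv (w r) \ Inv w`.
For `w r = t w`: `t w r` is shorter than `w r`, `t w` is longer than `w`; compare inversion sets, or use
that `w r w⁻¹` and `t` act identically in the faithful representation of row 61.) -/
theorem LRed.deodhar {M : CoxeterMatrix S} {X : Set S} {w : M.Group} (h : LRed M X w) {r : S}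
    (hr : Supp X (rho M w (al r))) :
    ∃ t ∈ X, rho M w (al r) = al t ∧ w * sr M r = sr M t * w ∧ ℓ M w < ℓ M (w * sr M r) := by
  have hroot : IsRt M (rho M w (al r)) := (inv_isRt_al M r).rho w
  have hpos : 0 ≤ rho M w (al r) := by
    rcases hroot.nonneg_or with h1 | h1
    · exact h1
    · exfalso
      refine h.not_supp (β := -rho M w (al r)) ⟨hroot.neg, neg_nonneg.2 h1, ?_⟩ ?_
      · rw [rho_neg, inv_rho_inv_rho]
        exact neg_nonpos.2 (inv_al_nonneg r)
      · intro s hs
        simp [hr s hs]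
  have hlt : ℓ M w < ℓ M (w * sr M r) := (lt_iff_rho_nonneg M w r).2 hpos
  obtain ⟨hI, -⟩ := Inv_mul_sr M hlt
  have hnot : ¬ LRed M X (w * sr M r) := fun hh =>
    hh.not_supp (β := rho M w (al r)) (by rw [hI]; exact Or.inl rfl) hr
  simp only [LRed, not_forall] at hnot
  obtain ⟨t, ht, hlt'⟩ := hnot
  have h1 : ℓ M (sr M t * (w * sr M r)) < ℓ M (w * sr M r) :=
    lt_of_le_of_ne (not_lt.1 hlt') ((cs M).length_simple_mul_ne _ t)
  have h2 := (al_mem_Inv_iff M _ t).2 h1
  rw [hI] at h2
  rcases h2 with h2 | h2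
  · refine ⟨t, ht, h2.symm, ?_, hlt⟩
    apply inv_faithful M
    intro v
    have h3 : Bf M (al t) (rho M w v) = Bf M (al r) v := by rw [h2, Bf_rho]
    rw [rho_mul, rho_mul, rho_sr, rho_sr, h3, sub_eq_add_neg, rho_add, rho_neg, rho_smul, ← h2,
      sub_eq_add_neg]
  · exact absurd (inv_supp_al ht) (h.not_supp h2)

end Crest.R175
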