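import Crest.Agent.R175.Emb

/-! Row 175: lattice property of the prefix order for finite `W`. -/

set_option autoImplicit false
set_option linter.unusedSectionVars false

namespace Crest.R175

open Crest.GroupTheory

variable {S : Type} [Fintype S] [DecidableEq S] (M : CoxeterMatrix S) [Finite M.Group]

theorem lat_mem_AX (a : ArtinGroup M) : a ∈ AX M Set.univ := by
  rw [AX_univ]; exact Subgroup.mem_top a

theorem lat_mem_WX (u : M.Group) : u ∈ WX M Set.univ := by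
  have h : WX M Set.univ = ⊤ := by
    rw [WX, Set.image_univ]
    exact (cs M).subgroup_closure_range_simple
  rw [h]; exact Subgroup.mem_top u

theorem lat_σ_pos (s : S) : σ M s ∈ Pos M := Submonoid.subset_closure ⟨s, Set.mem_univ s, rfl⟩

theorem lat_wp_pos (l : List S) : wp (σ M) l ∈ Pos M :=
  (mem_posOn_iff M _ _).2 ⟨l, fun s _ => Set.mem_univ s, rfl⟩

theorem lat_pre_alt (x : ArtinGroup M) (s t : S) {m : ℕ} (hm : m ≠ 0) :
    Pre M (x * σ M s) (x * wp (σ M) (alt s t m)) := by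
  obtain ⟨k, rfl⟩ := Nat.exists_eq_succ_of_ne_zero hm
  rw [alt_succ, wp_cons, ← mul_assoc]
  exact pre_mul_right M _ (lat_wp_pos M _)

theorem lat_pre_one (x : ArtinGroup M) : Pre M 1 x ↔ x ∈ Pos M := by
  rw [Pre, inv_one, one_mul]

theorem exists_lower (x y : ArtinGroup M) : ∃ b, Pre M b x ∧ Pre M b y := by
  obtain ⟨u, hu, v, hv, h⟩ := frac_left M (lat_mem_AX M (x⁻¹ * y))
  refine ⟨x * u⁻¹, ?_, ?_⟩
  · have e : (x * u⁻¹)⁻¹ * x = u := by group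
    rw [Pre, e]; exact hu
  · have e : (x * u⁻¹)⁻¹ * y = u * (x⁻¹ * y) := by group
    rw [Pre, e, h, mul_inv_cancel_left]; exact hv

theorem exists_upper (x y : ArtinGroup M) : ∃ z, Pre M x z ∧ Pre M y z := by
  obtain ⟨u, hu, v, hv, h⟩ := frac_right M (lat_mem_AX M (x⁻¹ * y))
  refine ⟨x * u, pre_mul_right M x hu, ?_⟩
  have e : y⁻¹ * (x * u) = (x⁻¹ * y)⁻¹ * u := by group
  have e' : (u * v⁻¹)⁻¹ * u = v := by group
  rw [Pre, e, h, e']; exact hv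

/-- A prefix-closed set which is closed under rank two joins is closed under joins below any common
upper bound.  (`directed_of_diamond` with `cov x y := ∃ s, y = x σ_s`, `μ x = (len z - len x).toNat`,
`pre_key`, `exists_lower`; note `alt s t m = s :: ..` for `m ≠ 0` and the braid relation.) -/
theorem directed_pre (Y : Set (ArtinGroup M)) (down : ∀ x y, Pre M x y → y ∈ Y → x ∈ Y)
    (r2 : ∀ x s t, s ≠ t → x * σ M s ∈ Y → x * σ M t ∈ Y → ∀ z, Pre M (x * σ M s) z →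
      Pre M (x * σ M t) z → x * wp (σ M) (alt s t (M s t)) ∈ Y)
    {y₁ y₂ z : ArtinGroup M} (h₁ : y₁ ∈ Y) (h₂ : y₂ ∈ Y) (hz₁ : Pre M y₁ z) (hz₂ : Pre M y₂ z) :
    ∃ y ∈ Y, Pre M y₁ y ∧ Pre M y₂ y ∧ Pre M y z := by
  obtain ⟨b, hb₁, hb₂⟩ := exists_lower M y₁ y₂
  refine directed_of_diamond (Pre M) (fun x y => ∃ s, y = x * σ M s)
    (fun x => (len M z - len M x).toNat) Y z (Pre.refl M) (fun _ _ _ h h' => h.trans h')
    ?_ ?_ ?_ down ?_ b y₁ y₂ hb₁ hb₂ h₁ h₂ hz₁ hz₂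
  · rintro x _ ⟨s, rfl⟩
    exact pre_mul_right M x (lat_σ_pos M s)
  · intro x y h
    rcases h.eq_or_step with h | ⟨s, hs⟩
    · exact Or.inl h
    · exact Or.inr ⟨_, ⟨s, rfl⟩, hs⟩
  · rintro x _ ⟨s, rfl⟩ h
    have h1 := h.len_le
    rw [len_mul, len_σ] at h1
    simp only [len_mul, len_σ]
    omega
  · rintro x _ _ ⟨s, rfl⟩ ⟨t, rfl⟩ hs ht hsz htz
    by_cases hst : s = t
    · subst hst
      exact ⟨_, hs, Pre.refl M _, Pre.refl M _, hsz⟩
    · obtain ⟨hm, hk⟩ := pre_key M hst hsz htz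
      refine ⟨_, r2 x s t hst hs ht z hsz htz, lat_pre_alt M x s t hm, ?_, hk⟩
      rw [braidRel_σ M s t]
      exact lat_pre_alt M x t s hm

/-- gcd: the common prefixes form a directed set of bounded length. -/
theorem exists_gcd (x y : ArtinGroup M) : ∃ m, ∀ z, Pre M z m ↔ Pre M z x ∧ Pre M z y := by
  obtain ⟨k, ⟨m, ⟨hmx, hmy⟩, rfl⟩, hmax⟩ := Int.exists_greatest_of_bdd
    (P := fun k => ∃ m, (Pre M m x ∧ Pre M m y) ∧ len M m = k)
    ⟨len M x, by rintro _ ⟨m, hm, rfl⟩; exact hm.1.len_le⟩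
    (by obtain ⟨b, hb⟩ := exists_lower M x y; exact ⟨_, b, hb, rfl⟩)
  refine ⟨m, fun z => ⟨fun h => ⟨h.trans hmx, h.trans hmy⟩, fun h => ?_⟩⟩
  obtain ⟨w, hwy, hzw, hmw, hwx⟩ := directed_pre M {w | Pre M w y}
    (fun _ _ h h' => Pre.trans h h')
    (fun a s t hst hs ht _ _ _ => (pre_key M hst hs ht).2) h.2 hmy h.1 hmx
  rw [hmw.eq_of_len (hmax _ ⟨w, ⟨hwx, hwy⟩, rfl⟩)]
  exact hzw

/-- lcm: the common upper bounds are closed under gcd; take one of minimal length. -/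
theorem exists_lcm (x y : ArtinGroup M) : ∃ m, ∀ z, Pre M m z ↔ Pre M x z ∧ Pre M y z := by
  obtain ⟨k, ⟨m, ⟨hmx, hmy⟩, rfl⟩, hmin⟩ := Int.exists_least_of_bdd
    (P := fun k => ∃ m, (Pre M x m ∧ Pre M y m) ∧ len M m = k)
    ⟨len M x, by rintro _ ⟨m, hm, rfl⟩; exact hm.1.len_le⟩
    (by obtain ⟨b, hb⟩ := exists_upper M x y; exact ⟨_, b, hb, rfl⟩)
  refine ⟨m, fun z => ⟨fun h => ⟨hmx.trans h, hmy.trans h⟩, fun h => ?_⟩⟩
  obtain ⟨g, hg⟩ := exists_gcd M m z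
  obtain ⟨hgm, hgz⟩ := (hg g).1 (Pre.refl M g)
  rw [← hgm.eq_of_len (hmin _ ⟨g, ⟨(hg x).2 ⟨hmx, h.1⟩, (hg y).2 ⟨hmy, h.2⟩⟩, rfl⟩)]
  exact hgz

/-- the Garside element -/
theorem exists_garside : ∃ w0 : M.Group, (∀ u, WLe M u w0) ∧
    (∀ p ∈ Pos M, ∀ r : ℕ, Pre M (q M w0 ^ r) (p * q M w0 ^ r)) ∧
    (∀ p ∈ Pos M, ∃ r : ℕ, Pre M p (q M w0 ^ r)) ∧
    ∀ g : ArtinGroup M, ∃ c : ArtinGroup M, (∀ a, Commute a c) ∧ g * c ∈ Pos M := by
  obtain ⟨w0, -, hle, hσ, -, hc⟩ := exists_delta M Set.univ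
  have h1 : ∀ p ∈ Pos M, (q M w0)⁻¹ * p * q M w0 ∈ Pos M := by
    intro p hp
    induction hp using Submonoid.closure_induction with
    | mem x hx =>
      obtain ⟨s, -, rfl⟩ := hx
      obtain ⟨s', -, hs⟩ := hσ s (Set.mem_univ s)
      rw [mul_assoc, hs, inv_mul_cancel_left]
      exact lat_σ_pos M s'
    | one => rw [mul_one, inv_mul_cancel]; exact one_mem _
    | mul a b _ _ ha hb =>
      have e : (q M w0)⁻¹ * (a * b) * q M w0
          = ((q M w0)⁻¹ * a * q M w0) * ((q M w0)⁻¹ * b * q M w0) := by group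
      rw [e]
      exact mul_mem ha hb
  have h2 : ∀ p ∈ Pos M, ∀ r : ℕ, Pre M (q M w0 ^ r) (p * q M w0 ^ r) := by
    intro p hp r
    induction r with
    | zero => rw [pow_zero, mul_one, lat_pre_one]; exact hp
    | succ r ih =>
      have e : (q M w0 ^ (r + 1))⁻¹ * (p * q M w0 ^ (r + 1))
          = (q M w0)⁻¹ * ((q M w0 ^ r)⁻¹ * (p * q M w0 ^ r)) * q M w0 := by
        rw [pow_succ]; group
      rw [Pre, e]
      exact h1 _ ih
  have h3 : ∀ p ∈ Pos M, ∃ r : ℕ, Pre M p (q M w0 ^ r) := by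
    intro p hp
    induction hp using Submonoid.closure_induction with
    | mem x hx =>
      obtain ⟨s, -, rfl⟩ := hx
      refine ⟨1, ?_⟩
      have h := pre_q_of_wle M (hle (sr M s) (lat_mem_WX M _))
      rw [show q M (sr M s) = σ M s from qq_sr M _ (braidRel_σ M) s] at h
      rw [pow_one]
      exact h
    | one => exact ⟨0, by rw [pow_zero]; exact Pre.refl M 1⟩
    | mul a b _ _ ha hb =>
      obtain ⟨r, hr⟩ := ha
      obtain ⟨k, hk⟩ := hb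
      refine ⟨r + k, ?_⟩
      have e : (a * b)⁻¹ * q M w0 ^ (r + k)
          = (b⁻¹ * q M w0 ^ k) * ((q M w0 ^ k)⁻¹ * ((a⁻¹ * q M w0 ^ r) * q M w0 ^ k)) := by
        rw [pow_add]; group
      rw [Pre, e]
      exact mul_mem hk (h2 _ hr k)
  refine ⟨w0, fun u => hle u (lat_mem_WX M u), h2, h3, fun g => ?_⟩
  obtain ⟨u, hu, v, hv, rfl⟩ := frac_right M (lat_mem_AX M g)
  obtain ⟨r, hr⟩ := h3 v hv
  refine ⟨(q M w0 ^ 2) ^ r, fun a => (hc a (lat_mem_AX M a)).pow_right r, ?_⟩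
  have e : u * v⁻¹ * (q M w0 ^ 2) ^ r = u * (v⁻¹ * q M w0 ^ r) * q M w0 ^ r := by
    rw [← pow_mul, two_mul, pow_add]
    simp only [mul_assoc]
  rw [e]
  exact mul_mem (mul_mem hu hr) (pow_mem (q_mem_pos M w0) r)

/-- A coset of `A_X` containing a positive element has a smallest one.  (For positive `ρ₁, ρ₂` in the
coset write `ρ₁⁻¹ ρ₂ = u⁻¹ v` with `u, v ∈ PosOn X`, divide by `gcd u v ∈ PosOn X`; by left invariance
`gcd ρ₁ ρ₂ = ρ₁ u⁻¹` lies in the coset.) -/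
theorem pre_of_min_len {X : Set S} {ρ : ArtinGroup M} (hρ : ρ ∈ Pos M)
    (hmin : ∀ ρ' ∈ Pos M, ρ⁻¹ * ρ' ∈ AX M X → len M ρ ≤ len M ρ') :
    ∀ ρ' ∈ Pos M, ρ⁻¹ * ρ' ∈ AX M X → ρ⁻¹ * ρ' ∈ PosOn M X := by
  intro ρ' hρ' hX
  obtain ⟨u, hu, v, hv, h⟩ := frac_left M hX
  obtain ⟨g, hg⟩ := exists_gcd M u v
  obtain ⟨hgu, hgv⟩ := (hg g).1 (Pre.refl M g)
  have hg0 : g ∈ Pos M := (lat_pre_one M g).1 ((hg 1).2
    ⟨(lat_pre_one M u).2 (posOn_le_pos M X hu), (lat_pre_one M v).2 (posOn_le_pos M X hv)⟩)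
  have hv' := posOn_of_mul M (X := X) hg0 hgv (by rw [mul_inv_cancel_left]; exact hv)
  have hb : Pre M (ρ * u⁻¹)⁻¹ g := by
    refine (hg _).2 ⟨?_, ?_⟩
    · rw [Pre, inv_inv, inv_mul_cancel_right]; exact hρ
    · rw [Pre, inv_inv, mul_assoc, ← h, mul_inv_cancel_left]; exact hρ'
  rw [Pre, inv_inv] at hb
  have hl := hmin _ hb (by
    rw [mul_assoc, inv_mul_cancel_left]
    exact mul_mem (inv_mem (mem_AX_of_posOn M hu)) (mem_AX_of_posOn M hv'.1))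
  rw [len_mul, len_mul, len_inv] at hl
  have e : g = u := hgu.eq_of_len (by omega)
  rw [h, ← e]
  exact hv'.2

end Crest.R175
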