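import Crest.Agent.R175.LocZ

/-! Row 175: the antipodal fold. -/

set_option autoImplicit false
set_option linter.unusedSectionVars false

namespace Crest.R175

open Crest.GroupTheory

namespace Setup

variable {S : Type} [Fintype S] [DecidableEq S] {M : CoxeterMatrix S} {𝒮 : Setup M} {k : ℤ}
  {δ : S → ℝ}

theorem locb_Bm_eq_zero_iff (s r : S) : Bm M s r = 0 ↔ M s r = 2 := by
  by_cases h : s = r
  · subst h
    rw [Bm_self, M.diagonal]
    norm_num
  · rw [Bm_eq_neg_cc, neg_eq_zero, cc_eq_zero_iff M h]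

open Classical in
theorem locb_wsum_single {i : 𝒮.I} {r₀ : S} (hi : 𝒮.proj i = some r₀) (t : S) :
    𝒮.wsum (fun l => if l = i then 1 else 0) t = (Pi.single r₀ (𝒮.π i) : S → ℝ) t := by
  simp only [wsum, mul_ite, mul_one, mul_zero, Finset.sum_ite_eq', Finset.mem_filter,
    Finset.mem_univ, true_and, hi, Option.some.injEq]
  by_cases h : r₀ = t
  · subst h; simp
  · simp [h, Ne.symm h]

/-- If `F` is `≤ 0` at `± B(α_s, ·)` then `B(α_s, exc) = 0`, `B(α_s, cls K) = 0` for all `K`, and by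
induction on `∑ dim K` (`PM.exists_codim_one` with `K₁ = ⊥`, `A = abv univ`, `exists_slope_pos`; note
`Bm s r ≠ 0` unless `M s r = 2`) every `K` lives above the generators commuting with `s`. -/
theorem supp_of_antipodal (hP : PosDef M) {x : ArtinGroup M} {s : S}
    (h1 : 𝒮.F k δ x (Bm M s) ≤ 0) (h2 : 𝒮.F k δ x (-Bm M s) ≤ 0) :
    Bm M s ⬝ᵥ 𝒮.exc k δ x = 0 ∧
      ∀ K : (𝒮.H x k).Sub, 𝒮.SSub K → ∀ r, M s r ≠ 2 → 𝒮.cls K r = 0 := by
  have hz : ∀ K : (𝒮.H x k).Sub, 𝒮.SSub K → Bm M s ⬝ᵥ (𝒮.exc k δ x - 𝒮.cls K) = 0 := by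
    intro K hK
    have a1 := (le_F (δ := δ) x (Bm M s) K hK).trans h1
    have a2 := (le_F (δ := δ) x (-Bm M s) K hK).trans h2
    rw [neg_dotProduct] at a2
    linarith
  have h0 : Bm M s ⬝ᵥ 𝒮.exc k δ x = 0 := by
    have a1 := (exc_le_F (𝒮 := 𝒮) (k := k) (δ := δ) x (Bm M s)).trans h1
    have a2 := (exc_le_F (𝒮 := 𝒮) (k := k) (δ := δ) x (-Bm M s)).trans h2
    rw [neg_dotProduct] at a2
    linarith
  have hc : ∀ K : (𝒮.H x k).Sub, 𝒮.SSub K → Bm M s ⬝ᵥ 𝒮.cls K = 0 := by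
    intro K hK
    have := hz K hK
    rw [dotProduct_sub, h0] at this
    linarith
  refine ⟨h0, ?_⟩
  suffices H : ∀ n : ℕ, ∀ K : (𝒮.H x k).Sub, ∑ l, K.dim l = n → 𝒮.SSub K →
      ∀ r, M s r ≠ 2 → 𝒮.cls K r = 0 from fun K => H _ K rfl
  intro n
  induction n using Nat.strong_induction_on with
  | _ n ih =>
    intro K hn hK r hr
    by_cases hne : ∃ l, (PM.botSub (𝒮.H x k)).dim l ≠ K.dim l
    · obtain ⟨K', i, ⟨r₀, -, hi⟩, -, -, hd, hd'⟩ := PM.exists_codim_one (𝒮.abv Set.univ)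
        (fun e e0 e1 e2 => 𝒮.exists_slope_pos hP e e0 e1 e2) (PM.botSub _) K (fun l => bot_le)
        (fun l hl => by
          rw [PM.botSub_dim, hK l]
          cases hp : 𝒮.proj l with
          | none => rfl
          | some r => exact absurd ⟨r, trivial, hp⟩ hl) hne
      have hK' : 𝒮.SSub K' := by
        intro l hl
        have : l ≠ i := by rintro rfl; rw [hi] at hl; cases hl
        rw [hd' l this, hK l hl]
      have hlt : ∑ l, K'.dim l < n := by
        rw [← hn]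
        refine Finset.sum_lt_sum (fun l _ => ?_) ⟨i, Finset.mem_univ _, by omega⟩
        by_cases hl : l = i
        · subst hl; omega
        · exact (hd' l hl).le
      have hcls : 𝒮.cls K = 𝒮.cls K' + Pi.single r₀ (𝒮.π i) := by
        funext t
        rw [Pi.add_apply, ← locb_wsum_single hi t, cls, cls, ← wsum_add]
        refine 𝒮.wsum_congr fun l _ => ?_
        by_cases hl : l = i
        · subst hl; simp [← hd]
        · simp [hl, hd' l hl]
      have hB : Bm M s r₀ = 0 := by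
        have e := hc K hK
        rw [hcls, dotProduct_add, hc K' hK', dotProduct_single, zero_add] at e
        exact (mul_eq_zero.1 e).resolve_right (𝒮.π_pos i).ne'
      have hr0 : r ≠ r₀ := by
        rintro rfl
        exact hr ((locb_Bm_eq_zero_iff s r).1 hB)
      rw [hcls, Pi.add_apply, ih _ hlt K' rfl hK' r hr, Pi.single_eq_of_ne hr0, add_zero]
    · push Not at hne
      have : ∀ l, K.dim l = 0 := fun l => by rw [← hne l, PM.botSub_dim]
      simp [cls, wsum, this]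

/-- no socle (`PM.exists_sub_of_not_injective`), no top, and the weighted sum of the slopes, each
`≤ 0` (`PM.two_dim_le`), is `B(α_s, exc) = 0` (`wsum_nb`, `harm`). -/
theorem perp_of_antipodal (hL : 𝒮.Loc k δ) {x : ArtinGroup M} {s : S}
    (h1 : 𝒮.F k δ x (Bm M s) ≤ 0) (h2 : 𝒮.F k δ x (-Bm M s) ≤ 0) (hY : 𝒮.InY k (x * σ M s)) :
    ∀ i ∈ 𝒮.fib s, (𝒮.H x k).Perp i := by
  classical
  obtain ⟨h0, hK⟩ := supp_of_antipodal hL.pd h1 h2
  have hinj : ∀ i ∈ 𝒮.fib s, Function.Injective ((𝒮.H x k).α i) := by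
    intro i hi
    by_contra hn
    obtain ⟨K, hK1, hK0⟩ := PM.exists_sub_of_not_injective _ hn
    have hi' : 𝒮.proj i = some s := hi
    have hS : 𝒮.SSub K := by
      intro l hl
      refine hK0 l ?_
      rintro rfl; rw [hi'] at hl; cases hl
    have e := hK K hS s (by rw [M.diagonal]; norm_num)
    have e2 : 𝒮.cls K s = 𝒮.π i := by
      have := locb_wsum_single hi' s
      rw [Pi.single_eq_same] at this
      rw [← this, cls]
      refine 𝒮.wsum_congr fun l _ => ?_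
      by_cases hl : l = i
      · subst hl; simp [hK1]
      · simp [hl, hK0 l hl]
    exact (𝒮.π_pos i).ne' (e2.symm.trans e)
  have htop := hY.noTop
  have hle : ∀ i ∈ 𝒮.fib s, (0 : ℝ) ≤
      (∑ l : Nb 𝒮.Γ i, ((𝒮.H x k).dim l.1 : ℝ)) - 2 * ((𝒮.H x k).dim i : ℝ) := by
    intro i hi
    have := PM.two_dim_le _ (hinj i hi) (htop i hi)
    have h' : ((2 * (𝒮.H x k).dim i : ℕ) : ℝ) ≤ ((∑ l : Nb 𝒮.Γ i, (𝒮.H x k).dim l.1 : ℕ) : ℝ) :=
      Nat.cast_le.2 this
    push_cast at h'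
    linarith
  have hsum : 𝒮.wsum (fun i => (∑ l : Nb 𝒮.Γ i, ((𝒮.H x k).dim l.1 : ℝ)) -
      2 * ((𝒮.H x k).dim i : ℝ)) s = 0 := by
    rw [wsum_sub, wsum_smul, wsum_nb 𝒮 (fun i => ((𝒮.H x k).dim i : ℝ)) s]
    have e1 : Bm M s ⬝ᵥ 𝒮.exc k δ x = Bf M (al s) (fun t => 𝒮.dimS x k t) - Bf M (al s) δ := by
      rw [Bf_al_left, Bf_al_left, ← Finset.sum_sub_distrib]
      refine Finset.sum_congr rfl fun t _ => ?_
      simp only [exc]; ring
    rw [h0, hL.harm, Bf_al_left', ← 𝒮.inp_eq x] at e1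
    change 𝒮.inp x k s + ∑ t ∈ Finset.univ.erase s, cc M s t * 𝒮.dimS x k t -
      2 * 𝒮.dimS x k s = 0
    linarith
  intro i hi
  refine ⟨hinj i hi, htop i hi, ?_⟩
  have := (𝒮.wsum_eq_zero_iff hle).1 hsum i hi
  have h' : ((2 * (𝒮.H x k).dim i : ℕ) : ℝ) = ((∑ l : Nb 𝒮.Γ i, (𝒮.H x k).dim l.1 : ℕ) : ℝ) := by
    push_cast
    linarith
  exact_mod_cast h'

theorem F_eq_zero_of_antipodal (hP : PosDef M) {x : ArtinGroup M} {s : S}
    (h1 : 𝒮.F k δ x (Bm M s) ≤ 0) (h2 : 𝒮.F k δ x (-Bm M s) ≤ 0) (h0 : ∀ lam, 0 ≤ 𝒮.F k δ x lam)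
    {lam : S → ℝ} (hl : ∀ r, M s r = 2 → lam r = 0) : 𝒮.F k δ x lam = 0 := by
  obtain ⟨-, hK⟩ := supp_of_antipodal hP h1 h2
  have key : ∀ mu : S → ℝ, (∀ r, M s r = 2 → mu r = 0) →
      𝒮.F k δ x mu = mu ⬝ᵥ 𝒮.exc k δ x := by
    intro mu hmu
    obtain ⟨K, hS, e⟩ := exists_F_eq (𝒮 := 𝒮) (k := k) (δ := δ) x mu
    have : mu ⬝ᵥ 𝒮.cls K = 0 := by
      refine Finset.sum_eq_zero fun r _ => ?_
      by_cases hr : M s r = 2
      · rw [hmu r hr, zero_mul]
      · rw [hK K hS r hr, mul_zero]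
    rw [e, dotProduct_sub, this, sub_zero]
  have a1 := h0 lam
  have a2 := h0 (-lam)
  rw [key (-lam) (fun r hr => by simp [hl r hr]), neg_dotProduct, ← key lam hl] at a2
  linarith

/-- sliding through `g` -/
theorem slide_AX {g : ArtinGroup M} {T T' : Set S}
    (h : ∀ t ∈ T, ∃ r ∈ T', σ M t * g = g * σ M r) :
    (∀ a ∈ AX M T, ∃ a' ∈ AX M T', a * g = g * a') ∧
      ∀ a ∈ PosOn M T, ∃ a' ∈ PosOn M T', a * g = g * a' := by
  constructor
  · intro a ha
    induction ha using Subgroup.closure_induction with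
    | mem y hy =>
      obtain ⟨t, ht, rfl⟩ := hy
      obtain ⟨r, hr, e⟩ := h t ht
      exact ⟨σ M r, σ_mem M hr, e⟩
    | one => exact ⟨1, (AX M T').one_mem, by simp⟩
    | mul y z _ _ hy hz =>
      obtain ⟨y', hy', e⟩ := hy
      obtain ⟨z', hz', e'⟩ := hz
      exact ⟨y' * z', (AX M T').mul_mem hy' hz', by rw [mul_assoc, e', ← mul_assoc, e, mul_assoc]⟩
    | inv y _ hy =>
      obtain ⟨y', hy', e⟩ := hy
      refine ⟨y'⁻¹, (AX M T').inv_mem hy', ?_⟩
      rw [inv_mul_eq_iff_eq_mul, ← mul_assoc, e, mul_inv_cancel_right]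
  · intro a ha
    induction ha using Submonoid.closure_induction with
    | mem y hy =>
      obtain ⟨t, ht, rfl⟩ := hy
      obtain ⟨r, hr, e⟩ := h t ht
      exact ⟨σ M r, Submonoid.subset_closure ⟨r, hr, rfl⟩, e⟩
    | one => exact ⟨1, (PosOn M T').one_mem, by simp⟩
    | mul y z _ _ hy hz =>
      obtain ⟨y', hy', e⟩ := hy
      obtain ⟨z', hz', e'⟩ := hz
      exact ⟨y' * z', (PosOn M T').mul_mem hy' hz',
        by rw [mul_assoc, e', ← mul_assoc, e, mul_assoc]⟩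

/-- if `x q w` and `x a` have no high layers then neither has `x a q w`: write `a = u⁻¹ v`
(`frac_left`), `x u⁻¹ q w ≼ x q w`, and climb along a word of `v` with `InY.square`. -/
theorem InY.mul_mul_q (hL : 𝒮.Loc k δ) {x : ArtinGroup M} {w : M.Group} {T : Set S}
    (hT : ∀ t ∈ T, ℓ M w < ℓ M (sr M t * w) ∧ ∃ r, σ M t * q M w = q M w * σ M r)
    (hx : 𝒮.InY k (x * q M w)) {a : ArtinGroup M} (ha : a ∈ AX M T) (hxa : 𝒮.InY k (x * a)) :
    𝒮.InY k (x * a * q M w) := by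
  have := finite_of_posDef M hL.pd
  obtain ⟨u, hu, v, hv, rfl⟩ := frac_left M ha
  obtain ⟨l, hl, rfl⟩ := (mem_posOn_iff M T v).1 hv
  have h1 : 𝒮.InY k (x * u⁻¹ * q M w) := by
    obtain ⟨u', hu', e⟩ := (slide_AX (g := q M w) (T := T) (T' := Set.univ)
      (fun t ht => by obtain ⟨r, hr⟩ := (hT t ht).2; exact ⟨r, trivial, hr⟩)).2 u hu
    refine hx.of_pre hL.inp_zero ?_
    have : (x * u⁻¹ * q M w)⁻¹ * (x * q M w) = u' := by
      have e2 : (x * u⁻¹ * q M w)⁻¹ * (x * q M w) = (q M w)⁻¹ * (u * q M w) := by group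
      rw [e2, e, inv_mul_cancel_left]
    change _ ∈ Pos M
    rw [this]; exact hu'
  have key : ∀ l : List S, (∀ s ∈ l, s ∈ T) → ∀ y, 𝒮.InY k (y * q M w) →
      𝒮.InY k (y * wp (σ M) l) → 𝒮.InY k (y * wp (σ M) l * q M w) := by
    intro l
    induction l with
    | nil => intro _ y hy _; simpa using hy
    | cons t l ih =>
      intro hl y hy hy'
      rw [wp_cons, ← mul_assoc] at hy' ⊢
      have ht := hT t (hl t List.mem_cons_self)
      obtain ⟨r, hr⟩ := ht.2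
      have h2 : 𝒮.InY k (y * σ M t) := hy'.of_pre hL.inp_zero (pre_mul_right M _
        ((mem_posOn_iff M Set.univ _).2 ⟨l, fun _ _ => trivial, rfl⟩))
      exact ih (fun s hs => hl s (List.mem_cons_of_mem _ hs)) _ (InY.square hL ht.1 hr h2 hy) hy'
  rw [← mul_assoc] at hxa ⊢
  exact key l hl _ h1 hxa

/-- Stability of `h̃ = h q w' σ_s (q w')⁻¹` along `T`.  If `h̃ a` is negative at `t' ∈ T`, lower it in
`A_{T ∖ t'}` to `z = h̃ a'`; `z q w' = x₀ a♭ = (h a' q w') σ_s` has no high layers, is perpendicular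
above `s` (`perp_mul_of_AX`), so `Step1.iso_of_perp`, `F_congr`, `F_apt` give
`exc z t' = exc (h a') t'`. -/
theorem stable_of_perp (hL : 𝒮.Loc k δ) {h : ArtinGroup M} {w' : M.Group} {s : S} {T : Set S}
    (hT : ∀ t ∈ T, ℓ M w' < ℓ M (sr M t * w') ∧ ∃ r, M s r = 2 ∧ σ M t * q M w' = q M w' * σ M r)
    (hY : 𝒮.InY k (h * q M w' * σ M s))
    (hp : ∀ i ∈ 𝒮.fib s, (𝒮.H (h * q M w' * σ M s) k).Perp i)
    (ht : ∀ r, r ∉ T → 𝒮.Tight k δ (h * q M w' * σ M s * (q M w')⁻¹) r)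
    (hs : 𝒮.Stable k δ h T) : 𝒮.Stable k δ (h * q M w' * σ M s * (q M w')⁻¹) T := by
  set g := h * q M w' * σ M s * (q M w')⁻¹ with hg
  rintro a ha ⟨t', hn⟩
  have ht' : t' ∈ T := by
    by_contra hc
    exact hn.2.ne ((ht t' hc).mul hc ha).2
  obtain ⟨a₂, ha₂, hz⟩ := lower hL (T := T \ {t'}) (x := g * a) (by
    intro r hr
    by_cases hrT : r ∈ T
    · have : r = t' := by
        by_contra hc
        exact hr ⟨hrT, hc⟩
      rw [this]; exact hn.1
    · exact ((ht r hrT).mul hrT ha).1)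
  have hn2 : 𝒮.NegAt k δ (g * a * a₂) t' := hn.mul (by simp) ha₂
  have ha' : a * a₂ ∈ AX M T := (AX M T).mul_mem ha (AX_mono M Set.sdiff_subset ha₂)
  rw [mul_assoc] at hz hn2
  set a' := a * a₂
  have hgq : g * q M w' = h * q M w' * σ M s := by rw [hg]; group
  have hzq : 𝒮.InY k (g * a' * q M w') :=
    InY.mul_mul_q hL (fun t ht => ⟨(hT t ht).1, by
      obtain ⟨r, -, hr⟩ := (hT t ht).2; exact ⟨r, hr⟩⟩) (hgq ▸ hY) ha' hz
  obtain ⟨b, hb, eb⟩ := (slide_AX (g := q M w') (T := T) (T' := {r | M s r = 2})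
    (fun t ht => (hT t ht).2)).1 a' ha'
  have hcm : Commute (σ M s) b := commute_of_AX M (X := {s})
    (fun r hr t ht => by rw [Set.mem_singleton_iff.1 hr]; exact ht) (σ_mem M rfl) hb
  have e1 : g * a' * q M w' = h * q M w' * σ M s * b := by
    rw [mul_assoc g, eb, ← mul_assoc, hgq]
  have e2 : g * a' * q M w' = h * a' * q M w' * σ M s := by
    rw [e1, mul_assoc _ (σ M s), hcm.eq, mul_assoc h a', eb]; group
  have hY2 : 𝒮.InY k (h * a' * q M w' * σ M s) := e2 ▸ hzq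
  have hiso : PM.Iso (𝒮.H (h * a' * q M w') k) (𝒮.H (h * a' * q M w' * σ M s) k) := by
    refine ((𝒮.step (h * a' * q M w') s).1 k).iso_of_perp (𝒮.nadj s) hY2.noTop fun i hi => ?_
    rw [← e2, e1]
    exact (𝒮.perp_mul_of_AX hb _ k hi).2 (hp i hi)
  have hY3 : 𝒮.InY k (h * a' * q M w') := hY2.of_mul_σ hL.inp_zero
  have hal : (0 : S → ℝ) ≤ al t' := Pi.single_nonneg.2 zero_le_one
  have f1 := F_apt hL hzq w'⁻¹ hal
  have f2 := F_apt hL hY3 w'⁻¹ hal
  rw [apt_inv] at f1 f2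
  rw [e2, ← F_congr hiso, f2] at f1
  simp only [al, single_dotProduct, one_mul, exc] at f1
  refine hs a' ha' ⟨t', hY3.of_pre hL.inp_zero (pre_mul_right M _ (q_mem_pos M w')) t', ?_⟩
  have := hn2.2
  linarith

/-- **Antipodal fold.**  `c > 0` by `coord_pos`.  For `M s r = 2` the root `w' α_r` has vanishing
`t`-coordinate, so `LRed.deodhar` gives `t' ≠ t` with `w' α_r = α_{t'}`, `w' r = t' w'`.  Let `T` be
the set of these `t'`.  For `t'' ∉ T` the covector `rhoD w'⁻¹ (al t'')` vanishes on `{r | M s r = 2}`,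
so `h̃` is tight at `t''`.  Then `stable_of_perp` and `Rel` with `T₀ = T`. -/
theorem FoldData.stable_of_eq (hL : 𝒮.Loc k δ) (hR : 𝒮.Rel k δ) {h : ArtinGroup M} {t s : S}
    {w' : M.Group} (d : 𝒮.FoldData k δ h t w' s) {c : ℝ}
    (he : rhoD M w'⁻¹ (al t) = c • Bm M s) :
    𝒮.Stable k δ (h * q M w' * σ M s * (q M w')⁻¹) {r | r ≠ t} := by
  obtain ⟨f0, f1, f2, f3, -⟩ := d.facts hL
  have hc : 0 < c := by
    have := coord_pos d.lt d.red
    rw [he, Pi.smul_apply, Bm_self, smul_eq_mul] at this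
    linarith
  have g1 : 𝒮.F k δ (h * q M w' * σ M s) (Bm M s) ≤ 0 := by
    rw [he, F_smul _ hc.le] at f1
    exact ((mul_eq_zero.1 f1).resolve_left hc.ne').le
  have g2 : 𝒮.F k δ (h * q M w' * σ M s) (-Bm M s) ≤ 0 := by
    have : rhoD M (sr M s) (c • Bm M s) = c • (-Bm M s) := by
      funext r
      rw [rhoD_sr]
      simp only [Pi.smul_apply, Pi.neg_apply, smul_eq_mul, Bm_self]
      ring
    rw [he, this, F_smul _ hc.le] at f2
    exact ((mul_eq_zero.1 f2).resolve_left hc.ne').le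
  have hred : LRed M {r | r ≠ t} w' := by
    refine d.red.of_wle ((wle_mul_iff M _ _).2 ?_)
    have h1 := (cs M).length_mul_simple w' s
    have h2 := d.lt
    have h3 : ℓ M (sr M s) = 1 := (cs M).length_simple s
    simp only [ℓ, sr] at h1 h2 h3 ⊢
    omega
  have hco : ∀ r t'', rhoD M w'⁻¹ (al t'') r = rho M w' (al r) t'' := by
    intro r t''
    simp [rhoD, al]
  set T : Set S := {t' | t' ≠ t ∧ ∃ r, M s r = 2 ∧ rho M w' (al r) = al t' ∧
    w' * sr M r = sr M t' * w' ∧ ℓ M w' < ℓ M (w' * sr M r)} with hTdef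
  have hT : ∀ r, M s r = 2 → ∃ t' ∈ T, rho M w' (al r) = al t' := by
    intro r hr
    obtain ⟨t', ht', e1, e2, e3⟩ := hred.deodhar (r := r) (by
      intro t'' ht''
      have : t'' = t := by simpa using ht''
      rw [this, ← hco, he, Pi.smul_apply, (locb_Bm_eq_zero_iff s r).2 hr, smul_zero])
    exact ⟨t', ⟨ht', r, hr, e1, e2, e3⟩, e1⟩
  have hY : 𝒮.InY k (h * q M w' * σ M s) := d.inY.of_mul_σ hL.inp_zero
  have htight : ∀ r, r ∉ T → 𝒮.Tight k δ (h * q M w' * σ M s * (q M w')⁻¹) r := by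
    intro t'' ht''
    refine ⟨f3 t'', ?_⟩
    have hal : (0 : S → ℝ) ≤ al t'' := Pi.single_nonneg.2 zero_le_one
    have e := F_apt hL hY w'⁻¹ hal
    rw [F_eq_zero_of_antipodal hL.pd g1 g2 f0 (by
      intro r hr
      obtain ⟨t', ht', e'⟩ := hT r hr
      have : t'' ≠ t' := fun e => ht'' (e ▸ ht')
      rw [hco, e', al, Pi.single_eq_of_ne this])] at e
    have e3 : apt (h * q M w' * σ M s) w'⁻¹ = h * q M w' * σ M s * (q M w')⁻¹ := by
      simp [apt]
    rw [e3] at e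
    simp only [al, single_dotProduct, one_mul, exc] at e
    linarith
  have hsub : T ⊆ {r | r ≠ t} := fun r hr => hr.1
  refine hR T _ _ (fun e => ?_) hsub htight (stable_of_perp hL ?_ hY
    (perp_of_antipodal hL g1 g2 d.inY) htight (d.stable.mono hsub))
  · have : t ∈ {r | r ≠ t} := e ▸ Set.mem_univ t
    exact this rfl
  · rintro t' ⟨-, r, hr, -, e2, e3⟩
    have e4 : ℓ M w' < ℓ M (sr M t' * w') := e2 ▸ e3
    exact ⟨e4, r, hr, by rw [← q_sr_mul M e4, ← e2, q_mul_sr M e3]⟩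

end Setup

end Crest.R175
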