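import Crest.Agent.R175.SetupB
import Crest.Agent.R175.Fin
import Crest.Agent.R175.Lat

/-! Row 175: definitions for the local lemmas (positive definite `S`, one level `k`). -/

set_option autoImplicit false
set_option linter.unusedSectionVars false

namespace Crest.R175

open Crest.GroupTheory

namespace Setup

variable {S : Type} [Fintype S] [DecidableEq S] {M : CoxeterMatrix S} (𝒮 : Setup M)

/-- the local situation: positive definite form, no frozen input above level `k`, `δ` harmonic -/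
structure Loc (k : ℤ) (δ : S → ℝ) : Prop where
  pd : PosDef M
  inp_zero : ∀ j, k < j → ∀ s, 𝒮.inp 1 j s = 0
  harm : ∀ s, Bf M (al s) δ = 𝒮.inp 1 k s

/-- no layer above `k` over `s` -/
def NoHi (k : ℤ) (x : ArtinGroup M) (s : S) : Prop := ∀ j, k < j → 𝒮.dimS x j s = 0

/-- no layer above `k` -/
def InY (k : ℤ) (x : ArtinGroup M) : Prop := ∀ s, 𝒮.NoHi k x s

/-- the vertex of type `s` of the chamber `x` is negative -/
def NegAt (k : ℤ) (δ : S → ℝ) (x : ArtinGroup M) (s : S) : Prop :=
  𝒮.NoHi k x s ∧ 𝒮.dimS x k s < δ s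

/-- the chamber `x` has a negative vertex -/
def Neg (k : ℤ) (δ : S → ℝ) (x : ArtinGroup M) : Prop := ∃ s, 𝒮.NegAt k δ x s

/-- the vertex of type `s` of the chamber `x` is tight -/
def Tight (k : ℤ) (δ : S → ℝ) (x : ArtinGroup M) (s : S) : Prop :=
  𝒮.NoHi k x s ∧ 𝒮.dimS x k s = δ s

/-- no negative chamber in the coset `x A_T` -/
def Stable (k : ℤ) (δ : S → ℝ) (x : ArtinGroup M) (T : Set S) : Prop :=
  ∀ a ∈ AX M T, ¬ 𝒮.Neg k δ (x * a)

/-- the excess vector `D - δ` -/
noncomputable def exc (k : ℤ) (δ : S → ℝ) (x : ArtinGroup M) : S → ℝ := fun s => 𝒮.dimS x k s - δ s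

/-- a submodule with nothing at the frozen vertices -/
def SSub {Z : PM 𝒮.Γ} (K : Z.Sub) : Prop := ∀ l, 𝒮.proj l = none → K.dim l = 0

/-- the folded class of a submodule -/
noncomputable def cls {Z : PM 𝒮.Γ} (K : Z.Sub) : S → ℝ := 𝒮.wsum fun i => (K.dim i : ℝ)

/-- the convex function on covectors attached to the chamber `x` -/
noncomputable def F (k : ℤ) (δ : S → ℝ) (x : ArtinGroup M) (lam : S → ℝ) : ℝ :=
  sSup {r | ∃ K : (𝒮.H x k).Sub, 𝒮.SSub K ∧ r = lam ⬝ᵥ (𝒮.exc k δ x - 𝒮.cls K)}

/-- the chamber `w` of the apartment below `m` -/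
noncomputable def apt (m : ArtinGroup M) (w : M.Group) : ArtinGroup M := m * (q M w⁻¹)⁻¹

end Setup

/-- `a` and `b` are adjacent chambers along `T` -/
def Adj {S : Type*} (M : CoxeterMatrix S) (T : Set S) (a b : ArtinGroup M) : Prop :=
  ∃ s ∈ T, b = a * σ M s ∨ a = b * σ M s

/-- `x` and `y` are joined by a gallery along `T` all of whose chambers (after the first) satisfy `P` -/
def Conn {S : Type*} (M : CoxeterMatrix S) (T : Set S) (P : ArtinGroup M → Prop)
    (x y : ArtinGroup M) : Prop :=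
  Relation.ReflTransGen (fun a b => P b ∧ Adj M T a b) x y

end Crest.R175
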