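import Crest.Agent.R175.LocF1

/-! Row 175: the convex function `F` and its behaviour along edges. -/

set_option autoImplicit false
set_option linter.unusedSectionVars false

namespace Crest.R175

open Crest.GroupTheory

namespace Setup

variable {S : Type} [Fintype S] [DecidableEq S] {M : CoxeterMatrix S} {𝒮 : Setup M} {k : ℤ}
  {δ : S → ℝ}

theorem locf_E (x : ArtinGroup M) (K : (𝒮.H x k).Sub) (t : S) :
    (𝒮.exc k δ x - 𝒮.cls K) t = 𝒮.wsum K.cod t - δ t := by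
  have h := 𝒮.wsum_sub (fun i => ((𝒮.H x k).dim i : ℝ)) (fun i => (K.dim i : ℝ)) t
  have e : 𝒮.wsum K.cod t = 𝒮.wsum (fun i => ((𝒮.H x k).dim i : ℝ) - (K.dim i : ℝ)) t := rfl
  rw [e, h]
  simp only [Pi.sub_apply, exc, cls, dimS]
  ring

theorem locf_not_mem {s t : S} (hts : t ≠ s) {i : 𝒮.I} (hi : i ∈ 𝒮.fib t) :
    i ∉ {i | 𝒮.proj i = some s} := by
  intro h
  have h1 : 𝒮.proj i = some t := hi
  have h2 : 𝒮.proj i = some s := h
  exact hts (Option.some.inj (h1.symm.trans h2))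

theorem locf_none {s : S} {i : 𝒮.I} (hi : 𝒮.proj i = none) :
    i ∉ {i | 𝒮.proj i = some s} := by
  intro h
  have h2 : 𝒮.proj i = some s := h
  rw [hi] at h2
  cases h2

theorem locf_key (hL : 𝒮.Loc k δ) {x : ArtinGroup M} {s : S} (K : (𝒮.H x k).Sub)
    (K' : (𝒮.H (x * σ M s) k).Sub) (hK : 𝒮.SSub K)
    (hd : ∀ l, l ∉ {i | 𝒮.proj i = some s} → K.dim l = K'.dim l) (lam : S → ℝ) :
    rhoD M (sr M s) lam ⬝ᵥ (𝒮.exc k δ x - 𝒮.cls K) =
      lam ⬝ᵥ (𝒮.exc k δ (x * σ M s) - 𝒮.cls K') -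
        𝒮.wsum (fun i => K.cod i + K'.cod i - ∑ l : Nb 𝒮.Γ i, K.cod l.1) s * lam s := by
  have hst := (𝒮.step x s).1 k
  set E := 𝒮.exc k δ x - 𝒮.cls K with hE
  set E' := 𝒮.exc k δ (x * σ M s) - 𝒮.cls K' with hE'
  have h1 : ∀ t, t ≠ s → E' t = E t := by
    intro t hts
    rw [hE, hE', locf_E, locf_E]
    congr 1
    refine 𝒮.wsum_congr fun i hi => ?_
    have hi' := locf_not_mem hts hi
    simp only [PM.Sub.cod, hd i hi', hst.dim_eq hi']
  have h2 : 𝒮.finp K.cod s = Bf M (al s) δ := by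
    rw [hL.harm, ← 𝒮.inp_eq x]
    refine 𝒮.finp_congr (fun l hl => ?_) s
    simp [PM.Sub.cod, hK l hl]
  have h3 : 𝒮.wsum (fun i => K.cod i + K'.cod i - ∑ l : Nb 𝒮.Γ i, K.cod l.1) s =
      E' s - E s + Bf M (al s) E := by
    rw [𝒮.wsum_sub, 𝒮.wsum_add, 𝒮.wsum_nb, h2, Bf_al_left', Bf_al_left']
    have e1 : ∑ t ∈ Finset.univ.erase s, cc M s t * E t =
        ∑ t ∈ Finset.univ.erase s, cc M s t * 𝒮.wsum K.cod t -
          ∑ t ∈ Finset.univ.erase s, cc M s t * δ t := by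
      rw [← Finset.sum_sub_distrib]
      refine Finset.sum_congr rfl fun t _ => ?_
      rw [hE, locf_E]
      ring
    have e2 : E s = 𝒮.wsum K.cod s - δ s := locf_E x K s
    have e3 : E' s = 𝒮.wsum K'.cod s - δ s := locf_E _ K' s
    rw [e1, e2, e3]
    ring
  have h4 : E' = E + (E' s - E s) • al s := by
    funext t
    by_cases hts : t = s
    · subst hts
      simp [al]
    · simp [al, hts, h1 t hts]
  have h5 : lam ⬝ᵥ al s = lam s := by simp [al]
  have h6 : lam ⬝ᵥ E' = lam ⬝ᵥ E + (E' s - E s) * lam s := by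
    conv_lhs => rw [h4]
    rw [dotProduct_add, dotProduct_smul, h5, smul_eq_mul]
  rw [h3, h6, rhoD_dot, (cs M).inv_simple, rho_sr, dotProduct_sub, dotProduct_smul, h5,
    smul_eq_mul]
  ring

/-- **Invariance along an edge.**  For `K, K'` related as in `Step1.pull` / `Step1.push` put
`E = exc x - cls K = wsum (cod K) - δ`, `E'` likewise.  `E t = E' t` for `t ≠ s`, and by `wsum_nb`,
`harm` (`finp (cod K) = inp`): `E s + E' s - ∑ c E t = n` with `n ≥ 0` resp. `n ≤ 0`.  Then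
`rhoD s lam ⬝ᵥ E = lam ⬝ᵥ E' - n * lam s`. -/
theorem F_step (hL : 𝒮.Loc k δ) {x : ArtinGroup M} {s : S} (h : 𝒮.InY k (x * σ M s))
    {lam : S → ℝ} (hs : lam s ≤ 0) :
    𝒮.F k δ (x * σ M s) lam = 𝒮.F k δ x (rhoD M (sr M s) lam) := by
  have hst := (𝒮.step x s).1 k
  have hnt := h.noTop
  apply le_antisymm
  · obtain ⟨K', hK', e⟩ := exists_F_eq (𝒮 := 𝒮) (k := k) (δ := δ) (x * σ M s) lam
    obtain ⟨K, h1, h2⟩ := hst.pull (𝒮.nadj s) hnt K'
    have hK : 𝒮.SSub K := fun l hl => by rw [h1 l (locf_none hl), hK' l hl]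
    have h3 := le_F (δ := δ) x (rhoD M (sr M s) lam) K hK
    rw [locf_key hL K K' hK h1] at h3
    have h4 : 0 ≤ 𝒮.wsum (fun i => K.cod i + K'.cod i - ∑ l : Nb 𝒮.Γ i, K.cod l.1) s := by
      have := 𝒮.wsum_mono (f := fun i => 0 * K.cod i) (s := s)
        (g := fun i => K.cod i + K'.cod i - ∑ l : Nb 𝒮.Γ i, K.cod l.1)
        (fun i hi => by have := h2 i hi; linarith)
      rwa [𝒮.wsum_smul, zero_mul] at this
    rw [e]
    nlinarith [mul_nonpos_of_nonneg_of_nonpos h4 hs]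
  · obtain ⟨K, hK, e⟩ := exists_F_eq (𝒮 := 𝒮) (k := k) (δ := δ) x (rhoD M (sr M s) lam)
    obtain ⟨K', h1, h2⟩ := hst.push (𝒮.nadj s) hnt K
    have hK' : 𝒮.SSub K' := fun l hl => by rw [← h1 l (locf_none hl), hK l hl]
    have h3 := le_F (δ := δ) (x * σ M s) lam K' hK'
    have h4 : 𝒮.wsum (fun i => K.cod i + K'.cod i - ∑ l : Nb 𝒮.Γ i, K.cod l.1) s ≤ 0 := by
      have := 𝒮.wsum_mono (g := fun i => 0 * K.cod i) (s := s)
        (f := fun i => K.cod i + K'.cod i - ∑ l : Nb 𝒮.Γ i, K.cod l.1)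
        (fun i hi => by have := h2 i hi; linarith)
      rwa [𝒮.wsum_smul, zero_mul] at this
    rw [e, locf_key hL K K' hK h1]
    nlinarith [mul_nonneg_of_nonpos_of_nonpos h4 hs]

/-- **Folding.**  `Step1.comap`; `exc x - cls K = wsum (cod K) - δ`. -/
theorem F_fold (hL : 𝒮.Loc k δ) {x : ArtinGroup M} {s : S}
    (h : 𝒮.InY k (x * σ M s * σ M s)) (lam : S → ℝ) :
    𝒮.F k δ (x * σ M s) lam ≤ 𝒮.F k δ x lam := by
  have hst := (𝒮.step x s).1 k
  obtain ⟨K', hK', e⟩ := exists_F_eq (𝒮 := 𝒮) (k := k) (δ := δ) (x * σ M s) lam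
  obtain ⟨K, h1, h2⟩ := hst.comap (𝒮.nadj s) h.noTop K'
  have hK : 𝒮.SSub K := fun l hl => by rw [h1 l (locf_none hl), hK' l hl]
  have h3 := le_F (δ := δ) x lam K hK
  have h4 : 𝒮.exc k δ (x * σ M s) - 𝒮.cls K' = 𝒮.exc k δ x - 𝒮.cls K := by
    funext t
    rw [locf_E, locf_E, funext h2]
  rw [e, h4]
  exact h3

theorem apt_one (m : ArtinGroup M) : apt m (1 : M.Group) = m := by
  rw [apt, inv_one, q_one, inv_one, mul_one]

theorem apt_pre (m : ArtinGroup M) (w : M.Group) : Pre M (apt m w) m := by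
  have := pre_mul_right M (apt m w) (q_mem_pos M w⁻¹)
  rwa [show apt m w * q M w⁻¹ = m by rw [apt]; group] at this

theorem apt_inv (h : ArtinGroup M) (w : M.Group) : apt (h * q M w) w⁻¹ = h := by
  rw [apt, inv_inv, mul_inv_cancel_right]

theorem apt_mul_sr (m : ArtinGroup M) (w : M.Group) (s : S) :
    apt m w = apt m (w * sr M s) * σ M s ∨ apt m (w * sr M s) = apt m w * σ M s := by
  have e : (w * sr M s)⁻¹ = sr M s * w⁻¹ := by rw [mul_inv_rev, (cs M).inv_simple]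
  by_cases h : ℓ M w⁻¹ < ℓ M (sr M s * w⁻¹)
  · left
    rw [apt, apt, e, q_sr_mul M h]
    group
  · right
    have e2 : sr M s * (sr M s * w⁻¹) = w⁻¹ := (cs M).simple_mul_simple_cancel_left s
    have h' : ℓ M (sr M s * w⁻¹) < ℓ M (sr M s * (sr M s * w⁻¹)) := by
      rw [e2]
      have := (cs M).length_simple_mul_ne w⁻¹ s
      simp only [ℓ, sr] at h ⊢
      omega
    have h2 := q_sr_mul M h'
    rw [e2] at h2
    rw [apt, apt, e, h2]
    group

theorem apt_mem_AX (m : ArtinGroup M) {X : Set S} {w : M.Group} (hw : w ∈ WX M X) :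
    m⁻¹ * apt m w ∈ AX M X := by
  rw [apt, inv_mul_cancel_left]
  exact inv_mem (mem_AX_of_posOn M (q_mem_posOn M (inv_mem hw)))

/-- **Apartments.**  Induction on `ℓ w`, stripping a left descent `s` of `w`
(`apt m w = apt (m σ_s⁻¹) (s w)` and `rhoD w lam s = lam ⬝ᵥ rho w⁻¹ (al s) ≤ 0`). -/
theorem F_apt (hL : 𝒮.Loc k δ) {m : ArtinGroup M} (hm : 𝒮.InY k m) (w : M.Group) {lam : S → ℝ}
    (h : 0 ≤ lam) : 𝒮.F k δ m (rhoD M w lam) = lam ⬝ᵥ 𝒮.exc k δ (apt m w) := by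
  induction hn : ℓ M w using Nat.strong_induction_on generalizing m w with
  | _ n ih =>
    by_cases hw : w = 1
    · subst hw
      rw [rhoD_one, apt_one, F_of_nonneg m h]
    · obtain ⟨s, hs⟩ := (cs M).exists_leftDescent_of_ne_one hw
      have hs' : ℓ M (sr M s * w) < ℓ M w := hs
      have e1 : (sr M s * w)⁻¹ = w⁻¹ * sr M s := by rw [mul_inv_rev, (cs M).inv_simple]
      have e2 : (sr M s * w)⁻¹ * sr M s = w⁻¹ := by
        rw [e1]; exact (cs M).simple_mul_simple_cancel_right s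
      have h1 : ℓ M (w⁻¹ * sr M s) < ℓ M w⁻¹ := by
        rw [← e1]
        simpa only [ℓ, CoxeterSystem.length_inv] using hs'
      have h2 : q M w⁻¹ = q M (sr M s * w)⁻¹ * σ M s := by
        rw [← q_mul_sr M (by rw [e2, e1]; exact h1), e2]
      have h3 : rhoD M w lam s ≤ 0 := by
        have := rho_al_nonpos M h1
        exact Finset.sum_nonpos fun t _ => mul_nonpos_of_nonneg_of_nonpos (h t) (this t)
      obtain ⟨x, rfl⟩ : ∃ x, m = x * σ M s := ⟨m * (σ M s)⁻¹, by group⟩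
      rw [F_step hL hm h3, ← rhoD_mul, ih _ (hn ▸ hs') (hm.of_mul_σ hL.inp_zero) _ rfl]
      congr 2
      rw [apt, apt, h2]
      group

end Setup

end Crest.R175
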