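import Crest.Agent.R175.LocDefs

/-! Row 175: the convex function `F` and its behaviour along edges. -/

set_option autoImplicit false
set_option linter.unusedSectionVars false

namespace Crest.R175

open Crest.GroupTheory

namespace Setup

variable {S : Type} [Fintype S] [DecidableEq S] {M : CoxeterMatrix S} {𝒮 : Setup M} {k : ℤ}
  {δ : S → ℝ}

theorem locf1_fin (x : ArtinGroup M) (lam : S → ℝ) :
    {r | ∃ K : (𝒮.H x k).Sub, 𝒮.SSub K ∧ r = lam ⬝ᵥ (𝒮.exc k δ x - 𝒮.cls K)}.Finite := by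
  refine ((Set.Finite.pi' fun i => Set.finite_Iic ((𝒮.H x k).dim i)).image
    fun d : 𝒮.I → ℕ => lam ⬝ᵥ (𝒮.exc k δ x - 𝒮.wsum fun i => (d i : ℝ))).subset ?_
  rintro _ ⟨K, -, rfl⟩
  exact ⟨K.dim, fun i => K.dim_le i, rfl⟩

theorem locf1_bot (Z : PM 𝒮.Γ) : 𝒮.SSub (PM.botSub Z) := fun l _ => PM.botSub_dim Z l

theorem locf1_cls_bot (Z : PM 𝒮.Γ) : 𝒮.cls (PM.botSub Z) = 0 := by
  funext s
  exact (𝒮.wsum_eq_zero_iff fun i _ => Nat.cast_nonneg _).2 fun i _ => by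
    rw [PM.botSub_dim, Nat.cast_zero]

/-- the supremum is over a finite nonempty set (the class only depends on the dimension vector) -/
theorem exists_F_eq (x : ArtinGroup M) (lam : S → ℝ) :
    ∃ K : (𝒮.H x k).Sub, 𝒮.SSub K ∧ 𝒮.F k δ x lam = lam ⬝ᵥ (𝒮.exc k δ x - 𝒮.cls K) := by
  refine Set.Nonempty.csSup_mem ?_ (locf1_fin (𝒮 := 𝒮) (k := k) (δ := δ) x lam)
  exact ⟨_, PM.botSub _, locf1_bot _, rfl⟩

theorem le_F (x : ArtinGroup M) (lam : S → ℝ) (K : (𝒮.H x k).Sub) (hK : 𝒮.SSub K) :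
    lam ⬝ᵥ (𝒮.exc k δ x - 𝒮.cls K) ≤ 𝒮.F k δ x lam := le_csSup (locf1_fin x lam).bddAbove ⟨K, hK, rfl⟩

theorem exc_le_F (x : ArtinGroup M) (lam : S → ℝ) : lam ⬝ᵥ 𝒮.exc k δ x ≤ 𝒮.F k δ x lam := by
  have := le_F (𝒮 := 𝒮) (k := k) (δ := δ) x lam (PM.botSub _) (locf1_bot _)
  rwa [locf1_cls_bot, sub_zero] at this

theorem F_of_nonneg (x : ArtinGroup M) {lam : S → ℝ} (h : 0 ≤ lam) :
    𝒮.F k δ x lam = lam ⬝ᵥ 𝒮.exc k δ x := by
  refine le_antisymm ?_ (exc_le_F x lam)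
  obtain ⟨K, -, e⟩ := exists_F_eq (k := k) (δ := δ) (𝒮 := 𝒮) x lam
  rw [e, dotProduct_sub, sub_le_self_iff]
  exact Finset.sum_nonneg fun s _ =>
    mul_nonneg (h s) (𝒮.wsum_nonneg (fun i => Nat.cast_nonneg _) s)

theorem F_add_le (x : ArtinGroup M) (a b : S → ℝ) :
    𝒮.F k δ x (a + b) ≤ 𝒮.F k δ x a + 𝒮.F k δ x b := by
  obtain ⟨K, hK, e⟩ := exists_F_eq (k := k) (δ := δ) (𝒮 := 𝒮) x (a + b)
  rw [e, add_dotProduct]
  exact add_le_add (le_F x a K hK) (le_F x b K hK)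

theorem F_smul (x : ArtinGroup M) {c : ℝ} (hc : 0 ≤ c) (a : S → ℝ) :
    𝒮.F k δ x (c • a) = c * 𝒮.F k δ x a := by
  refine le_antisymm ?_ ?_
  · obtain ⟨K, hK, e⟩ := exists_F_eq (k := k) (δ := δ) (𝒮 := 𝒮) x (c • a)
    rw [e, smul_dotProduct, smul_eq_mul]
    exact mul_le_mul_of_nonneg_left (le_F x a K hK) hc
  · obtain ⟨K, hK, e⟩ := exists_F_eq (k := k) (δ := δ) (𝒮 := 𝒮) x a
    have := le_F (δ := δ) x (c • a) K hK
    rwa [smul_dotProduct, smul_eq_mul, ← e] at this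

theorem locf1_le {x y : ArtinGroup M} (h : PM.Iso (𝒮.H x k) (𝒮.H y k)) (lam : S → ℝ) :
    𝒮.F k δ x lam ≤ 𝒮.F k δ y lam := by
  obtain ⟨K, hK, e⟩ := exists_F_eq (k := k) (δ := δ) (𝒮 := 𝒮) x lam
  obtain ⟨K', hK'⟩ := h.sub K
  have e1 : 𝒮.exc k δ x = 𝒮.exc k δ y := by
    funext s
    simp only [exc, dimS, h.dim_eq]
  have e2 : 𝒮.cls K = 𝒮.cls K' := by
    simp only [cls, hK']
  rw [e, e1, e2]
  exact le_F y lam K' fun l hl => (hK' l).symm.trans (hK l hl)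

theorem F_congr {x y : ArtinGroup M} (h : PM.Iso (𝒮.H x k) (𝒮.H y k)) (lam : S → ℝ) :
    𝒮.F k δ x lam = 𝒮.F k δ y lam := le_antisymm (locf1_le h lam) (locf1_le h.symm lam)

/-- in a chamber without high layers, all neighbours of a vertex over `S` vanish in high layers -/
theorem InY.dim_nb (hL : ∀ j, k < j → ∀ s, 𝒮.inp 1 j s = 0) {x : ArtinGroup M} (hx : 𝒮.InY k x)
    {s : S} {i : 𝒮.I} (hi : i ∈ 𝒮.fib s) {j : ℤ} (hj : k < j) {l : 𝒮.I} (hl : 𝒮.Γ.Adj i l) :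
    (𝒮.H x j).dim l = 0 := by
  rcases hp : 𝒮.proj l with _ | t
  · have h0 : 𝒮.inp x j s = 0 := (𝒮.inp_eq x j s).trans (hL j hj s)
    exact_mod_cast (𝒮.finp_eq_zero_iff (fun i => Nat.cast_nonneg _) s).1 h0 i hi l hp hl
  · exact (𝒮.dimS_eq_zero_iff x j t).1 (hx t j hj) l hp

theorem locf1_dimS (x : ArtinGroup M) {s t : S} (h : t ≠ s) (j : ℤ) :
    𝒮.dimS (x * σ M s) j t = 𝒮.dimS x j t :=
  𝒮.dimS_mul_of_AX (T := {s}) (σ_mem M rfl) x j h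

/-- `Step.dim_eq_zero_left` -/
theorem InY.of_mul_σ (hL : ∀ j, k < j → ∀ s, 𝒮.inp 1 j s = 0) {x : ArtinGroup M} {s : S}
    (h : 𝒮.InY k (x * σ M s)) : 𝒮.InY k x := by
  intro t j hj
  by_cases hts : t = s
  · subst hts
    refine (𝒮.dimS_eq_zero_iff x j t).2 fun i hi => ?_
    exact (𝒮.step x t).dim_eq_zero_left (𝒮.nadj t) hi
      ((𝒮.dimS_eq_zero_iff _ _ t).1 (h t (j + 1) (by omega)) i hi)
      fun l hl => h.dim_nb hL hi hj hl
  · rw [← locf1_dimS x hts]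
    exact h t j hj

theorem InY.of_pre (hL : ∀ j, k < j → ∀ s, 𝒮.inp 1 j s = 0) {x y : ArtinGroup M}
    (h : 𝒮.InY k y) (hxy : Pre M x y) : 𝒮.InY k x := by
  have key : ∀ p ∈ Pos M, ∀ z : ArtinGroup M, 𝒮.InY k (z * p) → 𝒮.InY k z := by
    intro p hp
    induction hp using Submonoid.closure_induction with
    | mem a ha =>
      obtain ⟨s, -, rfl⟩ := ha
      exact fun z hz => hz.of_mul_σ hL
    | one => exact fun z hz => by rwa [mul_one] at hz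
    | mul a b _ _ iha ihb => exact fun z hz => iha z (ihb _ (by rwa [mul_assoc]))
  exact key _ hxy x (by rwa [mul_inv_cancel_left])

theorem InY.noTop {x : ArtinGroup M} {s : S} (h : 𝒮.InY k (x * σ M s)) :
    ∀ i ∈ 𝒮.fib s, (𝒮.H x k).NoTop i := fun i hi => (𝒮.step x s).noTop hi
    ((𝒮.dimS_eq_zero_iff _ _ s).1 (h s (k + 1) (by omega)) i hi)

/-- `Step.dim_eq_zero_right` (in layers above `k` the space at `i` is zero, so there is no top) -/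
theorem InY.mul_σ (hL : ∀ j, k < j → ∀ s, 𝒮.inp 1 j s = 0) {x : ArtinGroup M} (hx : 𝒮.InY k x)
    {s : S} (h : ∀ i ∈ 𝒮.fib s, (𝒮.H x k).NoTop i) : 𝒮.InY k (x * σ M s) := by
  intro t j hj
  by_cases hts : t = s
  · subst hts
    refine (𝒮.dimS_eq_zero_iff _ j t).2 fun i hi => ?_
    obtain ⟨j, rfl⟩ : ∃ j', j = j' + 1 := ⟨j - 1, by ring⟩
    refine (𝒮.step x t).dim_eq_zero_right (𝒮.nadj t) hi ?_ fun l hl => hx.dim_nb hL hi hj hl
    rcases eq_or_lt_of_le (show k ≤ j by omega) with rfl | hkj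
    · exact h i hi
    · have h0 := (𝒮.dimS_eq_zero_iff x j t).1 (hx t j hkj) i hi
      have : Subsingleton ((𝒮.H x j).V i) := Module.finrank_zero_iff.1 h0
      exact fun v => ⟨0, Subsingleton.elim _ _⟩
  · rw [locf1_dimS x hts]
    exact hx t j hj

end Setup

end Crest.R175
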