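import Crest.Agent.R175.LocY

/-! Row 175: the Local Lemma: the negative chambers are connected. -/

set_option autoImplicit false
set_option linter.unusedSectionVars false

namespace Crest.R175

open Crest.GroupTheory

variable {S : Type} [Fintype S] [DecidableEq S] {M : CoxeterMatrix S}

theorem Adj.symm {T : Set S} {a b : ArtinGroup M} (h : Adj M T a b) : Adj M T b a := by
  obtain ⟨s, hs, h⟩ := h
  exact ⟨s, hs, h.symm⟩

theorem Conn.trans {T : Set S} {P : ArtinGroup M → Prop} {x y z : ArtinGroup M}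
    (h : Conn M T P x y) (h' : Conn M T P y z) : Conn M T P x z := by
  exact Relation.ReflTransGen.trans h h'

theorem locl_conn_end {T : Set S} {P : ArtinGroup M → Prop} {x y : ArtinGroup M} (hx : P x)
    (h : Conn M T P x y) : P y := by
  induction h with
  | refl => exact hx
  | tail _ h _ => exact h.1

theorem Conn.symm {T : Set S} {P : ArtinGroup M → Prop} {x y : ArtinGroup M} (hx : P x)
    (h : Conn M T P x y) : Conn M T P y x := by
  induction h with
  | refl => exact Relation.ReflTransGen.refl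
  | tail h1 h2 ih => exact Relation.ReflTransGen.head ⟨locl_conn_end hx h1, h2.2.symm⟩ ih

theorem Conn.mono {T T' : Set S} {P P' : ArtinGroup M → Prop} (hT : T ⊆ T') (hP : ∀ z, P z → P' z)
    {x y : ArtinGroup M} (h : Conn M T P x y) : Conn M T' P' x y := by
  induction h with
  | refl => exact Relation.ReflTransGen.refl
  | tail _ h2 ih =>
    obtain ⟨h1, s, hs, h2⟩ := h2
    exact Relation.ReflTransGen.tail ih ⟨hP _ h1, s, hT hs, h2⟩

/-- a coset on which `P` holds is connected -/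
theorem conn_of_coset {T : Set S} {P : ArtinGroup M → Prop} {x : ArtinGroup M}
    (hP : ∀ a ∈ AX M T, P (x * a)) {a : ArtinGroup M} (ha : a ∈ AX M T) : Conn M T P x (x * a) := by
  induction ha using Subgroup.closure_induction_right with
  | one => rw [mul_one]; exact Relation.ReflTransGen.refl
  | mul_right a ha y hy ih =>
    obtain ⟨s, hs, rfl⟩ := hy
    exact Relation.ReflTransGen.tail ih ⟨hP _ (mul_mem ha (σ_mem M hs)), s, hs,
      Or.inl (mul_assoc _ _ _).symm⟩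
  | mul_inv_cancel a ha y hy ih =>
    obtain ⟨s, hs, rfl⟩ := hy
    exact Relation.ReflTransGen.tail ih ⟨hP _ (mul_mem ha (inv_mem (σ_mem M hs))), s, hs,
      Or.inr (by simp [mul_assoc])⟩

namespace Setup

variable {𝒮 : Setup M} {k : ℤ} {δ : S → ℝ}

theorem NegAt.mul {x : ArtinGroup M} {s : S} (h : 𝒮.NegAt k δ x s) {T : Set S} (hs : s ∉ T)
    {a : ArtinGroup M} (ha : a ∈ AX M T) : 𝒮.NegAt k δ (x * a) s := by
  refine ⟨fun j hj => ?_, ?_⟩
  · rw [𝒮.dimS_mul_of_AX ha x j hs]; exact h.1 j hj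
  · rw [𝒮.dimS_mul_of_AX ha x k hs]; exact h.2

theorem Tight.mul {x : ArtinGroup M} {s : S} (h : 𝒮.Tight k δ x s) {T : Set S} (hs : s ∉ T)
    {a : ArtinGroup M} (ha : a ∈ AX M T) : 𝒮.Tight k δ (x * a) s := by
  refine ⟨fun j hj => ?_, ?_⟩
  · rw [𝒮.dimS_mul_of_AX ha x j hs]; exact h.1 j hj
  · rw [𝒮.dimS_mul_of_AX ha x k hs]; exact h.2

theorem locl_al_nonneg (s : S) : (0 : S → ℝ) ≤ al s := fun t => by
  simp only [al, Pi.single_apply, Pi.zero_apply]
  split_ifs <;> norm_num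

theorem locl_F_al (hL : 𝒮.Loc k δ) {m : ArtinGroup M} (hm : 𝒮.InY k m) (w : M.Group) (s : S) :
    𝒮.F k δ m (rhoD M w (al s)) = 𝒮.exc k δ (apt m w) s := by
  rw [F_apt hL hm w (locl_al_nonneg s), al, single_dotProduct, one_mul]

theorem locl_F_neg (hL : 𝒮.Loc k δ) {m : ArtinGroup M} (hm : 𝒮.InY k m) {w : M.Group} {s : S}
    (h : 𝒮.NegAt k δ (apt m w) s) : 𝒮.F k δ m (rhoD M w (al s)) < 0 := by
  rw [locl_F_al hL hm]
  exact sub_neg.2 h.2

theorem locl_rhoD_inv (w : M.Group) (lam : S → ℝ) : rhoD M w⁻¹ (rhoD M w lam) = lam := by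
  rw [← rhoD_mul, inv_mul_cancel, rhoD_one]

theorem locl_lower (hL : 𝒮.Loc k δ) {x : ArtinGroup M} (hx : 𝒮.Neg k δ x) :
    ∃ x', 𝒮.InY k x' ∧ 𝒮.Neg k δ x' ∧ Conn M Set.univ (𝒮.Neg k δ) x x' := by
  obtain ⟨s, hs⟩ := hx
  obtain ⟨a, ha, h⟩ := lower hL (T := {r | r ≠ s}) (x := x) (fun r hr => by
    have : r = s := by simpa using hr
    rw [this]; exact hs.1)
  have h1 : ∀ b ∈ AX M {r | r ≠ s}, 𝒮.Neg k δ (x * b) := fun b hb => ⟨s, hs.mul (by simp) hb⟩
  exact ⟨x * a, h, h1 a ha, (conn_of_coset h1 ha).mono (Set.subset_univ _) fun _ h => h⟩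

/-- `gallery` with `C = {lam | F m lam < 0}`; a covector of `C` in the closed chamber `u` with
vanishing `s`-coordinate gives a negative vertex of type `r ≠ s` of `apt m u`. -/
theorem conn_apt (hL : 𝒮.Loc k δ) {m : ArtinGroup M} (hm : 𝒮.InY k m) {u v : M.Group}
    (hu : 𝒮.Neg k δ (apt m u)) (hv : 𝒮.Neg k δ (apt m v)) :
    Conn M Set.univ (𝒮.Neg k δ) (apt m u) (apt m v) := by
  obtain ⟨s, hs⟩ := hu
  obtain ⟨t, ht⟩ := hv
  have hC : Convex ℝ {lam : S → ℝ | 𝒮.F k δ m lam < 0} := by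
    intro x hx y hy a b ha hb hab
    have h1 := F_add_le (𝒮 := 𝒮) (k := k) (δ := δ) m (a • x) (b • y)
    rw [F_smul m ha, F_smul m hb] at h1
    simp only [Set.mem_ofPred_eq] at hx hy ⊢
    rcases ha.eq_or_lt with rfl | ha'
    · have : b = 1 := by linarith
      subst this
      linarith
    · nlinarith [mul_nonneg hb (neg_pos.2 hy).le, mul_pos ha' (neg_pos.2 hx)]
  refine gallery M hC (fun w => Conn M Set.univ (𝒮.Neg k δ) (apt m u) (apt m w)) ?_
    (l₁ := rhoD M u (al s)) (l₂ := rhoD M v (al t)) (locl_F_neg hL hm hs) (locl_F_neg hL hm ht)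
    (by rw [locl_rhoD_inv]; exact locl_al_nonneg s) (by rw [locl_rhoD_inv]; exact locl_al_nonneg t)
    Relation.ReflTransGen.refl
  intro w r lam hlam h0 hr hw
  have h1 := F_apt hL hm w h0
  rw [← rhoD_mul, mul_inv_cancel, rhoD_one] at h1
  have h2 : rhoD M w⁻¹ lam ⬝ᵥ 𝒮.exc k δ (apt m w) < 0 := h1 ▸ hlam
  obtain ⟨r', hr'⟩ : ∃ r', rhoD M w⁻¹ lam r' * 𝒮.exc k δ (apt m w) r' < 0 := by
    by_contra hcon
    push Not at hcon
    exact absurd h2 (not_lt.2 (Finset.sum_nonneg fun i _ => hcon i))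
  have h3 : r' ≠ r := by rintro rfl; simp [hr] at hr'
  have h4 : 𝒮.exc k δ (apt m w) r' < 0 := by
    by_contra hcon
    exact absurd hr' (not_lt.2 (mul_nonneg (h0 r') (not_lt.1 hcon)))
  have h5 : 𝒮.NegAt k δ (apt m w) r' :=
    ⟨hm.of_pre hL.inp_zero (apt_pre m w) r', sub_neg.1 h4⟩
  have h6 : σ M r ∈ AX M {r} := σ_mem M rfl
  rcases apt_mul_sr m w r with h | h
  · refine Relation.ReflTransGen.tail hw ⟨⟨r', ?_⟩, r, trivial, Or.inr h⟩
    have := h5.mul (T := {r}) h3 (inv_mem h6)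
    rwa [h, mul_inv_cancel_right] at this
  · refine Relation.ReflTransGen.tail hw ⟨⟨r', ?_⟩, r, trivial, Or.inl h⟩
    rw [h]; exact h5.mul (T := {r}) h3 h6

/-- the folded chamber `h̃ = h q(w') σ_s q(w')⁻¹` has smaller excess: with `y = h q w'`,
`exc h̃ t = F (y σ_s) (rhoD w'⁻¹ (al t)) ≤ F y (rhoD w'⁻¹ (al t)) = exc h t`. -/
theorem exc_fold_le (hL : 𝒮.Loc k δ) {h : ArtinGroup M} {w' : M.Group} {s : S}
    (hY : 𝒮.InY k (h * q M w' * σ M s * σ M s)) (t : S) :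
    𝒮.exc k δ (h * q M w' * σ M s * (q M w')⁻¹) t ≤ 𝒮.exc k δ h t := by
  have h1 := hY.of_mul_σ hL.inp_zero
  have h2 := h1.of_mul_σ hL.inp_zero
  have h3 := locl_F_al hL h1 w'⁻¹ t
  have h4 := locl_F_al hL h2 w'⁻¹ t
  rw [apt_inv] at h4
  rw [apt, inv_inv] at h3
  rw [← h3, ← h4]
  exact F_fold hL hY _

/-- **Demazure folding.**  Induction on `len (h⁻¹ m)` with `simple_or_fold`; `h` and `h̃` both lie in
the apartment below `y σ_s`, and `h̃⁻¹ m = q w' σ_s p''` is shorter. -/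
theorem conn_to_apt (hL : 𝒮.Loc k δ) {m : ArtinGroup M} (hm : 𝒮.InY k m) {h : ArtinGroup M}
    (hh : Pre M h m) (hn : 𝒮.Neg k δ h) :
    ∃ w, 𝒮.Neg k δ (apt m w) ∧ Conn M Set.univ (𝒮.Neg k δ) h (apt m w) := by
  induction hn' : (len M (h⁻¹ * m)).toNat using Nat.strong_induction_on generalizing h with
  | _ n ih =>
  rcases simple_or_fold M hh with ⟨w, hw⟩ | ⟨w', s, hl, hp⟩
  · have e : apt m w⁻¹ = h := by rw [← apt_inv h w, ← hw, mul_inv_cancel_left]
    exact ⟨w⁻¹, e ▸ hn, e ▸ Relation.ReflTransGen.refl⟩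
  · have h1 : Pre M (h * q M w' * σ M s * σ M s) m := by
      have := (pre_mul_iff M h _ _).2 hp
      simpa [mul_assoc] using this
    have h2 := hm.of_pre hL.inp_zero h1
    have h3 := h2.of_mul_σ hL.inp_zero
    have e1 : apt (h * q M w' * σ M s) w'⁻¹ = h * q M w' * σ M s * (q M w')⁻¹ := by
      rw [apt, inv_inv]
    have e2 : apt (h * q M w' * σ M s) (w' * sr M s)⁻¹ = h := by
      rw [mul_assoc, ← q_mul_sr M hl, apt_inv]
    have h4 : 𝒮.Neg k δ (h * q M w' * σ M s * (q M w')⁻¹) := by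
      obtain ⟨t, ht⟩ := hn
      refine ⟨t, e1 ▸ h3.of_pre hL.inp_zero (apt_pre _ _) t, ?_⟩
      have := exc_fold_le hL h2 t
      have h5 := ht.2
      unfold exc at this
      linarith
    have h5 := conn_apt hL h3 (u := (w' * sr M s)⁻¹) (v := w'⁻¹) (e2.symm ▸ hn) (e1.symm ▸ h4)
    rw [e1, e2] at h5
    have e3 : (h * q M w' * σ M s * (q M w')⁻¹)⁻¹ * m =
        q M w' * σ M s * ((q M w' * σ M s * σ M s)⁻¹ * (h⁻¹ * m)) := by group
    have h6 : Pre M (h * q M w' * σ M s * (q M w')⁻¹) m := by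
      unfold Pre
      rw [e3]
      exact mul_mem (mul_mem (q_mem_pos M w') (Submonoid.subset_closure ⟨s, trivial, rfl⟩)) hp
    have h7 := hp.len_le
    obtain ⟨w, hw1, hw2⟩ := ih _ (by
      rw [← hn', e3]
      simp only [len_mul, len_inv, len_σ, len_q] at h7 ⊢
      omega) h6 h4 rfl
    exact ⟨w, hw1, h5.trans hw2⟩

/-- **Local Lemma.**  Lower `x` and `y` inside the stars of their negative vertices (`lower`), take a
common upper bound (`exists_upper`, `InY.directed`), then `conn_to_apt`, `conn_apt`. -/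
theorem conn_neg (hL : 𝒮.Loc k δ) {x y : ArtinGroup M} (hx : 𝒮.Neg k δ x) (hy : 𝒮.Neg k δ y) :
    Conn M Set.univ (𝒮.Neg k δ) x y := by
  have := finite_of_posDef M hL.pd
  obtain ⟨x', hx1, hx2, hx3⟩ := locl_lower hL hx
  obtain ⟨y', hy1, hy2, hy3⟩ := locl_lower hL hy
  obtain ⟨z, hz1, hz2⟩ := exists_upper M x' y'
  obtain ⟨m, hm, h1, h2, -⟩ := InY.directed hL hx1 hy1 hz1 hz2
  obtain ⟨u, hu1, hu2⟩ := conn_to_apt hL hm h1 hx2
  obtain ⟨v, hv1, hv2⟩ := conn_to_apt hL hm h2 hy2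
  exact ((hx3.trans hu2).trans (conn_apt hL hm hu1 hv1)).trans ((hy3.trans hv2).symm hy)

/-- if there is a negative chamber, every chamber without high layers has an upper bound whose
function `F` takes a negative value -/
theorem exists_F_neg (hL : 𝒮.Loc k δ) {x y : ArtinGroup M} (hx : 𝒮.InY k x) (hy : 𝒮.Neg k δ y) :
    ∃ m, 𝒮.InY k m ∧ Pre M x m ∧ ∃ lam, 𝒮.F k δ m lam < 0 := by
  have := finite_of_posDef M hL.pd
  obtain ⟨y', hy1, hy2, -⟩ := locl_lower hL hy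
  obtain ⟨z, hz1, hz2⟩ := exists_upper M x y'
  obtain ⟨m, hm, h1, h2, -⟩ := InY.directed hL hx hy1 hz1 hz2
  obtain ⟨v, ⟨s, hs⟩, -⟩ := conn_to_apt hL hm h2 hy2
  exact ⟨m, hm, h1, _, locl_F_neg hL hm hs⟩

end Setup

end Crest.R175
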