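import Crest.Agent.R175.LocB

/-! Row 175: the tie lemma. -/

set_option autoImplicit false
set_option linter.unusedSectionVars false

namespace Crest.R175

open Crest.GroupTheory

namespace Setup

variable {S : Type} [Fintype S] [DecidableEq S] {M : CoxeterMatrix S} {𝒮 : Setup M} {k : ℤ}
  {δ : S → ℝ}

/-- Induction on `len (h⁻¹ m)` (for all `h`).  If `σ_r ≼ h⁻¹ m` with `r ≠ t` replace `h` by `h σ_r`.
Otherwise `simple_or_fold`: in the simple case `zero_word`; in the fold case pass to `h̃`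
(`FoldData.facts`, `stable_of_ne`, `stable_of_eq`). -/
theorem F_nonneg_of_pre (hL : 𝒮.Loc k δ) (hR : 𝒮.Rel k δ) {m : ArtinGroup M} (hm : 𝒮.InY k m)
    {t : S} {h : ArtinGroup M} (hh : Pre M h m) (ht : 𝒮.Tight k δ h t)
    (hs : 𝒮.Stable k δ h {r | r ≠ t}) (lam : S → ℝ) : 0 ≤ 𝒮.F k δ m lam := by
  induction hn : (len M m - len M h).toNat using Nat.strong_induction_on generalizing h with
  | _ n ih =>
    have next : ∀ h', Pre M h' m → len M h' = len M h + 1 → 𝒮.Tight k δ h' t →
        𝒮.Stable k δ h' {r | r ≠ t} → 0 ≤ 𝒮.F k δ m lam := by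
      intro h' a1 a2 a3 a4
      have := a1.len_le
      exact ih _ (by omega) a1 a3 a4 rfl
    by_cases hc : ∃ r, r ≠ t ∧ Pre M (h * σ M r) m
    · obtain ⟨r, hr, hp⟩ := hc
      have hm' : σ M r ∈ AX M {r | r ≠ t} := σ_mem M hr
      exact next _ hp (by rw [len_mul, len_σ]) (ht.mul (by simp) hm') (hs.mul hm')
    have hred : ∀ w, Pre M (h * q M w) m → LRed M {r | r ≠ t} w := by
      intro w hw r hr
      by_contra hlt
      have h1 := (cs M).length_simple_mul w r
      have h2 : ℓ M (sr M r * w) < ℓ M w := by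
        simp only [ℓ, sr] at hlt ⊢
        omega
      have h3 := pre_q_of_wle M ((sr_wle_iff M r w).2 h2)
      rw [q, qq_sr M _ (braidRel_σ M)] at h3
      exact hc ⟨r, hr, ((pre_mul_iff M h _ _).2 h3).trans hw⟩
    have hY : 𝒮.InY k h := hm.of_pre hL.inp_zero hh
    rcases simple_or_fold M hh with ⟨w, hw⟩ | ⟨w', s, hlt, hp⟩
    · have e : m = h * q M w := by rw [← hw, mul_inv_cancel_left]
      subst e
      refine (zero_word hL (F_nonneg_of_stable hL hY ht hs) ?_ (hred w (Pre.refl M _)) hm).1 lam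
      rw [F_al, exc, ht.2, sub_self]
    · have hp' : Pre M (h * q M w' * σ M s * σ M s) m := by
        have := (pre_mul_iff M h _ _).2 hp
        rwa [mul_inv_cancel_left, ← mul_assoc, ← mul_assoc] at this
      have hσ : σ M s ∈ Pos M := Submonoid.subset_closure ⟨s, trivial, rfl⟩
      have d : 𝒮.FoldData k δ h t w' s := by
        refine ⟨hm.of_pre hL.inp_zero hp', hlt, hred _ ?_, ht, hs⟩
        rw [q_mul_sr M hlt, ← mul_assoc]
        exact (pre_mul_right M _ hσ).trans hp'
      refine next (h * q M w' * σ M s * (q M w')⁻¹) ?_ ?_ (d.facts hL).2.2.2.2 ?_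
      · refine Pre.trans ?_ hp'
        have := pre_mul_right M (h * q M w' * σ M s * (q M w')⁻¹)
          ((Pos M).mul_mem (q_mem_pos M w') hσ)
        rwa [← mul_assoc, inv_mul_cancel_right] at this
      · simp only [len_mul, len_inv, len_σ]; ring
      · by_cases he : ∃ c : ℝ, rhoD M w'⁻¹ (al t) = c • Bm M s
        · obtain ⟨c, he⟩ := he
          exact d.stable_of_eq hL hR he
        · exact d.stable_of_ne hL hR fun c e => he ⟨c, e⟩

/-- the vertex case: `lower`, `exists_F_neg`, `F_nonneg_of_pre` -/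
theorem not_neg_of_vertex (hL : 𝒮.Loc k δ) (hR : 𝒮.Rel k δ) {t : S} {x : ArtinGroup M}
    (ht : 𝒮.Tight k δ x t) (hs : 𝒮.Stable k δ x {r | r ≠ t}) (y : ArtinGroup M) :
    ¬ 𝒮.Neg k δ y := by
  intro hy
  obtain ⟨a, ha, hY⟩ := lower hL (T := {r | r ≠ t}) (x := x) (by
    intro s hs
    have : s = t := by simpa using hs
    exact this ▸ ht.1)
  obtain ⟨m, hm, hp, lam, hlt⟩ := exists_F_neg hL hY hy
  exact hlt.not_ge (F_nonneg_of_pre hL hR hm hp (ht.mul (by simp) ha) (hs.mul ha) lam)

/-- restriction to a sub-diagram off which `x` is tight (`restrict_inp`, `Bf_al_left'`) -/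
theorem Loc.restrict (hL : 𝒮.Loc k δ) {T : Set S} [Fintype T] {x : ArtinGroup M}
    (ht : ∀ s, s ∉ T → 𝒮.Tight k δ x s) :
    (𝒮.restrict (incl T) x).Loc k (fun t => δ t.1) := by
  classical
  have hr : ∀ s, s ∉ Set.range (incl T) → s ∉ T := fun s hs h => hs ⟨⟨s, h⟩, rfl⟩
  refine ⟨posDef_sub M (hL.pd.mono (Set.subset_univ T)), fun j hj t => ?_, fun t => ?_⟩
  · rw [restrict_inp, hL.inp_zero j hj, zero_add]
    refine Finset.sum_eq_zero fun s hs => ?_
    rw [(ht s (hr s (Finset.mem_filter.1 hs).2)).1 j hj, mul_zero]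
  · rw [restrict_inp, ← hL.harm, Bf_al_left, Bf_al_left]
    have e1 := Finset.sum_filter_add_sum_filter_not Finset.univ (fun s => s ∈ Set.range (incl T))
      (fun s => Bm M (incl T t) s * δ s)
    have e2 : ∑ s ∈ Finset.univ.filter (fun s => s ∈ Set.range (incl T)),
        Bm M (incl T t) s * δ s = ∑ t' : T, Bm (sub M (incl T)) t t' * δ t'.1 := by
      symm
      refine Finset.sum_bij (fun t' _ => t'.1) (fun t' _ => by simp) (fun a _ b _ h => Subtype.ext h)
        (fun s hs => ?_) (fun t' _ => rfl)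
      obtain ⟨t', rfl⟩ := (Finset.mem_filter.1 hs).2
      exact ⟨t', Finset.mem_univ _, rfl⟩
    rw [← e1, e2, add_assoc, ← Finset.sum_add_distrib, left_eq_add]
    refine Finset.sum_eq_zero fun s hs => ?_
    rw [(ht s (hr s (Finset.mem_filter.1 hs).2)).2, Bm_eq_neg_cc]
    ring

theorem locp_main (k : ℤ) (n : ℕ) : ∀ (S : Type) [Fintype S] [DecidableEq S] (M : CoxeterMatrix S)
    (𝒮 : Setup M) (δ : S → ℝ), Fintype.card S = n → 𝒮.Loc k δ → ∀ (T₀ : Set S) (x : ArtinGroup M),
    (∀ s, s ∉ T₀ → 𝒮.Tight k δ x s) → 𝒮.Stable k δ x T₀ → ∀ y, ¬ 𝒮.Neg k δ y := by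
  induction n using Nat.strong_induction_on with
  | _ n ih =>
    intro S _ _ M 𝒮 δ hn hL T₀ x ht hs y
    have hR : 𝒮.Rel k δ := by
      intro T₀ T x hT hsub ht hs a ha ⟨s, hneg⟩
      have : Fintype T := Fintype.ofFinite T
      have ht' : ∀ s, s ∉ T → 𝒮.Tight k δ x s := fun s h => ht s fun h' => h (hsub h')
      have hcard : Fintype.card T < n := by
        obtain ⟨r, hr⟩ := (Set.ne_univ_iff_exists_notMem T).1 hT
        exact hn ▸ Fintype.card_subtype_lt (p := fun s => s ∈ T) hr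
      have key := ih _ hcard T (sub M (incl T)) (𝒮.restrict (incl T) x) (fun t => δ t.1) rfl
        (hL.restrict ht') {t | t.1 ∈ T₀} 1 (fun t h => by
          have := ht t.1 h
          refine ⟨fun j hj => ?_, ?_⟩
          · rw [restrict_dimS, map_one, mul_one]; exact this.1 j hj
          · rw [restrict_dimS, map_one, mul_one]; exact this.2) (by
          rintro b hb ⟨t, h1, h2⟩
          have hb' : artinMap M (incl T) b ∈ AX M T₀ := by
            refine AX_mono M ?_ (map_AX M (incl T) _ ▸ Subgroup.mem_map_of_mem _ hb)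
            rintro _ ⟨r, hr, rfl⟩
            exact hr
          refine hs _ hb' ⟨t.1, fun j hj => ?_, ?_⟩
          · have := h1 j hj
            rwa [restrict_dimS, one_mul] at this
          · rwa [restrict_dimS, one_mul] at h2)
      have hsT : s ∈ T := by
        by_contra hc
        exact hneg.2.ne ((ht' s hc).mul hc ha).2
      have ha' : a ∈ (AX (sub M (incl T)) Set.univ).map (artinMap M (incl T)) := by
        rw [map_AX]
        refine AX_mono M ?_ ha
        intro r hr
        exact ⟨⟨r, hr⟩, trivial, rfl⟩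
      obtain ⟨b, -, rfl⟩ := ha'
      refine key b ⟨⟨s, hsT⟩, fun j hj => ?_, ?_⟩
      · rw [restrict_dimS]; exact hneg.1 j hj
      · rw [restrict_dimS]; exact hneg.2
    by_cases hT : T₀ = Set.univ
    · subst hT
      have := hs (x⁻¹ * y) (by rw [AX_univ]; trivial)
      rwa [mul_inv_cancel_left] at this
    · obtain ⟨t, hr⟩ := (Set.ne_univ_iff_exists_notMem T₀).1 hT
      refine not_neg_of_vertex hL hR (ht t hr) (hR T₀ _ x (fun e => ?_) ?_ ht hs) y
      · have : t ∈ {r | r ≠ t} := e ▸ Set.mem_univ t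
        exact this rfl
      · rintro r hr' rfl
        exact hr hr'

/-- **Tie lemma.**  Induction on the cardinality of `S` (generalising `S`, `M`, `𝒮`, `δ`): the
induction hypothesis applied to `𝒮.restrict (incl T) x` gives `Rel` (use `map_AX`, `AX_univ`,
`restrict_dimS`); if `T₀ ≠ univ` pick `t ∉ T₀`, apply `Rel` with `T = {≠ t}` and `not_neg_of_vertex`. -/
theorem not_neg_of_stable (hL : 𝒮.Loc k δ) {T₀ : Set S} {x : ArtinGroup M}
    (ht : ∀ s, s ∉ T₀ → 𝒮.Tight k δ x s) (hs : 𝒮.Stable k δ x T₀) (y : ArtinGroup M) :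
    ¬ 𝒮.Neg k δ y := by
  exact locp_main k _ S M 𝒮 δ rfl hL T₀ x ht hs y

end Setup

end Crest.R175
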