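import Crest.Agent.R175.LocF

/-! Row 175: the chambers without high layers: lowering and directedness. -/

set_option autoImplicit false
set_option linter.unusedSectionVars false

namespace Crest.R175

open Crest.GroupTheory

namespace Setup

variable {S : Type} [Fintype S] [DecidableEq S] {M : CoxeterMatrix S} {𝒮 : Setup M} {k : ℤ}
  {δ : S → ℝ}

/-- one step of lowering.  `Loc K 0` holds for `K > k`.  Let `w` be the longest element of `W_T`; for
`t ∈ T`, `dimS (apt x w) K t = F K 0 x (rhoD w (al t))` (`F_apt`), the covector `rhoD w (al t)` is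
`≤ 0` on `T`, and `exc - cls K = wsum cod` is nonnegative and vanishes off `T`. -/
theorem lower_step (hP : PosDef M) {K : ℤ} (hL : ∀ j, K ≤ j → ∀ s, 𝒮.inp 1 j s = 0) {T : Set S}
    {x : ArtinGroup M} (hx : 𝒮.InY K x) (hT : ∀ s, s ∉ T → 𝒮.dimS x K s = 0) :
    ∃ a ∈ AX M T, 𝒮.InY (K - 1) (x * a) := by
  have := finite_of_posDef M hP
  have hloc : 𝒮.Loc K 0 := ⟨hP, fun j hj => hL j hj.le, fun s => by
    rw [hL K le_rfl, Bf_al_left]; simp⟩
  obtain ⟨w, hw, h0, -, h1, -⟩ := exists_longest M T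
  have ha := apt_mem_AX x hw
  refine ⟨_, ha, fun t j hj => ?_⟩
  rcases (show K < j ∨ j = K by omega) with h | rfl
  · rw [mul_inv_cancel_left]
    exact hx.of_pre hloc.inp_zero (apt_pre x w) t j h
  by_cases ht : t ∈ T
  swap
  · rw [𝒮.dimS_mul_of_AX ha x j ht, hT t ht]
  rw [mul_inv_cancel_left]
  refine le_antisymm ?_ (𝒮.dimS_nonneg _ _ _)
  have h2 := F_apt hloc hx w (inv_al_nonneg t)
  obtain ⟨K', -, h3⟩ := exists_F_eq (𝒮 := 𝒮) (k := j) (δ := 0) x (rhoD M w (al t))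
  rw [h3, al, single_one_dotProduct] at h2
  simp only [exc, Pi.zero_apply, sub_zero] at h2
  rw [← h2]
  refine Finset.sum_nonpos fun s _ => ?_
  have a1 : 0 ≤ 𝒮.cls K' s := 𝒮.wsum_nonneg (fun _ => Nat.cast_nonneg _) s
  have a2 : 𝒮.cls K' s ≤ 𝒮.dimS x j s :=
    𝒮.wsum_mono fun i _ => Nat.cast_le.2 (K'.dim_le i)
  simp only [exc, Pi.sub_apply, Pi.zero_apply, sub_zero]
  by_cases hs : s ∈ T
  · refine mul_nonpos_of_nonpos_of_nonneg ?_ (sub_nonneg.2 a2)
    rw [rhoD, single_one_dotProduct, inv_eq_of_mul_eq_one_right h0]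
    exact rho_al_nonpos M (h1 s hs) t
  · rw [hT s hs] at a2 ⊢
    rw [le_antisymm a2 a1, sub_zero, mul_zero]

/-- **Lowering.**  Downward induction from `exists_bound`. -/
theorem lower (hL : 𝒮.Loc k δ) {T : Set S} {x : ArtinGroup M} (hx : ∀ s, s ∉ T → 𝒮.NoHi k x s) :
    ∃ a ∈ AX M T, 𝒮.InY k (x * a) := by
  have key : ∀ (n : ℕ) (x : ArtinGroup M), (∀ s, s ∉ T → 𝒮.NoHi k x s) → 𝒮.InY (k + n) x →
      ∃ a ∈ AX M T, 𝒮.InY k (x * a) := by
    intro n
    induction n with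
    | zero => exact fun x _ h => ⟨1, one_mem _, by simpa using h⟩
    | succ n ih =>
      intro x hx h
      obtain ⟨a, ha, h1⟩ := lower_step (T := T) hL.pd
        (fun j hj => hL.inp_zero j (by push_cast at hj; omega)) h
        (fun s hs => hx s hs _ (by push_cast; omega))
      obtain ⟨a', ha', h2⟩ := ih (x * a) (fun s hs j hj => by
        rw [𝒮.dimS_mul_of_AX ha x j hs]
        exact hx s hs j hj) (fun s j hj => h1 s j (by push_cast; omega))
      exact ⟨a * a', mul_mem ha ha', by rwa [← mul_assoc]⟩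
  obtain ⟨K, hK⟩ := 𝒮.exists_bound x
  exact key (K - k).toNat x hx fun s j hj => (hK j (by omega) s).1

/-- all quotients of layer `k` supported above `J` pair nonnegatively with `θ` -/
def PosQ (𝒮 : Setup M) (k : ℤ) (J : Set S) (x : ArtinGroup M) (θ : S → ℝ) : Prop :=
  ∀ K : (𝒮.H x k).Sub, (∀ l, l ∉ 𝒮.abv J → K.cod l = 0) → 0 ≤ θ ⬝ᵥ 𝒮.wsum K.cod

/-- no top above `J` means no quotient supported above `J` (`PM.exists_codim_one` with `K₂ = ⊤`) -/
theorem posQ_of_noTop (hP : PosDef M) {J : Set S} {x : ArtinGroup M}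
    (h : ∀ i ∈ 𝒮.abv J, (𝒮.H x k).NoTop i) (θ : S → ℝ) : 𝒮.PosQ k J x θ := by
  intro K hK
  have h0 : ∀ l, K.cod l = 0 := by
    by_contra hne
    push Not at hne
    obtain ⟨l, hl⟩ := hne
    obtain ⟨K', i, hi, -, -, h1, h2⟩ := PM.exists_codim_one (𝒮.abv J)
      (𝒮.exists_slope_pos (hP.mono (Set.subset_univ J))) K (PM.topSub _) (fun _ => le_top)
      (fun l hl => by
        have := hK l hl
        rw [PM.Sub.cod, sub_eq_zero] at this
        rw [PM.topSub_dim]
        exact_mod_cast this.symm)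
      ⟨l, fun e => hl (by rw [PM.Sub.cod, e, PM.topSub_dim, sub_self])⟩
    simp only [PM.topSub_dim] at h1 h2
    exact PM.not_noTop_of_sub K' h1 h2 (h i hi)
  refine le_of_eq (Finset.sum_eq_zero fun s _ => ?_).symm
  rw [(𝒮.wsum_eq_zero_iff fun i _ => K.cod_nonneg i).2 fun i _ => h0 i, mul_zero]

theorem PosQ.noTop {J : Set S} {x : ArtinGroup M} {θ : S → ℝ} (h : 𝒮.PosQ k J x θ) {s : S}
    (hs : s ∈ J) (hθ : θ s < 0) : ∀ i ∈ 𝒮.fib s, (𝒮.H x k).NoTop i := by
  intro i hi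
  by_contra hn
  obtain ⟨K, h1, h2⟩ := PM.exists_sub_of_not_noTop _ hn
  have h3 := h K fun l hl => h2 l fun e => hl (e ▸ ⟨s, hs, hi⟩)
  rw [dotProduct, Finset.sum_eq_single s (fun t _ ht => by
    rw [(𝒮.wsum_eq_zero_iff fun i _ => K.cod_nonneg i).2 fun l hl => h2 l fun e => ht ?_, mul_zero]
    subst e
    exact Option.some.inj (hl.symm.trans hi)) (by simp)] at h3
  have h4 : 0 < 𝒮.wsum K.cod s := lt_of_le_of_ne (𝒮.wsum_nonneg K.cod_nonneg s) fun e => by
    have := (𝒮.wsum_eq_zero_iff fun i _ => K.cod_nonneg i).1 e.symm i hi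
    rw [h1] at this
    exact one_ne_zero this
  exact absurd h3 (not_le.2 (mul_neg_of_neg_of_pos hθ h4))

/-- reflection lemma (`Step1.pull`, `wsum_nb` with zero frozen part) -/
theorem PosQ.step {J : Set S} {x : ArtinGroup M} {θ : S → ℝ} (h : 𝒮.PosQ k J x θ) {s : S}
    (hs : s ∈ J) (hθ : θ s < 0) : 𝒮.PosQ k J (x * σ M s) (rhoD M (sr M s) θ) := by
  intro K' hK'
  have hst := (𝒮.step x s).1 k
  obtain ⟨K, h1, h2⟩ := hst.pull (𝒮.nadj s) (h.noTop hs hθ) K'
  have h3 : ∀ l, l ∉ 𝒮.fib s → K.cod l = K'.cod l := fun l hl => by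
    rw [PM.Sub.cod, PM.Sub.cod, h1 l hl, hst.dim_eq hl]
  have h4 := h K fun l hl => (h3 l fun e => hl ⟨s, hs, e⟩).trans (hK' l hl)
  have h5 : ∀ t ∈ Finset.univ.erase s, 𝒮.wsum K'.cod t = 𝒮.wsum K.cod t := fun t ht =>
    𝒮.wsum_congr fun l hl => (h3 l fun e =>
      (Finset.mem_erase.1 ht).1 (Option.some.inj (hl.symm.trans e))).symm
  have h6 := 𝒮.wsum_mono (s := s) h2
  rw [𝒮.wsum_nb, 𝒮.wsum_add] at h6
  have h7 := 𝒮.finp_nonneg K.cod_nonneg s
  have h8 : θ ⬝ᵥ 𝒮.wsum K'.cod =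
      θ ⬝ᵥ 𝒮.wsum K.cod + θ s * (𝒮.wsum K'.cod s - 𝒮.wsum K.cod s) := by
    rw [dotProduct, dotProduct, ← Finset.add_sum_erase _ _ (Finset.mem_univ s),
      ← Finset.add_sum_erase _ _ (Finset.mem_univ s),
      Finset.sum_congr rfl fun t ht => by rw [h5 t ht]]
    ring
  rw [rhoD_dot, (cs M).inv_simple, rho_sr, dotProduct_sub, dotProduct_smul, Bf_al_left', h8,
    Finset.sum_congr rfl fun t ht => by rw [h5 t ht], al, dotProduct_single_one, smul_eq_mul]
  nlinarith

/-- Going up along a reduced word in `J` from a chamber without top above `J`.  Induction on `l` for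
the statement with hypothesis `PosQ J x (rhoD (wπ l) 1)`: the first letter `s` is a left descent, so
`rhoD (wπ l) 1 s < 0`. -/
theorem InY.mul_reduced (hL : 𝒮.Loc k δ) {J : Set S} {x : ArtinGroup M} (hx : 𝒮.InY k x)
    (h : ∀ s ∈ J, 𝒮.InY k (x * σ M s)) {l : List S} (hl : (cs M).IsReduced l)
    (hJ : ∀ s ∈ l, s ∈ J) : 𝒮.InY k (x * wp (σ M) l) := by
  have key : ∀ (l : List S) (x : ArtinGroup M), (cs M).IsReduced l → (∀ s ∈ l, s ∈ J) →
      𝒮.InY k x → 𝒮.PosQ k J x (rhoD M (wπ M l) 1) → 𝒮.InY k (x * wp (σ M) l) := by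
    intro l
    induction l with
    | nil => intro x _ _ hx _; simpa using hx
    | cons s l ih =>
      intro x hl hJ hx hq
      have hs := hJ s List.mem_cons_self
      have hl' : (cs M).IsReduced l := by simpa using hl.drop 1
      have e : sr M s * wπ M (s :: l) = wπ M l := by
        rw [wπ, (cs M).wordProd_cons, (cs M).simple_mul_simple_cancel_left]
      have h1 : ℓ M ((wπ M (s :: l))⁻¹ * sr M s) < ℓ M (wπ M (s :: l))⁻¹ := by
        rw [inv_len_inv_mul, e, ℓ, ℓ, (cs M).length_inv, hl, hl']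
        simp
      have h2 : rhoD M (wπ M (s :: l)) 1 s < 0 := by
        have a1 := rho_al_nonpos M h1
        have a2 := rho_al_ne_zero M (wπ M (s :: l))⁻¹ s
        rw [rhoD, one_dotProduct]
        refine lt_of_le_of_ne (Finset.sum_nonpos fun t _ => a1 t) fun e => a2 ?_
        exact funext fun t =>
          (Finset.sum_eq_zero_iff_of_nonpos fun t _ => a1 t).1 e t (Finset.mem_univ t)
      have h3 := hq.step hs h2
      rw [← rhoD_mul, e] at h3
      rw [wp_cons, ← mul_assoc]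
      exact ih _ hl' (fun t ht => hJ t (List.mem_cons_of_mem _ ht))
        (hx.mul_σ hL.inp_zero (hq.noTop hs h2)) h3
  refine key l x hl hJ hx (posQ_of_noTop hL.pd ?_ _)
  rintro i ⟨s, hs, hi⟩
  exact (h s hs).noTop i hi

/-- **Directedness** (`directed_pre`, `finite_of_posDef`). -/
theorem InY.directed (hL : 𝒮.Loc k δ) {x y z : ArtinGroup M} (hx : 𝒮.InY k x) (hy : 𝒮.InY k y)
    (hxz : Pre M x z) (hyz : Pre M y z) : ∃ m, 𝒮.InY k m ∧ Pre M x m ∧ Pre M y m ∧ Pre M m z := by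
  have := finite_of_posDef M hL.pd
  refine directed_pre M {x | 𝒮.InY k x} (fun x y h hy => InY.of_pre hL.inp_zero hy h)
    (fun x s t hst hs ht _ _ _ => ?_) hx hy hxz hyz
  refine InY.mul_reduced hL (J := {s, t}) (InY.of_mul_σ hL.inp_zero hs) ?_
    (alt_reduced M hst fun _ => le_rfl) fun r hr => mem_alt _ s t r hr
  rintro r (rfl | rfl)
  exacts [hs, ht]

/-- a commuting square `σ_t q w = q w σ_r` with `t` not a left descent of `w`: the join is the top
corner (lengths, `pre_q_iff`). -/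
theorem InY.square (hL : 𝒮.Loc k δ) {x : ArtinGroup M} {w : M.Group} {t r : S}
    (hw : ℓ M w < ℓ M (sr M t * w)) (hc : σ M t * q M w = q M w * σ M r)
    (h1 : 𝒮.InY k (x * σ M t)) (h2 : 𝒮.InY k (x * q M w)) : 𝒮.InY k (x * σ M t * q M w) := by
  have := finite_of_posDef M hL.pd
  have e : x * σ M t * q M w = x * q M w * σ M r := by rw [mul_assoc, hc, mul_assoc]
  obtain ⟨m, hm, a1, a2, a3⟩ := InY.directed hL (z := x * σ M t * q M w) h1 h2
    (pre_mul_right M _ (q_mem_pos M w))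
    (by rw [e]; exact pre_mul_right M _ (Submonoid.subset_closure ⟨r, trivial, rfl⟩))
  rcases a2.eq_or_step with rfl | ⟨s, hs⟩
  · rw [pre_mul_iff, ← qq_sr M (σ M) (braidRel_σ M) t, pre_q_iff, sr_wle_iff] at a1
    exact absurd a1 (not_lt.2 hw.le)
  · have a4 := hs.len_le
    rwa [← a3.eq_of_len (by
      rw [e]
      simpa only [len_mul, len_σ] using a4)]

end Setup

end Crest.R175
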