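import Crest.Agent.R175.LocL

/-! Row 175: zeros of the convex function (preparation of the tie lemma). -/

set_option autoImplicit false
set_option linter.unusedSectionVars false

namespace Crest.R175

open Crest.GroupTheory

namespace Setup

variable {S : Type} [Fintype S] [DecidableEq S] {M : CoxeterMatrix S} {𝒮 : Setup M} {k : ℤ}
  {δ : S → ℝ}

/-- the tie lemma for proper sub-diagrams ("a stable face has stable vertices") -/
def Rel (𝒮 : Setup M) (k : ℤ) (δ : S → ℝ) : Prop :=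
  ∀ (T₀ T : Set S) (x : ArtinGroup M), T ≠ Set.univ → T₀ ⊆ T → (∀ s, s ∉ T₀ → 𝒮.Tight k δ x s) →
    𝒮.Stable k δ x T₀ → 𝒮.Stable k δ x T

theorem Stable.mono {x : ArtinGroup M} {T T' : Set S} (h : 𝒮.Stable k δ x T') (hT : T ⊆ T') :
    𝒮.Stable k δ x T := by
  intro a ha
  exact h a (AX_mono M hT ha)

theorem Stable.mul {x : ArtinGroup M} {T : Set S} (h : 𝒮.Stable k δ x T) {a : ArtinGroup M}
    (ha : a ∈ AX M T) : 𝒮.Stable k δ (x * a) T := by
  intro b hb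
  rw [mul_assoc]
  exact h _ ((AX M T).mul_mem ha hb)

theorem locz_al_nonneg (t : S) : (0 : S → ℝ) ≤ al t := Pi.single_nonneg.2 zero_le_one

theorem locz_rhoD_inv (u : M.Group) (lam : S → ℝ) : rhoD M u (rhoD M u⁻¹ lam) = lam := by
  rw [← rhoD_mul, mul_inv_cancel, rhoD_one]

theorem locz_rhoD_inv' (u : M.Group) (lam : S → ℝ) : rhoD M u⁻¹ (rhoD M u lam) = lam := by
  rw [← rhoD_mul, inv_mul_cancel, rhoD_one]

theorem locz_rhoD_sr_sr (s : S) (lam : S → ℝ) : rhoD M (sr M s) (rhoD M (sr M s) lam) = lam := by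
  rw [← rhoD_mul, (cs M).simple_mul_simple_self, rhoD_one]

theorem locz_wle {w : M.Group} {s : S} (h : ℓ M w < ℓ M (w * sr M s)) : WLe M w (w * sr M s) := by
  refine (wle_mul_iff M _ _).2 ?_
  have h1 := (cs M).length_mul_simple w s
  have h3 : ℓ M (sr M s) = 1 := (cs M).length_simple s
  simp only [ℓ, sr] at h1 h h3 ⊢
  omega

/-- nonnegativity of `F` from nonnegativity near a zero -/
theorem locz_nonneg_of_near {x : ArtinGroup M} {φ lam : S → ℝ} {ε : ℝ} (hε : 0 < ε)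
    (h0 : 𝒮.F k δ x φ = 0) (h : 0 ≤ 𝒮.F k δ x (φ + ε • lam)) : 0 ≤ 𝒮.F k δ x lam := by
  have := F_add_le (𝒮 := 𝒮) (k := k) (δ := δ) x φ (ε • lam)
  rw [h0, F_smul x hε.le, zero_add] at this
  exact nonneg_of_mul_nonneg_right (h.trans this) hε

theorem F_al (x : ArtinGroup M) (t : S) : 𝒮.F k δ x (al t) = 𝒮.exc k δ x t := by
  rw [F_of_nonneg x (locz_al_nonneg t)]
  simp [al]

/-- At a stable tight vertex `F` has a local minimum `0` at `e_t`, hence is nonnegative: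
`exists_dominant_near`, `F_apt`, then `0 ≤ F (e_t + ε lam) ≤ F e_t + ε F lam`. -/
theorem F_nonneg_of_stable (hL : 𝒮.Loc k δ) {h : ArtinGroup M} (hh : 𝒮.InY k h) {t : S}
    (ht : 𝒮.Tight k δ h t) (hs : 𝒮.Stable k δ h {s | s ≠ t}) (lam : S → ℝ) :
    0 ≤ 𝒮.F k δ h lam := by
  have := finite_of_posDef M hL.pd
  obtain ⟨ε, hε, u, hu, hd⟩ := exists_dominant_near M t lam
  have e := F_apt hL hh u hd
  rw [locz_rhoD_inv] at e
  have hY : 𝒮.InY k (apt h u) := hh.of_pre hL.inp_zero (apt_pre h u)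
  have hn : ¬ 𝒮.Neg k δ (apt h u) := by
    have := hs _ (apt_mem_AX h hu)
    rwa [mul_inv_cancel_left] at this
  have hexc : 0 ≤ 𝒮.exc k δ (apt h u) := by
    intro r
    by_contra hc
    refine hn ⟨r, hY r, ?_⟩
    simp only [exc, Pi.zero_apply, not_le] at hc
    linarith
  refine locz_nonneg_of_near (φ := al t) hε ?_ ?_
  · rw [F_al, exc, ht.2, sub_self]
  · rw [e]; exact dotProduct_nonneg_of_nonneg hd hexc

/-- a zero strictly on the positive side of the wall is carried along (`F_step` near `s φ`) -/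
theorem zero_step (hL : 𝒮.Loc k δ) {x : ArtinGroup M} {s : S} (hY : 𝒮.InY k (x * σ M s))
    (h0 : ∀ lam, 0 ≤ 𝒮.F k δ x lam) {φ : S → ℝ} (hφ : 𝒮.F k δ x φ = 0) (hs : 0 < φ s) :
    (∀ lam, 0 ≤ 𝒮.F k δ (x * σ M s) lam) ∧ 𝒮.F k δ (x * σ M s) (rhoD M (sr M s) φ) = 0 := by
  have hψ : rhoD M (sr M s) φ s = -φ s := by rw [rhoD_sr, Bm_self]; ring
  have h1 : 𝒮.F k δ (x * σ M s) (rhoD M (sr M s) φ) = 0 := by
    rw [F_step hL hY (by rw [hψ]; linarith), locz_rhoD_sr_sr, hφ]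
  refine ⟨fun lam => ?_, h1⟩
  have hp : 0 < |lam s| + 1 := by positivity
  refine locz_nonneg_of_near (ε := φ s / (|lam s| + 1)) (div_pos hs hp) h1 ?_
  rw [F_step hL hY]
  · exact h0 _
  · rw [Pi.add_apply, hψ, Pi.smul_apply, smul_eq_mul, div_mul_eq_mul_div, neg_add_le_iff_le_add,
      add_zero, div_le_iff₀ hp]
    exact mul_le_mul_of_nonneg_left ((le_abs_self _).trans (by linarith)) hs.le

/-- the root `w' α_s` is an inversion of `w' s`, hence not supported off `t` -/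
theorem coord_pos {t s : S} {w' : M.Group} (hw : ℓ M w' < ℓ M (w' * sr M s))
    (hr : LRed M {r | r ≠ t} (w' * sr M s)) : 0 < rhoD M w'⁻¹ (al t) s := by
  have h1 : rho M w' (al s) ∈ Inv M (w' * sr M s) := by
    rw [(Inv_mul_sr M hw).1]; exact Set.mem_insert _ _
  have h2 := hr.not_supp h1
  have h3 : rhoD M w'⁻¹ (al t) s = rho M w' (al s) t := by simp [rhoD, al]
  rw [h3]
  refine lt_of_le_of_ne (h1.2.1 t) fun e => h2 fun r hr => ?_
  have : r = t := by simpa using hr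
  rw [this, ← e]

/-- iterate `zero_step` along a reduced word of `w` (induction on `ℓ w`, right descents) -/
theorem zero_word (hL : 𝒮.Loc k δ) {h : ArtinGroup M} {t : S} (h0 : ∀ lam, 0 ≤ 𝒮.F k δ h lam)
    (ht : 𝒮.F k δ h (al t) = 0) {w : M.Group} (hr : LRed M {r | r ≠ t} w)
    (hY : 𝒮.InY k (h * q M w)) :
    (∀ lam, 0 ≤ 𝒮.F k δ (h * q M w) lam) ∧ 𝒮.F k δ (h * q M w) (rhoD M w⁻¹ (al t)) = 0 := by
  induction hn : ℓ M w using Nat.strong_induction_on generalizing w with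
  | _ n ih =>
    by_cases h1 : w = 1
    · subst h1
      rw [q_one, mul_one, inv_one, rhoD_one]
      exact ⟨h0, ht⟩
    · obtain ⟨s, hs⟩ := (cs M).exists_rightDescent_of_ne_one h1
      obtain ⟨w', rfl⟩ : ∃ w', w = w' * sr M s :=
        ⟨w * sr M s, by rw [mul_assoc, (cs M).simple_mul_simple_self, mul_one]⟩
      have hlt : ℓ M w' < ℓ M (w' * sr M s) := by
        have := hs
        rw [CoxeterSystem.IsRightDescent, mul_assoc, (cs M).simple_mul_simple_self, mul_one] at this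
        exact this
      rw [q_mul_sr M hlt, ← mul_assoc] at hY ⊢
      obtain ⟨a1, a2⟩ := ih _ (hn ▸ hlt) (hr.of_wle (locz_wle hlt)) (hY.of_mul_σ hL.inp_zero) rfl
      rw [mul_inv_rev, (cs M).inv_simple, rhoD_mul]
      exact zero_step hL hY a1 a2 (coord_pos hlt hr)

/-- the data of a fold at a stable tight vertex -/
structure FoldData (𝒮 : Setup M) (k : ℤ) (δ : S → ℝ) (h : ArtinGroup M) (t : S) (w' : M.Group)
    (s : S) : Prop where
  inY : 𝒮.InY k (h * q M w' * σ M s * σ M s)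
  lt : ℓ M w' < ℓ M (w' * sr M s)
  red : LRed M {r | r ≠ t} (w' * sr M s)
  tight : 𝒮.Tight k δ h t
  stable : 𝒮.Stable k δ h {r | r ≠ t}

/-- common facts: with `x₀ = h q w' σ_s`, `φ = rhoD w'⁻¹ (al t)`; `F x₀ φ ≤ F (h q w') φ = 0` by
`F_fold`, and `exc h̃ t = F x₀ φ` by `F_apt`, `apt_inv`. -/
theorem FoldData.facts (hL : 𝒮.Loc k δ) {h : ArtinGroup M} {t s : S} {w' : M.Group}
    (d : 𝒮.FoldData k δ h t w' s) :
    (∀ lam, 0 ≤ 𝒮.F k δ (h * q M w' * σ M s) lam) ∧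
    𝒮.F k δ (h * q M w' * σ M s) (rhoD M w'⁻¹ (al t)) = 0 ∧
    𝒮.F k δ (h * q M w' * σ M s) (rhoD M (sr M s) (rhoD M w'⁻¹ (al t))) = 0 ∧
    𝒮.InY k (h * q M w' * σ M s * (q M w')⁻¹) ∧
    𝒮.Tight k δ (h * q M w' * σ M s * (q M w')⁻¹) t := by
  have hY1 : 𝒮.InY k (h * q M w' * σ M s) := d.inY.of_mul_σ hL.inp_zero
  have hY2 : 𝒮.InY k (h * q M w') := hY1.of_mul_σ hL.inp_zero
  have hh : 𝒮.InY k h := hY2.of_pre hL.inp_zero (pre_mul_right M _ (q_mem_pos M w'))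
  have h0 := F_nonneg_of_stable hL hh d.tight d.stable
  have ht : 𝒮.F k δ h (al t) = 0 := by rw [F_al, exc, d.tight.2, sub_self]
  obtain ⟨-, a2⟩ := zero_word hL h0 ht (d.red.of_wle (locz_wle d.lt)) hY2
  obtain ⟨b1, b2⟩ := zero_word hL h0 ht d.red (by rw [q_mul_sr M d.lt, ← mul_assoc]; exact hY1)
  rw [q_mul_sr M d.lt, ← mul_assoc] at b1 b2
  rw [mul_inv_rev, (cs M).inv_simple, rhoD_mul] at b2
  have c2 : 𝒮.F k δ (h * q M w' * σ M s) (rhoD M w'⁻¹ (al t)) = 0 :=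
    le_antisymm ((F_fold hL d.inY _).trans a2.le) (b1 _)
  have e3 : apt (h * q M w' * σ M s) w'⁻¹ = h * q M w' * σ M s * (q M w')⁻¹ := by
    simp [apt]
  have c4 : 𝒮.InY k (h * q M w' * σ M s * (q M w')⁻¹) :=
    hY1.of_pre hL.inp_zero (e3 ▸ apt_pre _ _)
  refine ⟨b1, c2, b2, c4, c4 t, ?_⟩
  have e := F_apt hL hY1 w'⁻¹ (locz_al_nonneg t)
  rw [c2, e3] at e
  simp only [al, single_dotProduct, one_mul, exc] at e
  linarith

theorem locz_move (hR : 𝒮.Rel k δ) {x : ArtinGroup M} {r r' : S} (hr : 𝒮.Tight k δ x r)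
    (hr' : 𝒮.Tight k δ x r') (hs : 𝒮.Stable k δ x {t | t ≠ r}) : 𝒮.Stable k δ x {t | t ≠ r'} := by
  refine hR {t | t ≠ r ∧ t ≠ r'} _ x (fun e => ?_) (fun t ht => ht.2) (fun t ht => ?_)
    (hs.mono fun t ht => ht.1)
  · have : r' ∈ {t | t ≠ r'} := e ▸ Set.mem_univ r'
    exact this rfl
  · by_cases h : t = r
    · exact h ▸ hr
    · have : t = r' := by
        by_contra hc
        exact ht ⟨h, hc⟩
      exact this ▸ hr'

/-- **Non-antipodal fold.**  Let `x₀ = h q w' σ_s`; `F x₀` vanishes on the segment `C` from `s φ` to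
`φ`, which avoids `0`.  Apply `gallery` with `P u := ∃ r, Tight (apt x₀ u) r ∧ Stable (apt x₀ u) {≠ r}`
from `u = (w' s)⁻¹` (`apt = h`) to `u = w'⁻¹` (`apt = h̃`).  In a chamber with two tight vertices
`r, r'`, `Rel` with `T₀ = {≠ r, ≠ r'}`, `T = {≠ r'}` moves stability from `r` to `r'`.  A covector
of `C` in the closed chamber `u` has a positive coordinate `r`; all excesses in the apartment are
`≥ 0` (`F ≥ 0`, `F_apt`), so `r` is tight. -/
theorem FoldData.stable_of_ne (hL : 𝒮.Loc k δ) (hR : 𝒮.Rel k δ) {h : ArtinGroup M} {t s : S}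
    {w' : M.Group} (d : 𝒮.FoldData k δ h t w' s)
    (hne : ∀ c : ℝ, rhoD M w'⁻¹ (al t) ≠ c • Bm M s) :
    𝒮.Stable k δ (h * q M w' * σ M s * (q M w')⁻¹) {r | r ≠ t} := by
  obtain ⟨f0, f1, f2, -, f5⟩ := d.facts hL
  have hY1 : 𝒮.InY k (h * q M w' * σ M s) := d.inY.of_mul_σ hL.inp_zero
  set x₀ := h * q M w' * σ M s with hx₀
  set φ := rhoD M w'⁻¹ (al t) with hφ
  have hC0 : ∀ lam ∈ segment ℝ (rhoD M (sr M s) φ) φ, 𝒮.F k δ x₀ lam = 0 := by
    rintro _ ⟨a, b, ha, hb, -, rfl⟩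
    refine le_antisymm ((F_add_le _ _ _).trans ?_) (f0 _)
    rw [F_smul _ ha, F_smul _ hb, f1, f2]; simp
  have hCne : ∀ lam ∈ segment ℝ (rhoD M (sr M s) φ) φ, lam ≠ 0 := by
    rintro _ ⟨a, b, -, -, hab, rfl⟩ e
    refine hne (a * φ s) (funext fun r => ?_)
    have := congrFun e r
    simp only [Pi.add_apply, Pi.smul_apply, smul_eq_mul, rhoD_sr, Pi.zero_apply] at this ⊢
    have hb : b = 1 - a := by linarith
    rw [hb] at this
    linarith
  have hP : ∃ r, 𝒮.Tight k δ (apt x₀ w'⁻¹) r ∧ 𝒮.Stable k δ (apt x₀ w'⁻¹) {r' | r' ≠ r} := by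
    refine gallery M (convex_segment (rhoD M (sr M s) φ) φ)
      (fun u => ∃ r, 𝒮.Tight k δ (apt x₀ u) r ∧ 𝒮.Stable k δ (apt x₀ u) {r' | r' ≠ r}) ?_
      (u₁ := (w' * sr M s)⁻¹) (left_mem_segment _ _ _) (right_mem_segment _ _ _) ?_ ?_ ?_
    · rintro u s' lam hl hd hz ⟨r, hr, hs⟩
      have hYu : 𝒮.InY k (apt x₀ u) := hY1.of_pre hL.inp_zero (apt_pre _ _)
      have hexc : ∀ r, 0 ≤ 𝒮.exc k δ (apt x₀ u) r := by
        intro r
        have e := F_apt hL hY1 u (locz_al_nonneg r)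
        simp only [al, single_dotProduct, one_mul] at e
        rw [← e]; exact f0 _
      obtain ⟨r', hr'⟩ : ∃ r', rhoD M u⁻¹ lam r' ≠ 0 := by
        by_contra hc
        push Not at hc
        have e : rhoD M u⁻¹ lam = (0 : ℝ) • lam := by funext r; simp [hc r]
        refine hCne lam hl ?_
        rw [← locz_rhoD_inv u lam, e, rhoD_smul, zero_smul]
      have e := F_apt hL hY1 u hd
      rw [locz_rhoD_inv, hC0 lam hl] at e
      have e2 := (Finset.sum_eq_zero_iff_of_nonneg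
        (fun r _ => mul_nonneg (hd r) (hexc r))).1 e.symm r' (Finset.mem_univ _)
      have ht' : 𝒮.Tight k δ (apt x₀ u) r' :=
        ⟨hYu r', sub_eq_zero.1 ((mul_eq_zero.1 e2).resolve_left hr')⟩
      have hs' := locz_move hR hr ht' hs
      have hm : s' ∈ {r | r ≠ r'} := fun e => hr' (e ▸ hz)
      obtain ⟨a, ha, ea⟩ : ∃ a ∈ AX M {r | r ≠ r'}, apt x₀ (u * sr M s') = apt x₀ u * a := by
        rcases apt_mul_sr x₀ u s' with e | e
        · exact ⟨(σ M s')⁻¹, (AX M _).inv_mem (σ_mem M hm), by rw [e, mul_inv_cancel_right]⟩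
        · exact ⟨σ M s', σ_mem M hm, e⟩
      rw [ea]
      exact ⟨r', ht'.mul (by simp) ha, hs'.mul ha⟩
    · rw [inv_inv, rhoD_mul, locz_rhoD_sr_sr, hφ, locz_rhoD_inv]
      exact locz_al_nonneg t
    · rw [inv_inv, hφ, locz_rhoD_inv]
      exact locz_al_nonneg t
    · have e : apt x₀ (w' * sr M s)⁻¹ = h := by
        rw [hx₀, mul_assoc, ← q_mul_sr M d.lt, apt_inv]
      rw [e]
      exact ⟨t, d.tight, d.stable⟩
  have e3 : apt x₀ w'⁻¹ = x₀ * (q M w')⁻¹ := by simp [apt]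
  rw [e3] at hP
  obtain ⟨r, hr, hs⟩ := hP
  exact locz_move hR hr f5 hs

end Setup

end Crest.R175
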