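import Crest.Agent.R175.VdL

/-! Row 175: the reducible case. -/

set_option autoImplicit false
set_option linter.unusedSectionVars false

namespace Crest.R175

open Crest.GroupTheory

variable {S : Type} [Fintype S] [DecidableEq S] {M : CoxeterMatrix S}

theorem vdl_wp_congr {G : Type*} [Monoid G] {τ τ' : S → G} {l : List S}
    (h : ∀ s ∈ l, τ s = τ' s) : wp τ l = wp τ' l := by
  unfold wp
  rw [List.map_congr_left h]

theorem vdl_wp_one {G : Type*} [Monoid G] (l : List S) : wp (fun _ => (1 : G)) l = 1 := by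
  induction l with
  | nil => simp
  | cons s l ih => simp [ih]

/-- the retraction killing the generators outside `A`, when `A` commutes with its complement -/
theorem exists_retraction {A : Set S} (hA : ∀ s ∈ A, ∀ t, t ∉ A → M s t = 2) :
    ∃ r : ArtinGroup M →* ArtinGroup M, (∀ s ∈ A, r (σ M s) = σ M s) ∧
      ∀ t, t ∉ A → r (σ M t) = 1 := by
  classical
  have hb : BraidRel M (fun s => if s ∈ A then σ M s else 1) := by
    intro s t
    by_cases hs : s ∈ A <;> by_cases ht : t ∈ A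
    · rw [vdl_wp_congr (τ' := σ M), vdl_wp_congr (τ' := σ M) (l := alt t s _)]
      · exact braidRel_σ M s t
      · intro r hr
        rcases mem_alt _ _ _ _ hr with rfl | rfl <;> simp [*]
      · intro r hr
        rcases mem_alt _ _ _ _ hr with rfl | rfl <;> simp [*]
    · rw [hA s hs t ht]
      simp [hs, ht]
    · rw [M.symmetric s t, hA t ht s hs]
      simp [hs, ht]
    · rw [vdl_wp_congr (τ' := fun _ => 1), vdl_wp_congr (τ' := fun _ => 1) (l := alt t s _),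
        vdl_wp_one, vdl_wp_one]
      · intro r hr
        rcases mem_alt _ _ _ _ hr with rfl | rfl <;> simp [*]
      · intro r hr
        rcases mem_alt _ _ _ _ hr with rfl | rfl <;> simp [*]
  refine ⟨artinLift M _ hb, fun s hs => ?_, fun t ht => ?_⟩
  · rw [artinLift_σ, if_pos hs]
  · rw [artinLift_σ, if_neg ht]

theorem vdl_mem_cj {G : Type*} [Group G] (h g : G) (P : Subgroup G) :
    g ∈ cj h P ↔ h⁻¹ * g * h ∈ P := by
  constructor
  · rintro ⟨x, hx, rfl⟩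
    simpa [mul_assoc] using hx
  · intro hg
    exact ⟨_, hg, by simp [mul_assoc]⟩

section
variable {A : Set S} {r : ArtinGroup M →* ArtinGroup M} (h1 : ∀ s ∈ A, r (σ M s) = σ M s)
  (h2 : ∀ t, t ∉ A → r (σ M t) = 1)
include h1 h2

theorem vdl_r_mem {X : Set S} {g : ArtinGroup M} (hg : g ∈ AX M X) : r g ∈ AX M (X ∩ A) := by
  have : AX M X ≤ (AX M (X ∩ A)).comap r := by
    refine (Subgroup.closure_le _).2 ?_
    rintro _ ⟨s, hs, rfl⟩
    show r (σ M s) ∈ AX M (X ∩ A)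
    by_cases hsA : s ∈ A
    · rw [h1 s hsA]; exact σ_mem M ⟨hs, hsA⟩
    · rw [h2 s hsA]; exact one_mem _
  exact this hg

theorem vdl_r_mem' (g : ArtinGroup M) : r g ∈ AX M A := by
  have := vdl_r_mem h1 h2 (X := Set.univ) (g := g) (by rw [AX_univ]; trivial)
  rwa [Set.univ_inter] at this

omit h2 in
theorem vdl_r_eq {g : ArtinGroup M} (hg : g ∈ AX M A) : r g = g := by
  have : AX M A ≤ r.eqLocus (MonoidHom.id _) := by
    refine (Subgroup.closure_le _).2 ?_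
    rintro _ ⟨s, hs, rfl⟩
    exact h1 s hs
  exact this hg

omit h1 in
theorem vdl_r_one {g : ArtinGroup M} (hg : g ∈ AX M Aᶜ) : r g = 1 := by
  have : AX M Aᶜ ≤ r.ker := by
    refine (Subgroup.closure_le _).2 ?_
    rintro _ ⟨s, hs, rfl⟩
    exact h2 s hs
  exact this hg

end

/-- With `r₁, r₂` the retractions onto `A` and `Aᶜ`: `g = r₁ g * r₂ g`, the images commute, and
`g ∈ A_X ↔ r₁ g ∈ A_{X ∩ A} ∧ r₂ g ∈ A_{X ∖ A}`; similarly for conjugates.  So the intersection is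
`b₁ b₂ A_{Z₁ ∪ Z₂} (b₁ b₂)⁻¹` where `bᵢ, Zᵢ` come from `parIn_of_sub`. -/
theorem interProp_of_reducible {A : Set S} (hA : ∀ s ∈ A, ∀ t, t ∉ A → M s t = 2)
    (h1 : InterProp (sub M (incl A))) (h2 : InterProp (sub M (incl Aᶜ))) : InterProp M := by
  have hA' : ∀ s ∈ Aᶜ, ∀ t, t ∉ Aᶜ → M s t = 2 := fun s hs t ht => by
    rw [M.symmetric s t]; exact hA t (not_not.1 ht) s hs
  obtain ⟨r₁, a1, a2⟩ := exists_retraction hA
  obtain ⟨r₂, b1, b2⟩ := exists_retraction hA'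
  have hcomm : ∀ x y, Commute (r₁ x) (r₂ y) := fun x y =>
    commute_of_AX M (fun s hs t ht => hA s hs t ht) (vdl_r_mem' a1 a2 x) (vdl_r_mem' b1 b2 y)
  have hdec : ∀ g, g = r₁ g * r₂ g := by
    intro g
    have hg : g ∈ AX M Set.univ := by rw [AX_univ]; trivial
    induction hg using Subgroup.closure_induction with
    | mem x hx =>
      obtain ⟨s, -, rfl⟩ := hx
      by_cases hs : s ∈ A
      · have := b2 s (not_not.2 hs)
        rw [a1 s hs, this, mul_one]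
      · rw [a2 s hs, b1 s hs, one_mul]
    | one => simp
    | mul x y _ _ hx hy =>
      rw [map_mul, map_mul]
      calc x * y = (r₁ x * r₂ x) * (r₁ y * r₂ y) := by rw [← hx, ← hy]
        _ = r₁ x * (r₂ x * r₁ y) * r₂ y := by group
        _ = r₁ x * (r₁ y * r₂ x) * r₂ y := by rw [(hcomm y x).eq]
        _ = _ := by group
    | inv x _ hx =>
      rw [map_inv, map_inv, ← mul_inv_rev, ← (hcomm x x).eq, ← hx]
  have hmem : ∀ (X : Set S) g, g ∈ AX M X ↔ r₁ g ∈ AX M (X ∩ A) ∧ r₂ g ∈ AX M (X ∩ Aᶜ) := by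
    intro X g
    refine ⟨fun hg => ⟨vdl_r_mem a1 a2 hg, vdl_r_mem b1 b2 hg⟩, fun hg => ?_⟩
    rw [hdec g]
    exact mul_mem (AX_mono M Set.inter_subset_left hg.1) (AX_mono M Set.inter_subset_left hg.2)
  have hcj : ∀ (X : Set S) h g, g ∈ cj h (AX M X) ↔
      r₁ g ∈ cj (r₁ h) (AX M (X ∩ A)) ∧ r₂ g ∈ cj (r₂ h) (AX M (X ∩ Aᶜ)) := by
    intro X h g
    simp only [vdl_mem_cj, hmem X, map_mul, map_inv]
  intro X Y h
  obtain ⟨c₁, hc₁, Z₁, hZ₁, hP₁⟩ := parIn_of_sub M h1 (X := X ∩ A) (Y := Y ∩ A)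
    Set.inter_subset_right Set.inter_subset_right (vdl_r_mem' a1 a2 h)
  obtain ⟨c₂, hc₂, Z₂, hZ₂, hP₂⟩ := parIn_of_sub M h2 (X := X ∩ Aᶜ) (Y := Y ∩ Aᶜ)
    Set.inter_subset_right Set.inter_subset_right (vdl_r_mem' b1 b2 h)
  have hc₁' : c₁ ∈ AX M A := AX_mono M Set.inter_subset_right hc₁
  have hc₂' : c₂ ∈ AX M Aᶜ := AX_mono M Set.inter_subset_right hc₂
  refine ⟨c₁ * c₂, mul_mem (AX_mono M Set.inter_subset_left hc₁)
    (AX_mono M Set.inter_subset_left hc₂), Z₁ ∪ Z₂,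
    Set.union_subset (hZ₁.trans Set.inter_subset_left) (hZ₂.trans Set.inter_subset_left), ?_⟩
  have e1 : r₁ (c₁ * c₂) = c₁ := by
    rw [map_mul, vdl_r_eq a1 hc₁', vdl_r_one a2 hc₂', mul_one]
  have e2 : r₂ (c₁ * c₂) = c₂ := by
    rw [map_mul, vdl_r_eq b1 hc₂', vdl_r_one b2 (by rwa [compl_compl]), one_mul]
  have e3 : (Z₁ ∪ Z₂) ∩ A = Z₁ := by
    ext s
    constructor
    · rintro ⟨hs | hs, hsA⟩
      · exact hs
      · exact absurd hsA (hZ₂ hs).2
    · exact fun hs => ⟨Or.inl hs, (hZ₁ hs).2⟩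
  have e4 : (Z₁ ∪ Z₂) ∩ Aᶜ = Z₂ := by
    ext s
    constructor
    · rintro ⟨hs | hs, hsA⟩
      · exact absurd (hZ₁ hs).2 hsA
      · exact hs
    · exact fun hs => ⟨Or.inr hs, (hZ₂ hs).2⟩
  ext g
  rw [hcj (Z₁ ∪ Z₂), e1, e2, e3, e4, ← hP₁, ← hP₂, Subgroup.mem_inf, Subgroup.mem_inf,
    Subgroup.mem_inf, hmem X, hcj Y]
  tauto

end Crest.R175
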