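import Crest.Agent.R175.SP

/-! Row 175: the spherical case. -/

set_option autoImplicit false
set_option linter.unusedSectionVars false

namespace Crest.R175

open Crest.GroupTheory

variable {S : Type} [Fintype S] [DecidableEq S] (M : CoxeterMatrix S) [Finite M.Group]

theorem sph_pos {X : Set S} {p : ArtinGroup M} (h : p ∈ PosOn M X) : p ∈ Pos M :=
  Submonoid.closure_mono (Set.image_mono (Set.subset_univ X)) h

theorem sph_AX {X : Set S} {p : ArtinGroup M} (h : p ∈ PosOn M X) : p ∈ AX M X :=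
  (Submonoid.closure_le (S := (AX M X).toSubmonoid)).2 Subgroup.subset_closure h

theorem sph_word {X : Set S} {p : ArtinGroup M} (h : p ∈ PosOn M X) :
    ∃ l : List S, (∀ s ∈ l, s ∈ X) ∧ p = wp (σ M) l := by
  induction h using Submonoid.closure_induction with
  | mem x hx =>
    obtain ⟨s, hs, rfl⟩ := hx
    exact ⟨[s], by simpa using hs, by simp⟩
  | one => exact ⟨[], by simp, rfl⟩
  | mul x y _ _ hx hy =>
    obtain ⟨l, h1, rfl⟩ := hx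
    obtain ⟨l', h2, rfl⟩ := hy
    refine ⟨l ++ l', fun s hs => ?_, by simp⟩
    rcases List.mem_append.1 hs with h | h
    · exact h1 s h
    · exact h2 s h

theorem sph_len_mul (x y : ArtinGroup M) : len M (x * y) = len M x + len M y := by
  simp [len]

theorem sph_len_inv (x : ArtinGroup M) : len M x⁻¹ = -len M x := by
  simp [len]

theorem sph_len_σ (s : S) : len M (σ M s) = 1 := by
  simp [len]

theorem sph_len_wp (l : List S) : len M (wp (σ M) l) = l.length := by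
  induction l with
  | nil => simp [len]
  | cons s l ih =>
    rw [wp_cons, sph_len_mul, ih, sph_len_σ, List.length_cons]
    push_cast
    ring

theorem sph_len_nonneg {p : ArtinGroup M} (h : p ∈ Pos M) : 0 ≤ len M p := by
  obtain ⟨l, -, rfl⟩ := sph_word M h
  rw [sph_len_wp]
  positivity

theorem sph_finite (D : ArtinGroup M) : {p | p ∈ Pos M ∧ Pre M p D}.Finite := by
  refine ((List.finite_length_le S (len M D).toNat).image (wp (σ M))).subset ?_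
  rintro p ⟨h1, h2⟩
  obtain ⟨l, -, rfl⟩ := sph_word M h1
  refine ⟨l, ?_, rfl⟩
  have := sph_len_nonneg M h2
  rw [sph_len_mul, sph_len_inv, sph_len_wp] at this
  change l.length ≤ _
  omega

theorem sph_trans {x y z : ArtinGroup M} (h : Pre M x y) (h' : Pre M y z) : Pre M x z := by
  have := (Pos M).mul_mem h h'
  rwa [show x⁻¹ * y * (y⁻¹ * z) = x⁻¹ * z by group] at this

theorem sph_refl (x : ArtinGroup M) : Pre M x x := by
  change x⁻¹ * x ∈ Pos M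
  rw [inv_mul_cancel]
  exact (Pos M).one_mem

theorem sph_mem_cj {G : Type*} [Group G] {b g : G} {P : Subgroup G} :
    g ∈ cj b P ↔ b⁻¹ * g * b ∈ P := by
  rw [Subgroup.mem_map]
  constructor
  · rintro ⟨a, ha, rfl⟩
    simpa [mul_assoc] using ha
  · intro h
    exact ⟨_, h, by simp [mul_assoc]⟩

/-- moves stay among the finitely many states: if `ρ ≼ D` (`D = Δ^r`, used through `hD`), `y` is
positive and `y⁻¹ ρ A_X` contains a positive element, it contains one below `D`.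
(`y ≼ ρ a ≼ ρ p` with `p ∈ PosOn X` by `frac_right`; `m = lcm y ρ ≼ ρ p` so `m = ρ p'`,
`p' ∈ PosOn X`; `m ≼ y D`; take `y⁻¹ m`.) -/
theorem move_bounded {X : Set S} {D ρ y : ArtinGroup M} (hD : ∀ p ∈ Pos M, Pre M D (p * D))
    (hρ : ρ ∈ Pos M) (hρD : Pre M ρ D) (hy : y ∈ Pos M) {a : ArtinGroup M} (ha : a ∈ AX M X)
    (h : y⁻¹ * ρ * a ∈ Pos M) :
    ∃ a' ∈ AX M X, y⁻¹ * ρ * a' ∈ Pos M ∧ Pre M (y⁻¹ * ρ * a') D := by
  obtain ⟨p, hp, p₂, hp₂, rfl⟩ := frac_right M ha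
  obtain ⟨m, hm⟩ := exists_lcm M y ρ
  obtain ⟨h1, h2⟩ := (hm m).1 (sph_refl M m)
  have h3 : Pre M m (ρ * p) := by
    refine (hm _).2 ⟨?_, ?_⟩
    · have := (Pos M).mul_mem h (sph_pos M hp₂)
      rwa [show y⁻¹ * ρ * (p * p₂⁻¹) * p₂ = y⁻¹ * (ρ * p) by group] at this
    · change ρ⁻¹ * (ρ * p) ∈ Pos M
      rw [inv_mul_cancel_left]
      exact sph_pos M hp
  have h4 := (posOn_of_mul M (X := X) h2 h3
    (by rwa [show ρ⁻¹ * m * (m⁻¹ * (ρ * p)) = p by group])).1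
  have e : y⁻¹ * ρ * (ρ⁻¹ * m) = y⁻¹ * m := by group
  refine ⟨ρ⁻¹ * m, sph_AX M h4, e ▸ h1, ?_⟩
  have h5 : Pre M m (y * D) := by
    refine (hm _).2 ⟨?_, sph_trans M hρD (hD y hy)⟩
    have := (Pos M).mul_mem hρ hρD
    change y⁻¹ * (y * D) ∈ Pos M
    rwa [inv_mul_cancel_left, ← mul_inv_cancel_left ρ D]
  rw [e]
  change (y⁻¹ * m)⁻¹ * D ∈ Pos M
  rwa [show (y⁻¹ * m)⁻¹ * D = m⁻¹ * (y * D) by group]

/-- a recurrent state of minimal length.  Call `ρ'` *reachable from* `ρ` if it is positive and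
`ρ' ∈ y⁻¹ ρ A_X` for some `y ∈ PosOn Y` (reflexive on positives, transitive).  By `move_bounded` only
finitely many cosets `ρ' A_X` are reachable; choose a reachable `ρ₁` whose set of reachable cosets is
minimal, then `ρ₀` reachable from `ρ₁` of minimal length. -/
theorem exists_recurrent (X Y : Set S) {ρ : ArtinGroup M} (hρ : ρ ∈ Pos M) :
    ∃ y₀ ∈ PosOn M Y, ∃ a₀ ∈ AX M X, y₀⁻¹ * ρ * a₀ ∈ Pos M ∧
      ∀ y ∈ PosOn M Y, ∀ a ∈ AX M X, y⁻¹ * (y₀⁻¹ * ρ * a₀) * a ∈ Pos M →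
        len M (y₀⁻¹ * ρ * a₀) ≤ len M (y⁻¹ * (y₀⁻¹ * ρ * a₀) * a) ∧
        ∃ y' ∈ PosOn M Y, (y₀⁻¹ * ρ * a₀)⁻¹ * (y * y') * (y₀⁻¹ * ρ * a₀) ∈ AX M X := by
  obtain ⟨w0, -, g1, g2, -⟩ := exists_garside M
  obtain ⟨r, hr⟩ := g2 ρ hρ
  let R : ArtinGroup M → ArtinGroup M → Prop := fun x x' =>
    x' ∈ Pos M ∧ ∃ y ∈ PosOn M Y, ∃ a ∈ AX M X, x' = y⁻¹ * x * a
  have Rrefl : ∀ x ∈ Pos M, R x x := fun x hx =>
    ⟨hx, 1, Submonoid.one_mem _, 1, Subgroup.one_mem _, by simp⟩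
  have Rtrans : ∀ x x' x'', R x x' → R x' x'' → R x x'' := by
    rintro x _ _ ⟨-, y, hy, a, ha, rfl⟩ ⟨h, y', hy', a', ha', rfl⟩
    exact ⟨h, y * y', Submonoid.mul_mem _ hy hy', a * a', Subgroup.mul_mem _ ha ha', by group⟩
  let C : ArtinGroup M → Set (ArtinGroup M ⧸ AX M X) := fun x =>
    (QuotientGroup.mk : ArtinGroup M → ArtinGroup M ⧸ AX M X) '' {x' | R x x'}
  have Cmono : ∀ x x', R x x' → C x' ⊆ C x := fun x x' h =>
    Set.image_mono fun x'' h' => Rtrans _ _ _ h h'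
  have Cfin : (C ρ).Finite := by
    refine ((sph_finite M (q M w0 ^ r)).image QuotientGroup.mk).subset ?_
    rintro _ ⟨_, ⟨h, y, hy, a, ha, rfl⟩, rfl⟩
    obtain ⟨a', ha', h1⟩ := move_bounded M (fun p hp => g1 p hp r) hρ hr (sph_pos M hy) ha h
    refine ⟨_, h1, QuotientGroup.eq.2 ?_⟩
    rw [show (y⁻¹ * ρ * a')⁻¹ * (y⁻¹ * ρ * a) = a'⁻¹ * a by group]
    exact Subgroup.mul_mem _ (Subgroup.inv_mem _ ha') ha
  obtain ⟨ρ₁, h₁, m₁⟩ := (InvImage.wf (fun x => (C x).ncard) wellFounded_lt).has_min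
    {x | R ρ x} ⟨ρ, Rrefl ρ hρ⟩
  obtain ⟨ρ₀, h₀, m₀⟩ := (InvImage.wf (fun x => (len M x).toNat) wellFounded_lt).has_min
    {x | R ρ₁ x} ⟨ρ₁, Rrefl ρ₁ h₁.1⟩
  obtain ⟨hp, y₀, hy₀, a₀, ha₀, e⟩ := Rtrans _ _ _ h₁ h₀
  refine ⟨y₀, hy₀, a₀, ha₀, e ▸ hp, ?_⟩
  rw [← e]
  intro y hy a ha h
  have r0 : R ρ₀ (y⁻¹ * ρ₀ * a) := ⟨h, y, hy, a, ha, rfl⟩
  have r1 := Rtrans _ _ _ h₀ r0
  constructor
  · have h2 : ¬ (len M (y⁻¹ * ρ₀ * a)).toNat < (len M ρ₀).toNat := m₀ _ r1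
    have h3 := sph_len_nonneg M h
    omega
  · have h2 : ¬ (C (y⁻¹ * ρ₀ * a)).ncard < (C ρ₁).ncard := m₁ _ (Rtrans _ _ _ h₁ r1)
    have h3 : C (y⁻¹ * ρ₀ * a) = C ρ₁ :=
      Set.eq_of_subset_of_ncard_le (Cmono _ _ r1) (not_lt.1 h2) (Cfin.subset (Cmono _ _ h₁))
    have h4 : (QuotientGroup.mk ρ₀ : ArtinGroup M ⧸ AX M X) ∈ C (y⁻¹ * ρ₀ * a) :=
      h3 ▸ ⟨ρ₀, h₀, rfl⟩
    obtain ⟨_, ⟨-, y', hy', a', ha', rfl⟩, h5⟩ := h4
    refine ⟨y', hy', ?_⟩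
    have h6 := Subgroup.mul_mem _ (Subgroup.mul_mem _ ha ha') (QuotientGroup.eq.1 h5)
    rwa [show a * a' * ((y'⁻¹ * (y⁻¹ * ρ₀ * a) * a')⁻¹ * ρ₀) = ρ₀⁻¹ * (y * y') * ρ₀ by group] at h6

/-- at a recurrent minimal state the intersection is standard.  `ρ` is minimal in `ρ A_X`
(`pre_of_min_len`) and `Y`-reduced.  A positive cycle `y ∈ PosOn Y` with `ρ⁻¹ y ρ ∈ A_X` has
`ρ⁻¹ y ρ ∈ PosOn X`, so by `slide` and `mem_of_wp_mem_posOn` all its letters lie in `Z`.  A general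
`g` in the intersection: `v = lcm 1 g`, `u = g⁻¹ v` are in `PosOn Y` (`frac_right`, `posOn_of_mul`,
`posOn_of_pos_of_AX`); `v ≼ ρ p` where `ρ⁻¹ g ρ = p p'⁻¹`; recurrence gives `y'` with `v y'` and `u y'`
positive cycles, `g = (v y') (u y')⁻¹`. -/
theorem inter_of_recurrent (X Y : Set S) {ρ : ArtinGroup M} (hρ : ρ ∈ Pos M)
    (h : ∀ y ∈ PosOn M Y, ∀ a ∈ AX M X, y⁻¹ * ρ * a ∈ Pos M →
        len M ρ ≤ len M (y⁻¹ * ρ * a) ∧ ∃ y' ∈ PosOn M Y, ρ⁻¹ * (y * y') * ρ ∈ AX M X) :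
    AX M Y ⊓ cj ρ (AX M X) = AX M {s ∈ Y | ρ⁻¹ * σ M s * ρ ∈ AX M X} := by
  have hX := pre_of_min_len M (X := X) hρ fun ρ' h1 h2 => by
    have e : (1 : ArtinGroup M)⁻¹ * ρ * (ρ⁻¹ * ρ') = ρ' := by group
    have := (h 1 (Submonoid.one_mem _) _ h2 (by rwa [e])).1
    rwa [e] at this
  have hred : ∀ s ∈ Y, ¬ Pre M (σ M s) ρ := fun s hs h1 => by
    have := (h (σ M s) (Submonoid.subset_closure ⟨s, hs, rfl⟩) 1 (Subgroup.one_mem _)
      (by rwa [mul_one])).1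
    rw [mul_one, sph_len_mul, sph_len_inv, sph_len_σ] at this
    omega
  have hcyc : ∀ y ∈ PosOn M Y, ρ⁻¹ * y * ρ ∈ AX M X →
      y ∈ AX M {s ∈ Y | ρ⁻¹ * σ M s * ρ ∈ AX M X} := by
    intro y hy h1
    have h2 := hX (y * ρ) ((Pos M).mul_mem (sph_pos M hy) hρ) (by rwa [← mul_assoc])
    obtain ⟨l, hl, rfl⟩ := sph_word M hy
    obtain ⟨f, hf⟩ := slide M hρ hred hl (sph_pos M h2)
    have h3 : ∀ l' : List S, (∀ s ∈ l', s ∈ l) → wp (σ M) l' * ρ = ρ * wp (σ M) (l'.map f) := by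
      intro l'
      induction l' with
      | nil => simp
      | cons s l' ih =>
        intro h4
        rw [List.map_cons, wp_cons, wp_cons, mul_assoc,
          ih fun t ht => h4 t (List.mem_cons_of_mem _ ht), ← mul_assoc,
          hf s (h4 s List.mem_cons_self), mul_assoc]
    rw [h3 l fun _ h => h, inv_mul_cancel_left] at h2
    have h4 := mem_of_wp_mem_posOn M h2
    refine Subgroup.list_prod_mem _ fun x hx => ?_
    obtain ⟨s, hs, rfl⟩ := List.mem_map.1 hx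
    refine σ_mem M ⟨hl s hs, ?_⟩
    rw [mul_assoc, hf s hs, inv_mul_cancel_left]
    exact σ_mem M (h4 _ (List.mem_map_of_mem hs))
  refine le_antisymm ?_ ((Subgroup.closure_le _).2 ?_)
  · rintro g ⟨hg, hg'⟩
    have hg2 : ρ⁻¹ * g * ρ ∈ AX M X := sph_mem_cj.1 hg'
    obtain ⟨g₁, hg₁, g₂, hg₂, e⟩ := frac_right M hg
    obtain ⟨p, hp, p', hp', e'⟩ := frac_right M hg2
    obtain ⟨v, hv⟩ := exists_lcm M 1 g
    obtain ⟨h1, h2⟩ := (hv v).1 (sph_refl M v)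
    have h1' : v ∈ Pos M := by simpa [Pre] using h1
    have h3 : Pre M v g₁ := by
      refine (hv _).2 ⟨by simpa [Pre] using sph_pos M hg₁, ?_⟩
      change g⁻¹ * g₁ ∈ Pos M
      rw [e, show (g₁ * g₂⁻¹)⁻¹ * g₁ = g₂ by group]
      exact sph_pos M hg₂
    have h4 : v ∈ PosOn M Y :=
      (posOn_of_mul M (X := Y) h1' h3 (by rwa [mul_inv_cancel_left])).1
    have h5 : g⁻¹ * v ∈ PosOn M Y :=
      posOn_of_pos_of_AX M h2 (Subgroup.mul_mem _ (Subgroup.inv_mem _ hg) (sph_AX M h4))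
    have h6 : Pre M v (ρ * p) := by
      refine (hv _).2 ⟨by simpa [Pre] using (Pos M).mul_mem hρ (sph_pos M hp), ?_⟩
      change g⁻¹ * (ρ * p) ∈ Pos M
      rw [show g⁻¹ * (ρ * p) = ρ * ((ρ⁻¹ * g * ρ)⁻¹ * p) by group, e',
        show (p * p'⁻¹)⁻¹ * p = p' by group]
      exact (Pos M).mul_mem hρ (sph_pos M hp')
    obtain ⟨-, y', hy', h7⟩ := h v h4 p (sph_AX M hp) (by rwa [mul_assoc])
    have h8 := hcyc _ (Submonoid.mul_mem _ h4 hy') h7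
    have h9 := hcyc _ (Submonoid.mul_mem _ h5 hy') (by
      rw [show ρ⁻¹ * (g⁻¹ * v * y') * ρ = (ρ⁻¹ * g * ρ)⁻¹ * (ρ⁻¹ * (v * y') * ρ) by group]
      exact Subgroup.mul_mem _ (Subgroup.inv_mem _ hg2) h7)
    have := Subgroup.mul_mem _ h8 (Subgroup.inv_mem _ h9)
    rwa [show v * y' * (g⁻¹ * v * y')⁻¹ = g by group] at this
  · rintro _ ⟨s, ⟨h1, h2⟩, rfl⟩
    exact ⟨σ_mem M h1, sph_mem_cj.2 h2⟩

/-- **Spherical case.**  Make `h` positive by a central element (`exists_garside`), then conjugate by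
`y₀`. -/
theorem interProp_of_finite : InterProp M := by
  intro X Y h
  obtain ⟨w0, -, -, -, g⟩ := exists_garside M
  obtain ⟨c, hc, hρ⟩ := g h
  obtain ⟨y₀, hy₀, a₀, ha₀, h1, h2⟩ := exists_recurrent M Y X hρ
  refine ⟨y₀, sph_AX M hy₀, {s ∈ X | (y₀⁻¹ * (h * c) * a₀)⁻¹ * σ M s * (y₀⁻¹ * (h * c) * a₀) ∈
    AX M Y}, Set.sep_subset _ _, ?_⟩
  rw [← inter_of_recurrent M Y X h1 h2]
  ext g
  have hy := sph_AX M hy₀
  rw [sph_mem_cj, Subgroup.mem_inf, Subgroup.mem_inf, sph_mem_cj, sph_mem_cj,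
    Subgroup.mul_mem_cancel_right _ hy, Subgroup.mul_mem_cancel_left _ (Subgroup.inv_mem _ hy),
    show (y₀⁻¹ * (h * c) * a₀)⁻¹ * (y₀⁻¹ * g * y₀) * (y₀⁻¹ * (h * c) * a₀) =
      a₀⁻¹ * (c⁻¹ * (h⁻¹ * g * h * c)) * a₀ by group, (hc _).eq, inv_mul_cancel_left,
    Subgroup.mul_mem_cancel_right _ ha₀, Subgroup.mul_mem_cancel_left _ (Subgroup.inv_mem _ ha₀)]

end Crest.R175
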