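import Crest.Agent.R175.Chain
import Crest.Agent.R175.Prod
import Crest.Agent.R175.Sph

/-! Row 175: the intersection theorem. -/

set_option autoImplicit false

namespace Crest.R175

open Crest.GroupTheory

theorem interProp_aux (n : ℕ) : ∀ (S : Type) [Fintype S] [DecidableEq S] (M : CoxeterMatrix S),
    Fintype.card S ≤ n → InterProp M := by
  classical
  induction n with
  | zero =>
    intro S _ _ M h
    haveI : IsEmpty S := Fintype.card_eq_zero_iff.1 (Nat.le_zero.1 h)
    have hP : PosDef M := fun v _ hv => absurd (Subsingleton.elim _ _) hv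
    haveI := finite_of_posDef M hP
    exact interProp_of_finite M
  | succ n ih =>
    intro S _ _ M h
    have key : ∀ T : Set S, T ≠ Set.univ → InterProp (sub M (incl T)) := by
      intro T hT
      refine ih T _ (Nat.lt_succ_iff.1 (lt_of_lt_of_le ?_ h))
      obtain ⟨s, hs⟩ := (Set.ne_univ_iff_exists_notMem T).1 hT
      exact Fintype.card_subtype_lt (x := s) hs
    by_cases hP : PosDef M
    · haveI := finite_of_posDef M hP
      exact interProp_of_finite M
    by_cases hM : Irred M
    · exact interProp_of_irred hM hP key
    · simp only [Irred, not_forall] at hM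
      obtain ⟨A, hne, hcl, hA⟩ := hM
      refine interProp_of_reducible (A := A) ?_ (key A hA) (key Aᶜ ?_)
      · intro s hs t ht
        by_contra h2
        exact ht (hcl s hs t (fun e => ht (e ▸ hs)) h2)
      · obtain ⟨s, hs⟩ := hne
        intro e
        exact (e ▸ Set.mem_univ s : s ∈ Aᶜ) hs

theorem interProp {S : Type*} [Finite S] (M : CoxeterMatrix S) : InterProp M := by
  classical
  obtain ⟨n, ⟨e⟩⟩ := Finite.exists_equiv_fin S
  let f : Fin n ↪ S := e.symm.toEmbedding
  have hI : InterProp (sub M f) := interProp_aux n (Fin n) _ (by simp)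
  -- the inverse map
  let g : ArtinGroup M →* ArtinGroup (sub M f) :=
    artinLift M (fun s => σ (sub M f) (e s)) (by
      intro s t
      have h := braidRel_σ (sub M f) (e s) (e t)
      have h' : sub M f (e s) (e t) = M s t := by simp [f]
      rw [h'] at h
      simp only [wp, ← map_alt, List.map_map] at h ⊢
      exact h)
  have hgf : ∀ x, g (artinMap M f x) = x := by
    intro x
    have : g.comp (artinMap M f) = MonoidHom.id _ := by
      apply PresentedGroup.ext
      intro t
      have h1 := artinMap_σ M f t
      have h2 := artinLift_σ M (fun s => σ (sub M f) (e s))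
      change g (artinMap M f (σ _ t)) = σ _ t
      rw [h1]
      simp [g, f]
    exact DFunLike.congr_fun this x
  have hfg : ∀ x, artinMap M f (g x) = x := by
    intro x
    have : (artinMap M f).comp g = MonoidHom.id _ := by
      apply PresentedGroup.ext
      intro t
      change artinMap M f (g (σ _ t)) = σ _ t
      simp [g, f]
    exact DFunLike.congr_fun this x
  have hinj : Function.Injective (artinMap M f) := Function.LeftInverse.injective hgf
  have hcj : ∀ (b : ArtinGroup (sub M f)) (P : Subgroup (ArtinGroup (sub M f))),
      (cj b P).map (artinMap M f) = cj (artinMap M f b) (P.map (artinMap M f)) := by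
    intro b P
    simp only [cj, Subgroup.map_map]
    congr 1
    ext x
    simp
  have him : ∀ X : Set S, f '' (f ⁻¹' X) = X := fun X =>
    Set.image_preimage_eq X e.symm.surjective
  intro X Y h
  obtain ⟨b, hb, Z, hZ, hP⟩ := hI (f ⁻¹' X) (f ⁻¹' Y) (g h)
  refine ⟨artinMap M f b, ?_, f '' Z, ?_, ?_⟩
  · rw [← him X, ← map_AX]; exact ⟨b, hb, rfl⟩
  · rw [← him X]; exact Set.image_mono hZ
  · have := congrArg (Subgroup.map (artinMap M f)) hP
    rw [Subgroup.map_inf _ _ _ hinj, hcj, hcj, map_AX, map_AX, map_AX, him, him, hfg] at this
    exact this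

end Crest.R175
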