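import Crest.Agent.R175.Mats1

/-! Row 175: the abstract directedness lemma, Matsumoto's theorem, the lift `qq`. -/

set_option autoImplicit false
set_option linter.unusedSectionVars false

namespace Crest.R175

variable {S : Type} [Fintype S] [DecidableEq S] (M : CoxeterMatrix S)

theorem mem_posOn_iff (X : Set S) (p : Crest.GroupTheory.ArtinGroup M) :
    p ∈ PosOn M X ↔ ∃ l : List S, (∀ s ∈ l, s ∈ X) ∧ p = wp (σ M) l := by
  constructor
  · intro h
    induction h using Submonoid.closure_induction with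
    | mem x hx =>
      obtain ⟨s, hs, rfl⟩ := hx
      exact ⟨[s], by simpa using hs, by simp⟩
    | one => exact ⟨[], by simp, rfl⟩
    | mul x y _ _ hx hy =>
      obtain ⟨l, hl, rfl⟩ := hx
      obtain ⟨l', hl', rfl⟩ := hy
      exact ⟨l ++ l', fun s hs => (List.mem_append.1 hs).elim (hl s) (hl' s), by simp⟩
  · rintro ⟨l, hl, rfl⟩
    refine Submonoid.list_prod_mem _ fun x hx => ?_
    obtain ⟨s, hs, rfl⟩ := List.mem_map.1 hx
    exact Submonoid.subset_closure ⟨s, hl s hs, rfl⟩

theorem posOn_le_pos (X : Set S) : PosOn M X ≤ Pos M := by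
  exact Submonoid.closure_mono (Set.image_mono (Set.subset_univ X))

theorem mem_AX_of_posOn {X : Set S} {p : Crest.GroupTheory.ArtinGroup M} (h : p ∈ PosOn M X) :
    p ∈ AX M X := by
  exact Subgroup.le_closure_toSubmonoid _ h

theorem q_mem_posOn {X : Set S} {w : M.Group} (hw : w ∈ WX M X) : q M w ∈ PosOn M X := by
  exact (mem_posOn_iff M X _).2 ⟨rw M w,
    mem_of_reduced_of_mem_WX M (rw_reduced M w) (by rwa [wπ_rw]), rfl⟩

theorem q_mem_pos (w : M.Group) : q M w ∈ Pos M := by
  exact (mem_posOn_iff M _ _).2 ⟨rw M w, fun _ _ => trivial, rfl⟩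

theorem pre_q_of_wle {u w : M.Group} (h : WLe M u w) : Pre M (q M u) (q M w) := by
  have := qq_mul M (braidRel_σ M) (u := u) (v := u⁻¹ * w) (by rw [mul_inv_cancel_left]; exact h.symm)
  rw [mul_inv_cancel_left] at this
  unfold Pre q
  rw [this, inv_mul_cancel_left]
  exact q_mem_pos M _

theorem Pre.refl (x : Crest.GroupTheory.ArtinGroup M) : Pre M x x := by
  unfold Pre
  rw [inv_mul_cancel]
  exact one_mem _

theorem Pre.trans {M : CoxeterMatrix S} {x y z : Crest.GroupTheory.ArtinGroup M} (h : Pre M x y)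
    (h' : Pre M y z) : Pre M x z := by
  have := mul_mem h h'
  rwa [mul_assoc, mul_inv_cancel_left] at this

theorem pre_mul_iff (g x y : Crest.GroupTheory.ArtinGroup M) : Pre M (g * x) (g * y) ↔ Pre M x y := by
  unfold Pre
  rw [mul_inv_rev, mul_assoc, inv_mul_cancel_left]

theorem pre_mul_right (x : Crest.GroupTheory.ArtinGroup M) {p : Crest.GroupTheory.ArtinGroup M}
    (hp : p ∈ Pos M) : Pre M x (x * p) := by
  unfold Pre
  rwa [inv_mul_cancel_left]

theorem len_mul (x y : Crest.GroupTheory.ArtinGroup M) : len M (x * y) = len M x + len M y := by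
  simp [len]

theorem len_one : len M 1 = 0 := by
  simp [len]

theorem len_inv (x : Crest.GroupTheory.ArtinGroup M) : len M x⁻¹ = -len M x := by
  simp [len]

theorem len_σ (s : S) : len M (σ M s) = 1 := by
  simp [len]

theorem len_wp (l : List S) : len M (wp (σ M) l) = l.length := by
  induction l with
  | nil => simp [len_one]
  | cons s l ih => simp [len_mul, len_σ, ih, add_comm]

theorem len_q (w : M.Group) : len M (q M w) = ℓ M w := by
  have := rw_reduced M w
  rw [CoxeterSystem.IsReduced, show (cs M).wordProd (rw M w) = w from wπ_rw M w] at this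
  rw [q, qq, len_wp, ← this]

theorem Pre.len_le {M : CoxeterMatrix S} {x y : Crest.GroupTheory.ArtinGroup M} (h : Pre M x y) :
    len M x ≤ len M y := by
  obtain ⟨l, -, e⟩ := (mem_posOn_iff M _ _).1 h
  have := congrArg (len M) e
  rw [len_mul, len_inv, len_wp] at this
  omega

theorem Pre.eq_of_len {M : CoxeterMatrix S} {x y : Crest.GroupTheory.ArtinGroup M} (h : Pre M x y)
    (h' : len M y ≤ len M x) : x = y := by
  obtain ⟨l, -, e⟩ := (mem_posOn_iff M _ _).1 h
  have := congrArg (len M) e
  rw [len_mul, len_inv, len_wp] at this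
  rw [List.length_eq_zero_iff.1 (show l.length = 0 by omega)] at e
  exact inv_mul_eq_one.1 e

theorem Pre.eq_or_step {M : CoxeterMatrix S} {x y : Crest.GroupTheory.ArtinGroup M}
    (h : Pre M x y) : x = y ∨ ∃ s, Pre M (x * σ M s) y := by
  obtain ⟨_ | ⟨s, l⟩, -, e⟩ := (mem_posOn_iff M _ _).1 h
  · exact Or.inl (inv_mul_eq_one.1 e)
  · refine Or.inr ⟨s, (mem_posOn_iff M _ _).2 ⟨l, fun _ _ => trivial, ?_⟩⟩
    rw [mul_inv_rev, mul_assoc, e, wp_cons, inv_mul_cancel_left]

theorem finite_pos_len (n : ℤ) :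
    {p : Crest.GroupTheory.ArtinGroup M | p ∈ Pos M ∧ len M p ≤ n}.Finite := by
  refine ((List.finite_length_le S n.toNat).image (wp (σ M))).subset ?_
  rintro p ⟨hp, hn⟩
  obtain ⟨l, -, rfl⟩ := (mem_posOn_iff M _ _).1 hp
  rw [len_wp] at hn
  exact ⟨l, show l.length ≤ n.toNat by omega, rfl⟩

/-- A positive element is simple or has a prefix `q w' σ_s σ_s` with `w' s` reduced.  (Take the
longest reduced prefix of a positive word; the next letter is a right descent.) -/
theorem simple_or_fold {p : Crest.GroupTheory.ArtinGroup M} (hp : p ∈ Pos M) :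
    (∃ w, p = q M w) ∨
      ∃ w' s, ℓ M w' < ℓ M (w' * sr M s) ∧ Pre M (q M w' * σ M s * σ M s) p := by
  obtain ⟨l, -, rfl⟩ := (mem_posOn_iff M _ _).1 hp
  clear hp
  induction l using List.reverseRecOn with
  | nil => exact Or.inl ⟨1, (q_one M).symm⟩
  | append_singleton l s ih =>
    have e : wp (σ M) (l ++ [s]) = wp (σ M) l * σ M s := by simp
    rw [e]
    rcases ih with ⟨w, hw⟩ | ⟨w', t, h1, h2⟩
    · rw [hw]
      rcases lt_or_gt_of_ne ((cs M).length_mul_simple_ne w s) with h | h
      · have h' : ℓ M (w * sr M s) < ℓ M (w * sr M s * sr M s) := by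
          rwa [(cs M).simple_mul_simple_cancel_right]
        refine Or.inr ⟨w * sr M s, s, h', ?_⟩
        rw [← q_mul_sr M h', (cs M).simple_mul_simple_cancel_right]
        exact Pre.refl M _
      · exact Or.inl ⟨_, (q_mul_sr M h).symm⟩
    · exact Or.inr ⟨w', t, h1,
        h2.trans (pre_mul_right M _ (Submonoid.subset_closure ⟨s, trivial, rfl⟩))⟩

/-- commuting parabolic subgroups -/
theorem commute_of_AX {X Y : Set S} (h : ∀ s ∈ X, ∀ t ∈ Y, M s t = 2)
    {a b : Crest.GroupTheory.ArtinGroup M} (ha : a ∈ AX M X) (hb : b ∈ AX M Y) : Commute a b := by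
  have h1 : ∀ s ∈ X, ∀ t ∈ Y, Commute (σ M s) (σ M t) := fun s hs t ht => by
    have := braidRel_σ M s t
    rw [h s hs t ht] at this
    simpa [Commute, SemiconjBy] using this
  induction ha using Subgroup.closure_induction with
  | mem x hx =>
    obtain ⟨s, hs, rfl⟩ := hx
    induction hb using Subgroup.closure_induction with
    | mem y hy =>
      obtain ⟨t, ht, rfl⟩ := hy
      exact h1 s hs t ht
    | one => exact Commute.one_right _
    | mul _ _ _ _ p q => exact p.mul_right q
    | inv _ _ p => exact p.inv_right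
  | one => exact Commute.one_left _
  | mul _ _ _ _ p q => exact p.mul_left q
  | inv _ _ p => exact p.inv_left

end Crest.R175
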