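import Crest.Agent.R175.Rank2

/-! Row 175: the abstract directedness lemma, Matsumoto's theorem, the lift `qq`. -/

set_option autoImplicit false
set_option linter.unusedSectionVars false

namespace Crest.R175

/-- **Directedness.**  Induction on `μ b`: if `b = y₁` take `y₂` (and symmetrically); otherwise take
covers `x₁ ≤ y₁`, `x₂ ≤ y₂` of `b`, the diamond `x₃`, then apply the induction hypothesis at `x₁` to
`(y₁, x₃)` and at `x₂` to `(y', y₂)`. -/
theorem directed_of_diamond {N : Type*} (le cov : N → N → Prop) (μ : N → ℕ) (Y : Set N) (z : N)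
    (le_refl : ∀ x, le x x) (le_trans : ∀ x y w, le x y → le y w → le x w)
    (cov_le : ∀ x y, cov x y → le x y)
    (fac : ∀ x y, le x y → x = y ∨ ∃ x', cov x x' ∧ le x' y)
    (hμ : ∀ x y, cov x y → le y z → μ y < μ x)
    (down : ∀ x y, le x y → y ∈ Y → x ∈ Y)
    (diam : ∀ x x₁ x₂, cov x x₁ → cov x x₂ → x₁ ∈ Y → x₂ ∈ Y → le x₁ z → le x₂ z →
      ∃ x₃ ∈ Y, le x₁ x₃ ∧ le x₂ x₃ ∧ le x₃ z)
    (b y₁ y₂ : N) (h₁ : le b y₁) (h₂ : le b y₂) (hy₁ : y₁ ∈ Y) (hy₂ : y₂ ∈ Y)
    (hz₁ : le y₁ z) (hz₂ : le y₂ z) : ∃ y ∈ Y, le y₁ y ∧ le y₂ y ∧ le y z := by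
  induction hn : μ b using Nat.strong_induction_on generalizing b y₁ y₂ with
  | _ n ih =>
    rcases fac _ _ h₁ with rfl | ⟨x₁, c₁, l₁⟩
    · exact ⟨y₂, hy₂, h₂, le_refl _, hz₂⟩
    rcases fac _ _ h₂ with rfl | ⟨x₂, c₂, l₂⟩
    · exact ⟨y₁, hy₁, le_refl _, h₁, hz₁⟩
    have z₁ := le_trans _ _ _ l₁ hz₁
    have z₂ := le_trans _ _ _ l₂ hz₂
    obtain ⟨x₃, hx₃, a₁, a₂, a₃⟩ :=
      diam b x₁ x₂ c₁ c₂ (down _ _ l₁ hy₁) (down _ _ l₂ hy₂) z₁ z₂
    obtain ⟨y', hy', b₁, b₂, b₃⟩ :=
      ih (μ x₁) (hn ▸ hμ b x₁ c₁ z₁) x₁ y₁ x₃ l₁ a₁ hy₁ hx₃ hz₁ a₃ rfl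
    obtain ⟨y, hy, d₁, d₂, d₃⟩ :=
      ih (μ x₂) (hn ▸ hμ b x₂ c₂ z₂) x₂ y' y₂ (le_trans _ _ _ a₂ b₂) l₂ hy' hy₂ b₃ hz₂ rfl
    exact ⟨y, hy, le_trans _ _ _ b₁ d₁, d₂, d₃⟩

variable {S : Type} [Fintype S] [DecidableEq S] (M : CoxeterMatrix S)

/-- **Matsumoto.**  Induction on the length; if the first letters `s ≠ t` differ, use
`alt_wle_of_descents`. -/
theorem matsumoto {G : Type*} [Monoid G] {τ : S → G} (hτ : BraidRel M τ) {l l' : List S}
    (hl : (cs M).IsReduced l) (hl' : (cs M).IsReduced l') (h : wπ M l = wπ M l') :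
    wp τ l = wp τ l' := by
  induction hn : l.length generalizing l l' with
  | zero =>
    have h1 : l'.length = 0 := by
      rw [← hl'.eq, ← hn, ← hl.eq]
      exact congrArg (cs M).length h.symm
    rw [List.length_eq_zero_iff.1 hn, List.length_eq_zero_iff.1 h1]
  | succ n ih =>
    have h1 : l'.length = n + 1 := by
      rw [← hl'.eq, ← hn, ← hl.eq]
      exact congrArg (cs M).length h.symm
    obtain ⟨s, a, rfl⟩ := List.exists_cons_of_length_eq_add_one hn
    obtain ⟨t, b, rfl⟩ := List.exists_cons_of_length_eq_add_one h1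
    have ha : (cs M).IsReduced a := hl.drop 1
    have hb : (cs M).IsReduced b := hl'.drop 1
    have la : a.length = n := by simpa using hn
    have lb : b.length = n := by simpa using h1
    -- a general step: a word of the same length with the same first letter and product
    have step : ∀ (r : S) (c e : List S), (cs M).IsReduced c → c.length = n → e.length = n →
        wπ M (r :: c) = wπ M (r :: e) → wp τ (r :: c) = wp τ (r :: e) := by
      intro r c e hc lc le hce
      have h2 : wπ M c = wπ M e := by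
        simpa only [wπ, CoxeterSystem.wordProd_cons, mul_right_inj] using hce
      have he : (cs M).IsReduced e := by
        show (cs M).length (wπ M e) = e.length
        rw [← h2, hc.eq, lc, le]
      rw [wp_cons, wp_cons, ih hc he h2 lc]
    by_cases hst : s = t
    · subst hst
      exact step s a b ha la lb h
    have desc : ∀ (r : S) (c : List S), (cs M).IsReduced (r :: c) →
        ℓ M (sr M r * wπ M (r :: c)) < ℓ M (wπ M (r :: c)) := by
      intro r c hrc
      have hc : (cs M).IsReduced c := hrc.drop 1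
      rw [show ℓ M (wπ M (r :: c)) = _ from hrc.eq, wπ, CoxeterSystem.wordProd_cons,
        CoxeterSystem.simple_mul_simple_cancel_left, show ℓ M _ = _ from hc.eq]
      simp
    obtain ⟨hm, hw⟩ := alt_wle_of_descents M hst (desc s a hl) (h ▸ desc t b hl')
    obtain ⟨m, hm'⟩ := Nat.exists_eq_succ_of_ne_zero hm
    have hred : (cs M).IsReduced (alt s t (M s t)) := alt_reduced M hst fun _ => le_rfl
    set u := (wπ M (alt s t (M s t)))⁻¹ * wπ M (s :: a) with hu
    have hlen : m + (rw M u).length = n := by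
      have h2 : ℓ M (wπ M (alt s t (M s t))) + ℓ M u = ℓ M (wπ M (s :: a)) := hw
      have h3 : ℓ M u = (rw M u).length := by
        conv_lhs => rw [← wπ_rw M u]
        exact (rw_reduced M u).eq
      rw [show ℓ M (wπ M (alt s t (M s t))) = _ from hred.eq, length_alt,
        show ℓ M (wπ M (s :: a)) = _ from hl.eq, hn, h3, hm'] at h2
      omega
    have hprod : wπ M (alt s t (M s t)) * wπ M (rw M u) = wπ M (s :: a) := by
      rw [wπ_rw, hu, mul_inv_cancel_left]
    have hbr : wπ M (alt s t (M s t)) = wπ M (alt t s (M s t)) := braidRel_sr M s t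
    have e1 : wp τ (s :: a) = wp τ (alt s t (M s t) ++ rw M u) := by
      rw [hm', Nat.succ_eq_add_one, alt_succ, List.cons_append]
      refine step s a _ ha la (by simp [hlen]) ?_
      rw [← hprod, hm', Nat.succ_eq_add_one, alt_succ, ← List.cons_append]
      exact ((cs M).wordProd_append _ _).symm
    have e2 : wp τ (t :: b) = wp τ (alt t s (M s t) ++ rw M u) := by
      rw [hm', Nat.succ_eq_add_one, alt_succ, List.cons_append]
      refine step t b _ hb lb (by simp [hlen]) ?_
      rw [← h, ← hprod, hbr, hm', Nat.succ_eq_add_one, alt_succ, ← List.cons_append]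
      exact ((cs M).wordProd_append _ _).symm
    rw [e1, e2, wp_append, wp_append, hτ s t]

theorem qq_wπ {G : Type*} [Monoid G] {τ : S → G} (hτ : BraidRel M τ) {l : List S}
    (hl : (cs M).IsReduced l) : qq M τ (wπ M l) = wp τ l :=
  matsumoto M hτ (rw_reduced M _) hl (wπ_rw M _)

theorem qq_one {G : Type*} [Monoid G] (τ : S → G) : qq M τ 1 = 1 := by
  have h : (rw M 1).length = 0 := by
    rw [← (rw_reduced M 1).eq, show (cs M).wordProd (rw M 1) = 1 from wπ_rw M 1,
      CoxeterSystem.length_one]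
  rw [qq, List.length_eq_zero_iff.1 h, wp_nil]

theorem qq_sr {G : Type*} [Monoid G] (τ : S → G) (hτ : BraidRel M τ) (s : S) :
    qq M τ (sr M s) = τ s := by
  have h : (cs M).IsReduced [s] := by
    show (cs M).length ((cs M).wordProd [s]) = 1
    rw [CoxeterSystem.wordProd_singleton, CoxeterSystem.length_simple]
  have h1 := qq_wπ M hτ h
  rw [wπ, CoxeterSystem.wordProd_singleton] at h1
  rw [wp_cons, wp_nil, mul_one] at h1
  exact h1

theorem qq_mul {G : Type*} [Monoid G] {τ : S → G} (hτ : BraidRel M τ) {u v : M.Group}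
    (h : ℓ M (u * v) = ℓ M u + ℓ M v) : qq M τ (u * v) = qq M τ u * qq M τ v := by
  have h0 : wπ M (rw M u ++ rw M v) = u * v := by
    rw [wπ, CoxeterSystem.wordProd_append]
    exact congrArg₂ (· * ·) (wπ_rw M u) (wπ_rw M v)
  have hl : ∀ w, ℓ M w = (rw M w).length := fun w => by
    conv_lhs => rw [← wπ_rw M w]
    exact (rw_reduced M w).eq
  have h1 : (cs M).IsReduced (rw M u ++ rw M v) := by
    show ℓ M (wπ M (rw M u ++ rw M v)) = _
    rw [h0, h, List.length_append, hl u, hl v]
  rw [← h0, qq_wπ M hτ h1, wp_append]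
  rfl

theorem map_qq {G H : Type*} [Monoid G] [Monoid H] (f : G →* H) (τ : S → G) (w : M.Group) :
    f (qq M τ w) = qq M (fun s => f (τ s)) w := map_wp f τ _

theorem q_one : q M 1 = 1 := qq_one M _

theorem q_mul_sr {w : M.Group} {s : S} (h : ℓ M w < ℓ M (w * sr M s)) :
    q M (w * sr M s) = q M w * σ M s := by
  have h1 : ℓ M (w * sr M s) = ℓ M w + ℓ M (sr M s) := by
    have := (cs M).length_mul_simple w s
    rw [show ℓ M (sr M s) = 1 from (cs M).length_simple s]
    change (cs M).length w < (cs M).length (w * (cs M).simple s) at h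
    change (cs M).length (w * (cs M).simple s) = (cs M).length w + 1
    omega
  rw [q, qq_mul M (braidRel_σ M) h1, qq_sr M _ (braidRel_σ M)]

theorem q_sr_mul {w : M.Group} {s : S} (h : ℓ M w < ℓ M (sr M s * w)) :
    q M (sr M s * w) = σ M s * q M w := by
  have h1 : ℓ M (sr M s * w) = ℓ M (sr M s) + ℓ M w := by
    have := (cs M).length_simple_mul w s
    rw [show ℓ M (sr M s) = 1 from (cs M).length_simple s]
    change (cs M).length w < (cs M).length ((cs M).simple s * w) at h
    change (cs M).length ((cs M).simple s * w) = 1 + (cs M).length w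
    omega
  rw [q, qq_mul M (braidRel_σ M) h1, qq_sr M _ (braidRel_σ M)]

end Crest.R175
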