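import Crest.Agent.R175.Mon1

/-! Row 175: the Artin monoid, head and tail (after Michel), left cancellation. -/

set_option autoImplicit false
set_option linter.unusedSectionVars false

namespace Crest.R175

variable {S : Type} [Fintype S] [DecidableEq S] (M : CoxeterMatrix S)

/-- the chosen greatest prefix of `y` keeping `x ·` reduced -/
noncomputable def mon_mu (x y : M.Group) : M.Group := Classical.choose (exists_mu M x y)

theorem mon_mu_le (x y : M.Group) : WLe M (mon_mu M x y) y :=
  (Classical.choose_spec (exists_mu M x y)).1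

theorem mon_mu_len (x y : M.Group) : ℓ M (x * mon_mu M x y) = ℓ M x + ℓ M (mon_mu M x y) :=
  (Classical.choose_spec (exists_mu M x y)).2.1

theorem mon_mu_max (x y z : M.Group) (h : WLe M z y) (h' : ℓ M (x * z) = ℓ M x + ℓ M z) :
    WLe M z (mon_mu M x y) :=
  (Classical.choose_spec (exists_mu M x y)).2.2 z h h'

theorem mon_mu_one (y : M.Group) : mon_mu M 1 y = y := by
  have h1 := mon_mu_max M 1 y y (WLe.refl M y) (by simp)
  have h2 := mon_mu_le M 1 y
  refine h2.eq_of_length ?_
  unfold WLe at h1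
  omega

theorem mon_mu_mul_le {a b : M.Group} (h : ℓ M (a * b) = ℓ M a + ℓ M b) (z : M.Group) :
    ℓ M (b * mon_mu M (a * b) z) = ℓ M b + ℓ M (mon_mu M (a * b) z) ∧
      WLe M (mon_mu M (a * b) z) (mon_mu M b z) := by
  have h1 := mon_mu_len M (a * b) z
  have h2 := (cs M).length_mul_le a (b * mon_mu M (a * b) z)
  have h3 := (cs M).length_mul_le b (mon_mu M (a * b) z)
  rw [← mul_assoc] at h2
  have h4 : ℓ M (b * mon_mu M (a * b) z) = ℓ M b + ℓ M (mon_mu M (a * b) z) := by
    simp only [ℓ] at *; omega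
  exact ⟨h4, mon_mu_max M b z _ (mon_mu_le M _ _) h4⟩

theorem mon_mu_mul {a b : M.Group} (h : ℓ M (a * b) = ℓ M a + ℓ M b) (z : M.Group) :
    mon_mu M a (b * mon_mu M b z) = b * mon_mu M (a * b) z := by
  obtain ⟨h4, h5⟩ := mon_mu_mul_le M h z
  have h1 := mon_mu_len M (a * b) z
  have h6 := mon_mu_len M b z
  have h7 := mon_mu_le M b z
  set n := mon_mu M (a * b) z with hn
  set m := mon_mu M b z with hm
  set k := mon_mu M a (b * m) with hk
  have i1 : WLe M (b * n) (b * m) := by
    unfold WLe at h5 ⊢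
    have e : (b * n)⁻¹ * (b * m) = n⁻¹ * m := by group
    rw [e]; omega
  have i2 : WLe M (b * n) k := mon_mu_max M a _ _ i1 (by rw [← mul_assoc]; omega)
  have i3 : WLe M b k := ((wle_mul_iff M b n).2 h4).trans i2
  have i4 : WLe M k (b * m) := mon_mu_le M _ _
  have i5 := mon_mu_len M a (b * m)
  rw [← hk] at i5
  have i6 : WLe M (b⁻¹ * k) m := by
    unfold WLe at i3 i4 ⊢
    have e : (b⁻¹ * k)⁻¹ * m = k⁻¹ * (b * m) := by group
    rw [e]; omega
  have i7 : WLe M (b⁻¹ * k) n := mon_mu_max M (a * b) z _ (i6.trans h7) (by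
    have e : a * b * (b⁻¹ * k) = a * k := by group
    unfold WLe at i3
    rw [e]; omega)
  refine (i2.eq_of_length ?_).symm
  unfold WLe at i3 i7
  omega

theorem mon_mq_of_wle {u w : M.Group} (h : WLe M u w) : mq M w = mq M u * mq M (u⁻¹ * w) := by
  rw [← qq_mul M (braidRel_mg M) (by rw [mul_inv_cancel_left]; exact h.symm), mul_inv_cancel_left]

/-- head and tail of a word -/
noncomputable def mon_ht : List S → M.Group × Mon M
  | [] => (1, 1)
  | s :: l => (sr M s * mon_mu M (sr M s) (mon_ht l).1,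
      mq M ((mon_mu M (sr M s) (mon_ht l).1)⁻¹ * (mon_ht l).1) * (mon_ht l).2)

theorem mon_reduced_cons {s : S} {ω : List S} (h : (cs M).IsReduced (s :: ω)) :
    (cs M).IsReduced ω ∧ ℓ M (sr M s * wπ M ω) = ℓ M (sr M s) + ℓ M (wπ M ω) := by
  have h1 : (cs M).IsReduced ω := by simpa using h.drop 1
  refine ⟨h1, ?_⟩
  unfold CoxeterSystem.IsReduced at h h1
  rw [CoxeterSystem.wordProd_cons] at h
  simp only [ℓ, CoxeterSystem.length_simple, h, h1, List.length_cons]
  omega

theorem mon_ht_append {ω : List S} (h : (cs M).IsReduced ω) (l : List S) :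
    mon_ht M (ω ++ l) = (wπ M ω * mon_mu M (wπ M ω) (mon_ht M l).1,
      mq M ((mon_mu M (wπ M ω) (mon_ht M l).1)⁻¹ * (mon_ht M l).1) * (mon_ht M l).2) := by
  induction ω with
  | nil => simp [mon_mu_one, qq_one]
  | cons s ω ih =>
    obtain ⟨h1, h2⟩ := mon_reduced_cons M h
    have e : wπ M (s :: ω) = sr M s * wπ M ω := CoxeterSystem.wordProd_cons _ _ _
    rw [List.cons_append, mon_ht, ih h1, e]
    simp only
    rw [mon_mu_mul M h2, ← mul_assoc, ← mul_assoc (mq M _)]
    congr 2
    have h3 := (mon_mu_mul_le M h2 (mon_ht M l).1).2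
    have h4 := mon_mu_le M (wπ M ω) (mon_ht M l).1
    have h5 := h3.trans h4
    set n := mon_mu M (sr M s * wπ M ω) (mon_ht M l).1
    set m := mon_mu M (wπ M ω) (mon_ht M l).1
    set y := (mon_ht M l).1
    have e1 : (wπ M ω * n)⁻¹ * (wπ M ω * m) = n⁻¹ * m := by group
    have e2 : n⁻¹ * y = (n⁻¹ * m) * (m⁻¹ * y) := by group
    rw [e1, e2]
    refine (qq_mul M (braidRel_mg M) ?_).symm
    rw [← e2]
    unfold WLe at h3 h4 h5
    omega

theorem mon_ht_braid (l l' : List S) (s t : S) :
    mon_ht M (l ++ alt s t (M s t) ++ l') = mon_ht M (l ++ alt t s (M s t) ++ l') := by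
  induction l with
  | nil =>
    by_cases hst : s = t
    · rw [hst]
    · have e : wπ M (alt s t (M s t)) = wπ M (alt t s (M s t)) := braidRel_sr M s t
      rw [List.nil_append, List.nil_append, mon_ht_append M (alt_reduced M hst fun _ => le_rfl),
        mon_ht_append M (alt_reduced M (Ne.symm hst) fun _ => (M.symmetric s t).le), e]
  | cons r l ih => simp only [List.cons_append, mon_ht, ih]

theorem mon_ht_spec (l : List S) : wp (mg M) l = mq M (mon_ht M l).1 * (mon_ht M l).2 := by
  induction l with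
  | nil => simp [mon_ht, qq_one]
  | cons s l ih =>
    rw [wp_cons, ih, mon_ht]
    simp only
    have e := qq_mul M (braidRel_mg M) (mon_mu_len M (sr M s) (mon_ht M l).1)
    rw [qq_sr M _ (braidRel_mg M)] at e
    rw [mon_mq_of_wle M (mon_mu_le M (sr M s) (mon_ht M l).1)]
    unfold mq
    rw [e]
    simp only [mul_assoc]

theorem mon_wπ_eq {l l' : List S} (h : wp (mg M) l = wp (mg M) l') : wπ M l = wπ M l' :=
  mon_invariant M (wπ M) (fun l l' s t => by
    have e : wπ M (alt s t (M s t)) = wπ M (alt t s (M s t)) := braidRel_sr M s t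
    simp only [wπ, CoxeterSystem.wordProd_append] at e ⊢
    rw [e]) h

theorem mon_length_rw (w : M.Group) : (rw M w).length = ℓ M w := by
  have := rw_reduced M w
  unfold CoxeterSystem.IsReduced at this
  rw [← this]
  exact congrArg _ (wπ_rw M w)

/-- **Head and tail.**  With `μ` from `exists_mu` put on words `hd [] = 1`,
`hd (s :: l) = s μ(s, hd l)`, `tl [] = 1`, `tl (s :: l) = mq (μ(s, hd l)⁻¹ hd l) * tl l`.
For `a b` reduced, `μ(a, b μ(b,z)) = b μ(ab, z)`; hence for a reduced word `ω` of `x`,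
`hd (ω ++ l) = x μ(x, hd l)` and `tl (ω ++ l) = mq (μ(x, hd l)⁻¹ hd l) * tl l` (use `qq_mul`), so both
are invariant under braid moves (`alt_reduced`, `braidRel_sr`; `mon_invariant`). -/
theorem exists_head_tail : ∃ (hd : Mon M → M.Group) (tl : Mon M → Mon M),
    (∀ b, b = mq M (hd b) * tl b) ∧
    (∀ w b, WLe M w (hd (mq M w * b))) ∧
    (∀ s b, b = mq M ((sr M s)⁻¹ * hd (mg M s * b)) * tl (mg M s * b)) := by
  choose wd hwd using mon_surj M
  have key : ∀ l, mon_ht M (wd (wp (mg M) l)) = mon_ht M l := fun l =>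
    mon_invariant M (mon_ht M) (mon_ht_braid M) (hwd _).symm
  refine ⟨fun b => (mon_ht M (wd b)).1, fun b => (mon_ht M (wd b)).2, fun b => ?_, fun w b => ?_,
    fun s b => ?_⟩
  · exact (hwd b).trans (mon_ht_spec M _)
  · obtain ⟨l, rfl⟩ := mon_surj M b
    have e : mq M w * wp (mg M) l = wp (mg M) (rw M w ++ l) := by rw [wp_append]; rfl
    simp only
    rw [e, key, mon_ht_append M (rw_reduced M w), wπ_rw]
    exact (wle_mul_iff M _ _).2 (mon_mu_len M _ _)
  · obtain ⟨l, rfl⟩ := mon_surj M b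
    simp only
    rw [← wp_cons, key, mon_ht, mon_ht_spec M l]
    simp only [inv_mul_cancel_left]
    rw [← mul_assoc, ← mon_mq_of_wle M (mon_mu_le M (sr M s) (mon_ht M l).1)]

theorem mon_left_cancel {a b c : Mon M} (h : a * b = a * c) : b = c := by
  obtain ⟨hd, tl, -, -, h3⟩ := exists_head_tail M
  obtain ⟨l, rfl⟩ := mon_surj M a
  induction l with
  | nil => simpa using h
  | cons s l ih =>
    rw [wp_cons, mul_assoc, mul_assoc] at h
    refine ih ?_
    rw [h3 s (wp (mg M) l * b), h, ← h3]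

/-- two distinct generators dividing `b` -/
theorem mon_key {s t : S} (hst : s ≠ t) {b c : Mon M} (h : mg M s * b = mg M t * c) :
    M s t ≠ 0 ∧ ∃ e, mg M s * b = wp (mg M) (alt s t (M s t)) * e := by
  obtain ⟨hd, tl, h1, h2, -⟩ := exists_head_tail M
  have hs := h2 (sr M s) b
  have ht := h2 (sr M t) c
  rw [mq, qq_sr M _ (braidRel_mg M)] at hs ht
  rw [← h] at ht
  obtain ⟨h3, h4⟩ := alt_wle_of_descents M hst ((sr_wle_iff M _ _).1 hs) ((sr_wle_iff M _ _).1 ht)
  refine ⟨h3, mq M ((wπ M (alt s t (M s t)))⁻¹ * hd (mg M s * b)) * tl (mg M s * b), ?_⟩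
  rw [← mul_assoc, ← qq_wπ M (braidRel_mg M) (alt_reduced M hst fun _ => le_rfl),
    ← mon_mq_of_wle M h4]
  exact h1 _

/-- `mq u` divides `mq w` iff `u ≤ w`.  (`hd (mq w) = w` by lengths.) -/
theorem mq_dvd_iff (u w : M.Group) : (∃ c, mq M w = mq M u * c) ↔ WLe M u w := by
  refine ⟨fun ⟨c, hc⟩ => ?_, fun h => ⟨_, mon_mq_of_wle M h⟩⟩
  obtain ⟨hd, tl, h1, h2, -⟩ := exists_head_tail M
  have h3 := h2 u c
  have h4 := h2 w 1
  rw [mul_one] at h4
  rw [← hc] at h3
  obtain ⟨l, hl⟩ := mon_surj M (tl (mq M w))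
  have h5 : wp (mg M) (rw M w) = wp (mg M) (rw M (hd (mq M w)) ++ l) := by
    rw [wp_append, ← hl]; exact h1 _
  have h6 := mon_length M h5
  rw [List.length_append, mon_length_rw, mon_length_rw] at h6
  rw [h4.eq_of_length (by omega)]
  exact h3

/-- a left divisor of a simple element is simple.  (Induction on a word for `a`, or: a non-reduced
word has a prefix `mq w' s s`; the head of `mq w` would have the prefix `w' s`, and after cancelling
`mq (w' s)` the letter `s` divides `mq ((w' s)⁻¹ w)`, contradicting lengths.) -/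
theorem simple_of_dvd {a c : Mon M} {w : M.Group} (h : mq M w = a * c) : ∃ u, a = mq M u := by
  obtain ⟨l, rfl⟩ := mon_surj M a
  obtain ⟨l', rfl⟩ := mon_surj M c
  rw [← wp_append] at h
  have h1 := mon_length M (l := rw M w) h
  have h2 := mon_wπ_eq M (l := rw M w) h
  have h3 : (cs M).IsReduced (l ++ l') := by
    unfold CoxeterSystem.IsReduced
    rw [← h1, mon_length_rw]
    exact congrArg _ (h2.symm.trans (wπ_rw M w))
  have h4 : (cs M).IsReduced l := by simpa using h3.take l.length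
  exact ⟨_, (qq_wπ M (braidRel_mg M) h4).symm⟩

end Crest.R175
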