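import Crest.Agent.R175.Mats

/-! Row 175: the Artin monoid, head and tail (after Michel), left cancellation. -/

set_option autoImplicit false
set_option linter.unusedSectionVars false

namespace Crest.R175

variable {S : Type} [Fintype S] [DecidableEq S] (M : CoxeterMatrix S)

/-- braid relations on the free monoid -/
def monRel (a b : FreeMonoid S) : Prop :=
  ∃ s t, a = FreeMonoid.ofList (alt s t (M s t)) ∧ b = FreeMonoid.ofList (alt t s (M s t))

/-- the Artin monoid -/
abbrev Mon : Type := PresentedMonoid (monRel M)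

/-- generator of the Artin monoid -/
def mg (s : S) : Mon M := PresentedMonoid.of (monRel M) s

/-- lift of `W` to the monoid -/
noncomputable abbrev mq (w : M.Group) : Mon M := qq M (mg M) w

theorem mon1_wp (l : List S) :
    wp (mg M) l = PresentedMonoid.mk (monRel M) (FreeMonoid.ofList l) := by
  induction l with
  | nil => simp
  | cons s l ih => rw [wp_cons, ih, FreeMonoid.ofList_cons, map_mul]; rfl

theorem mon1_mem_alt {a b : S} (hab : a ≠ b) (s : S) :
    s ∈ alt a b (M a b) ↔ s ∈ alt b a (M a b) := by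
  have h1 := M.off_diagonal a b hab
  rcases h : M a b with _ | _ | k
  · simp
  · exact absurd h h1
  · constructor
    · intro hs
      rcases mem_alt _ _ _ _ hs with rfl | rfl <;> simp
    · intro hs
      rcases mem_alt _ _ _ _ hs with rfl | rfl <;> simp

theorem mon1_len {u : M.Group} {s : S} (h : ℓ M u < ℓ M (u * sr M s)) :
    ℓ M (u * sr M s) = ℓ M u + 1 := by
  rcases (cs M).length_mul_simple u s with h' | h'
  · exact h'
  · simp only [ℓ, sr] at h; omega

theorem mon1_step {u : M.Group} {s t : S} (hst : s ≠ t) (hs : ℓ M u < ℓ M (u * sr M s))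
    (ht : ℓ M u < ℓ M (u * sr M t)) (h0 : M s t ≠ 0) :
    WLe M (u * sr M s) (u * wπ M (alt s t (M s t))) := by
  have h1 := length_mul_alt M hst hs ht (k := M s t) (fun _ => le_rfl)
  obtain ⟨k, hk⟩ := Nat.exists_eq_succ_of_ne_zero h0
  have h2 : (cs M).IsReduced (alt t s k) :=
    alt_reduced M hst.symm (fun _ => by rw [M.symmetric t s]; omega)
  have h3 : ℓ M (wπ M (alt t s k)) = k := by
    have := h2
    rw [CoxeterSystem.IsReduced, length_alt] at this
    exact this
  have h4 : wπ M (alt s t (M s t)) = sr M s * wπ M (alt t s k) := by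
    rw [hk, alt_succ]
    exact (cs M).wordProd_cons _ _
  unfold WLe
  rw [h1, h4, mon1_len M hs, show (u * sr M s)⁻¹ * (u * (sr M s * wπ M (alt t s k))) =
    wπ M (alt t s k) by group, h3]
  omega

theorem braidRel_mg : BraidRel M (mg M) := by
  intro s t
  rw [mon1_wp, mon1_wp]
  exact PresentedMonoid.mk_eq_mk_of_rel ⟨s, t, rfl, rfl⟩

theorem mon_surj (b : Mon M) : ∃ l : List S, b = wp (mg M) l := by
  obtain ⟨a, rfl⟩ := PresentedMonoid.surjective_mk b
  exact ⟨FreeMonoid.toList a, by rw [mon1_wp]; rfl⟩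

/-- a function on words invariant under braid moves is a function on the monoid -/
theorem mon_invariant {C : Type*} (f : List S → C)
    (hf : ∀ l l' s t, f (l ++ alt s t (M s t) ++ l') = f (l ++ alt t s (M s t) ++ l'))
    {l l' : List S} (h : wp (mg M) l = wp (mg M) l') : f l = f l' := by
  rw [mon1_wp, mon1_wp, PresentedMonoid.mk_eq_mk_iff] at h
  have key : ∀ a b : FreeMonoid S, ConGen.Rel (monRel M) a b → ∀ p q : List S,
      f (p ++ FreeMonoid.toList a ++ q) = f (p ++ FreeMonoid.toList b ++ q) := by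
    intro a b hab
    induction hab with
    | of a b hab =>
      obtain ⟨s, t, rfl, rfl⟩ := hab
      intro p q
      exact hf p q s t
    | refl a => intro p q; rfl
    | symm _ ih => intro p q; exact (ih p q).symm
    | trans _ _ ih ih' => intro p q; exact (ih p q).trans (ih' p q)
    | @mul w x y z _ _ ih ih' =>
      intro p q
      have h1 := ih p (FreeMonoid.toList y ++ q)
      have h2 := ih' (p ++ FreeMonoid.toList x) q
      simp only [FreeMonoid.toList_mul, List.append_assoc] at h1 h2 ⊢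
      exact h1.trans h2
  simpa using key _ _ h [] []

theorem mon_length {l l' : List S} (h : wp (mg M) l = wp (mg M) l') : l.length = l'.length :=
  mon_invariant M List.length (fun l l' s t => by simp) h

/-- the set of letters is invariant (for `M s t ≥ 2` both braid words contain `s` and `t`) -/
theorem mon_supp {l l' : List S} (h : wp (mg M) l = wp (mg M) l') (s : S) : s ∈ l ↔ s ∈ l' := by
  have := mon_invariant M (fun l => s ∈ l) (fun l l' a b => by
    by_cases hab : a = b
    · subst hab; rfl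
    · simp only [List.mem_append, mon1_mem_alt M hab]) h
  exact Iff.of_eq this

/-- the greatest prefix `z` of `y` with `x z` reduced.  (`directed_of_diamond` in `W` with
`Y = {z | x z reduced}`, top `y`; diamond by `alt_wle_of_descents` and `length_mul_alt`; then take an
element of maximal length.) -/
theorem exists_mu (x y : M.Group) : ∃ m, WLe M m y ∧ ℓ M (x * m) = ℓ M x + ℓ M m ∧
    ∀ z, WLe M z y → ℓ M (x * z) = ℓ M x + ℓ M z → WLe M z m := by
  classical
  have down : ∀ u v, WLe M u v → ℓ M (x * v) = ℓ M x + ℓ M v → ℓ M (x * u) = ℓ M x + ℓ M u := by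
    intro u v huv hv
    have h1 : ℓ M (x * v) ≤ ℓ M (x * u) + ℓ M (u⁻¹ * v) := by
      have := (cs M).length_mul_le (x * u) (u⁻¹ * v)
      rwa [show x * u * (u⁻¹ * v) = x * v by group] at this
    have h2 : ℓ M (x * u) ≤ ℓ M x + ℓ M u := (cs M).length_mul_le x u
    unfold WLe at huv
    omega
  have cov_le : ∀ u s, ℓ M u < ℓ M (u * sr M s) → WLe M u (u * sr M s) := by
    intro u s hs
    rw [wle_mul_iff, mon1_len M hs]
    have : ℓ M (sr M s) = 1 := (cs M).length_simple s
    rw [this]
  have dir : ∀ y₁ y₂, ℓ M (x * y₁) = ℓ M x + ℓ M y₁ → ℓ M (x * y₂) = ℓ M x + ℓ M y₂ →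
      WLe M y₁ y → WLe M y₂ y →
      ∃ z, ℓ M (x * z) = ℓ M x + ℓ M z ∧ WLe M y₁ z ∧ WLe M y₂ z ∧ WLe M z y := by
    intro y₁ y₂ h₁ h₂ h₁' h₂'
    refine directed_of_diamond (WLe M)
      (fun u v => ∃ s, ℓ M u < ℓ M (u * sr M s) ∧ v = u * sr M s) (fun u => ℓ M y - ℓ M u)
      {z | ℓ M (x * z) = ℓ M x + ℓ M z} y (WLe.refl M) (fun _ _ _ h h' => h.trans h') ?_ ?_ ?_
      down ?_ 1 y₁ y₂ (one_wle M _) (one_wle M _) h₁ h₂ h₁' h₂'
    · rintro u _ ⟨s, hs, rfl⟩
      exact cov_le u s hs
    · intro u v huv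
      rcases huv.eq_or_step with h | ⟨s, hs, h⟩
      · exact Or.inl h
      · exact Or.inr ⟨_, ⟨s, hs, rfl⟩, h⟩
    · rintro u _ ⟨s, hs, rfl⟩ h
      unfold WLe at h
      omega
    · rintro u _ _ ⟨s, hs, rfl⟩ ⟨t, ht, rfl⟩ hY₁ hY₂ hz₁ hz₂
      by_cases hst : s = t
      · subst hst
        exact ⟨_, hY₁, WLe.refl M _, WLe.refl M _, hz₁⟩
      have huy : WLe M u y := (cov_le u s hs).trans hz₁
      have hdesc : ∀ r, ℓ M u < ℓ M (u * sr M r) → WLe M (u * sr M r) y →
          ℓ M (sr M r * (u⁻¹ * y)) < ℓ M (u⁻¹ * y) := by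
        intro r hr h
        unfold WLe at h huy
        have e : (u * sr M r)⁻¹ * y = sr M r * (u⁻¹ * y) := by
          rw [mul_inv_rev, (cs M).inv_simple, mul_assoc]
        rw [e] at h
        omega
      obtain ⟨h0, hw⟩ := alt_wle_of_descents M hst (hdesc s hs hz₁) (hdesc t ht hz₂)
      have hu : ℓ M (x * u) = ℓ M x + ℓ M u := down u _ (cov_le u s hs) hY₁
      have hxs : ∀ r, ℓ M u < ℓ M (u * sr M r) →
          ℓ M (x * (u * sr M r)) = ℓ M x + ℓ M (u * sr M r) →
          ℓ M (x * u) < ℓ M (x * u * sr M r) := by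
        intro r hr h
        rw [mul_assoc, h, hu]
        omega
      have h1 := length_mul_alt M hst hs ht (k := M s t) (fun _ => le_rfl)
      have h2 := length_mul_alt M hst (hxs s hs hY₁) (hxs t ht hY₂) (k := M s t) (fun _ => le_rfl)
      have h3 : ℓ M (wπ M (alt s t (M s t))) = M s t := by
        have := alt_reduced M hst (k := M s t) (fun _ => le_rfl)
        rw [CoxeterSystem.IsReduced, length_alt] at this
        exact this
      refine ⟨u * wπ M (alt s t (M s t)), ?_, mon1_step M hst hs ht h0, ?_, ?_⟩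
      · change ℓ M (x * (u * wπ M (alt s t (M s t)))) = _
        rw [← mul_assoc, h2, h1, hu, add_assoc]
      · have e : wπ M (alt s t (M s t)) = wπ M (alt t s (M t s)) := by
          rw [wπ_eq_wp, wπ_eq_wp, braidRel_sr M s t, M.symmetric t s]
        rw [e]
        exact mon1_step M (Ne.symm hst) ht hs (by rwa [M.symmetric t s])
      · unfold WLe at hw huy ⊢
        rw [h1, show (u * wπ M (alt s t (M s t)))⁻¹ * y =
          (wπ M (alt s t (M s t)))⁻¹ * (u⁻¹ * y) by group]
        omega
  have hex : ∃ k, ∃ z, WLe M z y ∧ ℓ M (x * z) = ℓ M x + ℓ M z ∧ ℓ M y - ℓ M z = k :=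
    ⟨_, 1, one_wle M y, by simp [ℓ], rfl⟩
  obtain ⟨m, hm1, hm2, hm3⟩ := Nat.find_spec hex
  refine ⟨m, hm1, hm2, fun z hz1 hz2 => ?_⟩
  obtain ⟨w, hw1, hw2, hw3, hw4⟩ := dir z m hz2 hm2 hz1 hm1
  have h5 : Nat.find hex ≤ ℓ M y - ℓ M w := Nat.find_min' hex ⟨w, hw4, hw1, rfl⟩
  have h6 : m = w := by
    refine hw3.eq_of_length ?_
    unfold WLe at hw4 hm1
    omega
  rw [h6]
  exact hw2

end Crest.R175
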