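import Crest.Agent.R175.Defs

/-! Row 175: modules over the preprojective algebra of a graph (over `ZMod 2`), the relation `Step`
between the cohomology layers of an object and of its twist, and the `Setup`. -/

set_option autoImplicit false
set_option linter.unusedSectionVars false

namespace Crest.R175

open Crest.GroupTheory Module

/-- the ground field -/
abbrev K2 := ZMod 2

instance : Fact (Nat.Prime 2) := ⟨Nat.prime_two⟩

/-- neighbours of `i` -/
abbrev Nb {I : Type} (Γ : SimpleGraph I) (i : I) : Type := {l : I // Γ.Adj i l}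

/-- a finite-dimensional module over the preprojective algebra of `Γ` -/
structure PM {I : Type} [Fintype I] (Γ : SimpleGraph I) where
  V : I → Type
  [acg : ∀ i, AddCommGroup (V i)]
  [mod : ∀ i, Module K2 (V i)]
  [fin : ∀ i, FiniteDimensional K2 (V i)]
  /-- the arrow `V j → V i` -/
  a : ∀ i j, V j →ₗ[K2] V i
  a_zero : ∀ i j, ¬ Γ.Adj i j → a i j = 0
  rel : ∀ i, ∑ j, a i j ∘ₗ a j i = 0

attribute [instance] PM.acg PM.mod PM.fin

variable {I : Type} [Fintype I] {Γ : SimpleGraph I}

noncomputable instance (i : I) : Fintype (Nb Γ i) := Fintype.ofFinite _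

namespace PM

variable (Z : PM Γ)

/-- the sum of the spaces at the neighbours of `i` -/
abbrev U (i : I) : Type := (l : Nb Γ i) → Z.V l.1

/-- the outgoing map at `i` -/
noncomputable def α (i : I) : Z.V i →ₗ[K2] Z.U i := LinearMap.pi fun l => Z.a l.1 i

/-- the incoming map at `i` -/
noncomputable def β (i : I) : Z.U i →ₗ[K2] Z.V i := ∑ l : Nb Γ i, Z.a i l.1 ∘ₗ LinearMap.proj l

@[simp] theorem α_apply (i : I) (v : Z.V i) (l : Nb Γ i) : Z.α i v l = Z.a l.1 i v := rfl

theorem β_apply (i : I) (u : Z.U i) : Z.β i u = ∑ l : Nb Γ i, Z.a i l.1 (u l) := by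
  simp [β, LinearMap.sum_apply]

theorem β_α (i : I) (v : Z.V i) : Z.β i (Z.α i v) = 0 := by
  classical
  have h := LinearMap.congr_fun (Z.rel i) v
  rw [LinearMap.sum_apply] at h
  simp only [LinearMap.comp_apply, LinearMap.zero_apply] at h
  rw [β_apply, ← h]
  simp only [α_apply]
  rw [← Finset.sum_subtype (Finset.univ.filter fun l => Γ.Adj i l) (by simp)
    (fun l => Z.a i l (Z.a l i v)), Finset.sum_filter]
  refine Finset.sum_congr rfl fun l _ => ?_
  split_ifs with hl
  · rfl
  · simp [Z.a_zero i l hl]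

/-- dimension at a vertex -/
noncomputable def dim (i : I) : ℕ := finrank K2 (Z.V i)

/-- no top at `i` -/
def NoTop (i : I) : Prop := Function.Surjective (Z.β i)

/-- `Z` is perpendicular to the simple at `i` -/
def Perp (i : I) : Prop :=
  Function.Injective (Z.α i) ∧ Function.Surjective (Z.β i) ∧ 2 * Z.dim i = ∑ l : Nb Γ i, Z.dim l.1

/-- a submodule -/
structure Sub where
  K : ∀ i, Submodule K2 (Z.V i)
  map : ∀ i j v, v ∈ K j → Z.a i j v ∈ K i

variable {Z}

/-- dimension of a submodule at a vertex -/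
noncomputable def Sub.dim (K : Z.Sub) (i : I) : ℕ := finrank K2 (K.K i)

/-- codimension of a submodule at a vertex (a real number) -/
noncomputable def Sub.cod (K : Z.Sub) (i : I) : ℝ := (Z.dim i : ℝ) - K.dim i

/-- the zero submodule -/
def botSub (Z : PM Γ) : Z.Sub := ⟨fun _ => ⊥, fun i j v h => by
  rw [Submodule.mem_bot] at h ⊢; simp [h]⟩

/-- the full submodule -/
def topSub (Z : PM Γ) : Z.Sub := ⟨fun _ => ⊤, fun _ _ _ _ => Submodule.mem_top⟩

/-- a morphism -/
structure Hom (Z Z' : PM Γ) where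
  f : ∀ i, Z.V i →ₗ[K2] Z'.V i
  comm : ∀ i j v, f i (Z.a i j v) = Z'.a i j (f j v)

/-- the map induced on the neighbour sums -/
def Hom.fU {Z Z' : PM Γ} (g : Hom Z Z') (i : I) (u : Z.U i) : Z'.U i := fun l => g.f l.1 (u l)

/-- isomorphic modules -/
def Iso (Z Z' : PM Γ) : Prop := ∃ g : Hom Z Z', ∀ i, Function.Bijective (g.f i)

end PM

/-- one layer of the relation between the cohomology of `T_J X'` (`Z`) and of `X'` (`Z'`):
a morphism `γ`, bijective off `J`, with `ker β = im α'` on `J`. -/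
def Step1 (J : Set I) (Z Z' : PM Γ) : Prop :=
  ∃ g : PM.Hom Z Z', (∀ l, l ∉ J → Function.Bijective (g.f l)) ∧
    ∀ i ∈ J, ∀ u : Z.U i, Z.β i u = 0 ↔ ∃ v', Z'.α i v' = g.fU i u

/-- the relation between the cohomology layers `H` of `T_J X'` and `H'` of `X'` -/
def Step (J : Set I) (H H' : ℤ → PM Γ) : Prop :=
  (∀ k, Step1 J (H k) (H' k)) ∧
    ∀ k, ∀ i ∈ J, (H k).dim i =
      finrank K2 (LinearMap.range ((H k).β i)) + finrank K2 (LinearMap.ker ((H' (k + 1)).α i))

/-- layers vanish in high degree -/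
def Bdd (H : ℤ → PM Γ) : Prop := ∃ K : ℤ, ∀ k, K ≤ k → ∀ i, (H k).dim i = 0

/-- `J` is an independent set -/
def Indep (Γ : SimpleGraph I) (J : Set I) : Prop := ∀ i ∈ J, ∀ j ∈ J, ¬ Γ.Adj i j

open Classical in
/-- The data on which the Morse theory runs: an unfolded graph with weights and a family of layered
modules indexed by the Artin group. -/
structure Setup {S : Type} (M : CoxeterMatrix S) where
  I : Type
  [fI : Fintype I]
  Γ : SimpleGraph I
  proj : I → Option S
  π : I → ℝ
  π_pos : ∀ i, 0 < π i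
  nadj : ∀ s, Indep Γ {i | proj i = some s}
  pf : ∀ j t s, proj j = some t → s ≠ t →
    ∑ i ∈ Finset.univ.filter (fun i => proj i = some s ∧ Γ.Adj j i), π i = cc M s t * π j
  H : ArtinGroup M → ℤ → PM Γ
  step : ∀ x s, Step {i | proj i = some s} (H x) (H (x * σ M s))
  bdd : ∀ x, Bdd (H x)

attribute [instance] Setup.fI

namespace Setup

variable {S : Type} {M : CoxeterMatrix S} (𝒮 : Setup M)

/-- the fibre over `s` -/
def fib (s : S) : Set 𝒮.I := {i | 𝒮.proj i = some s}

/-- the vertices over a set of generators -/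
def abv (T : Set S) : Set 𝒮.I := {i | ∃ s ∈ T, 𝒮.proj i = some s}

open Classical in
/-- weighted sum over a fibre -/
noncomputable def wsum (f : 𝒮.I → ℝ) (s : S) : ℝ :=
  ∑ i ∈ Finset.univ.filter (fun i => 𝒮.proj i = some s), 𝒮.π i * f i

open Classical in
/-- weighted frozen input at `s` -/
noncomputable def finp (f : 𝒮.I → ℝ) (s : S) : ℝ :=
  𝒮.wsum (fun i => ∑ l ∈ Finset.univ.filter (fun l => 𝒮.proj l = none ∧ 𝒮.Γ.Adj i l), f l) s

/-- weighted dimension of layer `k` at `s` -/
noncomputable def dimS (x : ArtinGroup M) (k : ℤ) (s : S) : ℝ :=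
  𝒮.wsum (fun i => ((𝒮.H x k).dim i : ℝ)) s

/-- frozen input of layer `k` at `s` (does not depend on `x`) -/
noncomputable def inp (x : ArtinGroup M) (k : ℤ) (s : S) : ℝ :=
  𝒮.finp (fun i => ((𝒮.H x k).dim i : ℝ)) s

end Setup

end Crest.R175
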