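import Crest.Agent.R175.PMtr1

/-! Row 175: transport of submodules along a `Step1`. -/

set_option autoImplicit false
set_option linter.unusedSectionVars false

namespace Crest.R175

open Module

variable {I : Type} [Fintype I] {Γ : SimpleGraph I}

section aux

variable {A B : Type} [AddCommGroup A] [Module K2 A] [FiniteDimensional K2 A]
  [AddCommGroup B] [Module K2 B] [FiniteDimensional K2 B]

theorem pmtr_rank0 (f : A →ₗ[K2] B) (S : Submodule K2 A) :
    finrank K2 (S.map f) + finrank K2 (S ⊓ LinearMap.ker f : Submodule K2 A) = finrank K2 S := by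
  rw [← LinearMap.finrank_range_add_finrank_ker (f.domRestrict S), LinearMap.range_domRestrict,
    LinearMap.ker_domRestrict, ← Submodule.map_comap_subtype, Submodule.finrank_map_subtype_eq]

theorem pmtr_rank (f : A →ₗ[K2] B) (S : Submodule K2 A) (T : Submodule K2 B) :
    finrank K2 S + finrank K2 T = finrank K2 (S ⊓ T.comap f : Submodule K2 A) +
      finrank K2 (S.map f ⊔ T : Submodule K2 B) := by
  have h1 := pmtr_rank0 f S
  have h2 := pmtr_rank0 f (S ⊓ T.comap f)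
  have h3 := Submodule.finrank_sup_add_finrank_inf_eq (S.map f) T
  rw [← Submodule.map_inf_eq_map_inf_comap, inf_assoc,
    inf_eq_right.2 (LinearMap.ker_le_comap f)] at h2
  omega

theorem pmtr_hyp {W W' : Submodule K2 A} (h : W < W') :
    ∃ W'' : Submodule K2 A, W ≤ W'' ∧ W'' ≤ W' ∧ finrank K2 W'' + 1 = finrank K2 W' := by
  obtain ⟨x, hx, hx'⟩ := SetLike.exists_of_lt h
  obtain ⟨f, hf, hf'⟩ := Submodule.exists_dual_map_eq_bot_of_notMem hx' inferInstance
  refine ⟨W' ⊓ LinearMap.ker f, le_inf h.le (LinearMap.le_ker_iff_map.2 hf'), inf_le_left, ?_⟩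
  have h1 := pmtr_rank0 f W'
  have h2 : W'.map f = ⊤ := (eq_bot_or_eq_top _).resolve_left fun e =>
    hf ((Submodule.eq_bot_iff _).1 e _ (Submodule.mem_map_of_mem hx))
  rw [h2, finrank_top, finrank_self] at h1
  omega

end aux

theorem pmtr_pi (Z : PM Γ) (K : Z.Sub) (i : I) :
    finrank K2 (Submodule.pi Set.univ fun l : Nb Γ i => K.K l.1) = ∑ l : Nb Γ i, K.dim l.1 := by
  let e : (Submodule.pi Set.univ fun l : Nb Γ i => K.K l.1) ≃ₗ[K2] ∀ l : Nb Γ i, K.K l.1 :=
    { toFun := fun u l => ⟨u.1 l, u.2 l trivial⟩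
      invFun := fun v => ⟨fun l => v l, fun l _ => (v l).2⟩
      map_add' := fun _ _ => rfl
      map_smul' := fun _ _ => rfl
      left_inv := fun _ => rfl
      right_inv := fun _ => rfl }
  rw [e.finrank_eq, Module.finrank_pi_fintype]
  rfl

theorem pmtr_upd {Z : PM Γ} (K : Z.Sub) (i : I) (W : Submodule K2 (Z.V i))
    (h1 : ∀ l, ∀ v ∈ W, Z.a l i v ∈ K.K l) (h2 : ∀ l, ∀ v ∈ K.K l, Z.a i l v ∈ W) :
    ∃ K' : Z.Sub, K'.K i = W ∧ ∀ l, l ≠ i → K'.K l = K.K l := by
  classical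
  refine ⟨⟨Function.update K.K i W, fun p q v hv => ?_⟩,
    show Function.update K.K i W i = W from Function.update_self i W K.K,
    fun l hl => show Function.update K.K i W l = K.K l from Function.update_of_ne hl W K.K⟩
  by_cases hp : p = i <;> by_cases hq : q = i
  · subst hp
    subst hq
    rw [Z.a_zero _ _ (Γ.irrefl), LinearMap.zero_apply]
    exact zero_mem _
  · subst hp
    rw [Function.update_of_ne hq] at hv
    rw [Function.update_self]
    exact h2 q v hv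
  · subst hq
    rw [Function.update_self] at hv
    rw [Function.update_of_ne hp]
    exact h1 p v hv
  · rw [Function.update_of_ne hq] at hv
    rw [Function.update_of_ne hp]
    exact K.map p q v hv

theorem pmtr_β {Z : PM Γ} {i : I} {W : Submodule K2 (Z.V i)} {u : Z.U i}
    (h : ∀ l : Nb Γ i, Z.a i l.1 (u l) ∈ W) : Z.β i u ∈ W := by
  rw [PM.β_apply]
  exact sum_mem fun l _ => h l

theorem pmtr_single {Z : PM Γ} {i : I} (K : Z.Sub) (l : I) {v : Z.V l} (hv : v ∈ K.K l) :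
    Z.a i l v ∈ (Submodule.pi Set.univ fun l : Nb Γ i => K.K l.1).map (Z.β i) := by
  classical
  by_cases hl : Γ.Adj i l
  · refine ⟨Pi.single (⟨l, hl⟩ : Nb Γ i) v, fun m _ => ?_, ?_⟩
    · by_cases hm : m = ⟨l, hl⟩
      · subst hm
        rwa [Pi.single_eq_same]
      · rw [Pi.single_eq_of_ne hm]
        exact zero_mem _
    · rw [PM.β_apply, Finset.sum_eq_single (⟨l, hl⟩ : Nb Γ i), Pi.single_eq_same]
      · intro m _ hm
        rw [Pi.single_eq_of_ne hm, map_zero]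
      · simp
  · rw [Z.a_zero _ _ hl, LinearMap.zero_apply]
    exact zero_mem _

theorem pmtr_nb {Z : PM Γ} {i : I} (K : Z.Sub) {v : Z.V i}
    (h : ∀ l : Nb Γ i, Z.a l.1 i v ∈ K.K l.1) (l : I) : Z.a l i v ∈ K.K l := by
  by_cases hl : Γ.Adj i l
  · exact h ⟨l, hl⟩
  · rw [Z.a_zero _ _ fun h' => hl h'.symm, LinearMap.zero_apply]
    exact zero_mem _

/-- a socle vector gives a one-dimensional submodule -/
theorem PM.exists_sub_of_not_injective (Z : PM Γ) {i : I} (h : ¬ Function.Injective (Z.α i)) :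
    ∃ K : Z.Sub, K.dim i = 1 ∧ ∀ l, l ≠ i → K.dim l = 0 := by
  rw [← LinearMap.ker_eq_bot, ← Ne, Submodule.ne_bot_iff] at h
  obtain ⟨v, hv, hv0⟩ := h
  have h1 : ∀ l, Z.a l i v ∈ (PM.botSub Z).K l := pmtr_nb _ fun l => congrFun hv l
  obtain ⟨K, h2, h3⟩ := pmtr_upd (PM.botSub Z) i (Submodule.span K2 {v}) (fun l w hw => by
    obtain ⟨c, rfl⟩ := Submodule.mem_span_singleton.1 hw
    rw [map_smul]
    exact Submodule.smul_mem _ _ (h1 l)) fun l w hw => bot_le (a := Submodule.span K2 {v})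
      ((PM.botSub Z).map i l w hw)
  refine ⟨K, ?_, fun l hl => ?_⟩
  · rw [PM.Sub.dim, h2, finrank_span_singleton hv0]
  · rw [PM.Sub.dim, h3 l hl]
    exact finrank_bot _ _

/-- a top gives a submodule of codimension one -/
theorem PM.exists_sub_of_not_noTop (Z : PM Γ) {i : I} (h : ¬ Z.NoTop i) :
    ∃ K : Z.Sub, K.cod i = 1 ∧ ∀ l, l ≠ i → K.cod l = 0 := by
  rw [PM.NoTop, ← LinearMap.range_eq_top, ← Ne, ← lt_top_iff_ne_top] at h
  obtain ⟨W, h1, -, h2⟩ := pmtr_hyp h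
  obtain ⟨K, h3, h4⟩ := pmtr_upd (PM.topSub Z) i W (fun _ _ _ => Submodule.mem_top)
    fun l w hw => h1 (LinearMap.map_le_range (pmtr_single _ l hw))
  refine ⟨K, ?_, fun l hl => ?_⟩
  · rw [finrank_top] at h2
    rw [PM.Sub.cod, PM.Sub.dim, h3, PM.dim, ← h2]
    push_cast
    ring
  · rw [PM.Sub.cod, PM.Sub.dim, h4 l hl, sub_eq_zero]
    exact congrArg _ (finrank_top _ _).symm

/-- without socle and top the slope is `- ext¹ ≤ 0` -/
theorem PM.two_dim_le (Z : PM Γ) {i : I} (h : Function.Injective (Z.α i)) (h' : Z.NoTop i) :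
    2 * Z.dim i ≤ ∑ l : Nb Γ i, Z.dim l.1 := by
  have h1 := LinearMap.finrank_range_add_finrank_ker (Z.β i)
  have h2 : finrank K2 (LinearMap.range (Z.α i)) ≤ finrank K2 (LinearMap.ker (Z.β i)) :=
    Submodule.finrank_mono (by
      rintro _ ⟨v, rfl⟩
      exact Z.β_α i v)
  rw [LinearMap.finrank_range_of_inj h] at h2
  rw [LinearMap.range_eq_top.2 h', finrank_top, Module.finrank_pi_fintype] at h1
  simp only [PM.dim]
  omega

/-- the slope inequality `2 e_i - ∑ e_l ≤ soc + top` for the subquotient `K₂ / K₁`: if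
`2 e_i > ∑ e_l` then either there is a socle vector or there is a top. -/
theorem PM.soc_or_top {Z : PM Γ} (K₁ K₂ : Z.Sub) (hle : ∀ l, K₁.K l ≤ K₂.K l) {i : I}
    (h : ∑ l : Nb Γ i, ((K₂.dim l.1 : ℝ) - K₁.dim l.1) < 2 * ((K₂.dim i : ℝ) - K₁.dim i)) :
    (∃ v ∈ K₂.K i, v ∉ K₁.K i ∧ ∀ l, Z.a l i v ∈ K₁.K l) ∨
    ∃ W : Submodule K2 (Z.V i), K₁.K i ≤ W ∧ W < K₂.K i ∧ ∀ l, ∀ v ∈ K₂.K l, Z.a i l v ∈ W := by
  by_contra hc
  push Not at hc
  obtain ⟨h1, h2⟩ := hc
  set U₁ : Submodule K2 (Z.U i) := Submodule.pi Set.univ fun l : Nb Γ i => K₁.K l.1 with hU₁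
  set U₂ : Submodule K2 (Z.U i) := Submodule.pi Set.univ fun l : Nb Γ i => K₂.K l.1 with hU₂
  have e1 : U₂.map (Z.β i) ⊔ K₁.K i = K₂.K i := by
    refine (lt_or_eq_of_le (sup_le ?_ (hle i))).resolve_left fun hlt => ?_
    · rintro _ ⟨u, hu, rfl⟩
      exact pmtr_β fun l => K₂.map _ _ _ (hu l trivial)
    · obtain ⟨l, v, hv, hv'⟩ := h2 _ le_sup_right hlt
      exact hv' (Submodule.mem_sup_left (pmtr_single K₂ l hv))
  have e2 := pmtr_rank (Z.β i) U₂ (K₁.K i)
  have e3 := pmtr_rank (Z.α i) (K₂.K i) U₁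
  have e4 : finrank K2 (K₂.K i ⊓ U₁.comap (Z.α i) : Submodule K2 _) ≤ finrank K2 (K₁.K i) :=
    Submodule.finrank_mono fun v hv => by
      by_contra hv'
      obtain ⟨l, hl⟩ := h1 v hv.1 hv'
      exact hl (pmtr_nb K₁ (fun l => hv.2 l trivial) l)
  have e5 : finrank K2 ((K₂.K i).map (Z.α i) ⊔ U₁ : Submodule K2 _) ≤
      finrank K2 (U₂ ⊓ (K₁.K i).comap (Z.β i) : Submodule K2 _) := by
    refine Submodule.finrank_mono (sup_le ?_ fun u hu => ⟨fun l _ => hle _ (hu l trivial),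
      pmtr_β fun l => K₁.map _ _ _ (hu l trivial)⟩)
    rintro _ ⟨v, hv, rfl⟩
    refine ⟨fun l _ => K₂.map _ _ _ hv, ?_⟩
    change Z.β i (Z.α i v) ∈ K₁.K i
    rw [Z.β_α]
    exact zero_mem _
  have p1 : finrank K2 U₁ = ∑ l : Nb Γ i, K₁.dim l.1 := pmtr_pi Z K₁ i
  have p2 : finrank K2 U₂ = ∑ l : Nb Γ i, K₂.dim l.1 := pmtr_pi Z K₂ i
  rw [e1] at e2
  have e6 : ∑ l : Nb Γ i, K₁.dim l.1 + 2 * K₂.dim i ≤ ∑ l : Nb Γ i, K₂.dim l.1 + 2 * K₁.dim i := by
    rw [← p1, ← p2]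
    simp only [PM.Sub.dim]
    linarith
  have e7 : ∑ l : Nb Γ i, (K₁.dim l.1 : ℝ) + 2 * K₂.dim i ≤
      ∑ l : Nb Γ i, (K₂.dim l.1 : ℝ) + 2 * K₁.dim i := by exact_mod_cast e6
  rw [Finset.sum_sub_distrib] at h
  linarith

/-- **Tops.**  Suppose every nonzero nonnegative integer vector supported on `A` has a vertex of
positive slope.  Then a proper inclusion of submodules which is an equality off `A` has a top: there is
an intermediate submodule of codimension one in `K₂`.  (Induction on `∑ dim K₂ - dim K₁`; in the socle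
case enlarge `K₁` by the socle vector; if that gives `K₂`, take `K₁` itself.) -/
theorem PM.exists_codim_one {Z : PM Γ} (A : Set I)
    (hA : ∀ e : I → ℝ, 0 ≤ e → e ≠ 0 → (∀ l, l ∉ A → e l = 0) →
      ∃ i ∈ A, ∑ l : Nb Γ i, e l.1 < 2 * e i)
    (K₁ K₂ : Z.Sub) (hle : ∀ l, K₁.K l ≤ K₂.K l) (heq : ∀ l, l ∉ A → K₁.dim l = K₂.dim l)
    (hne : ∃ l, K₁.dim l ≠ K₂.dim l) :
    ∃ K : Z.Sub, ∃ i ∈ A, (∀ l, K₁.K l ≤ K.K l) ∧ (∀ l, K.K l ≤ K₂.K l) ∧
      K.dim i + 1 = K₂.dim i ∧ ∀ l, l ≠ i → K.dim l = K₂.dim l := by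
  obtain ⟨n, hn⟩ : ∃ n, ∑ l, K₂.dim l ≤ ∑ l, K₁.dim l + n := ⟨_, le_add_self⟩
  induction n generalizing K₁ with
  | zero =>
    obtain ⟨l, hl⟩ := hne
    have h1 : ∀ l, K₁.dim l ≤ K₂.dim l := fun l => Submodule.finrank_mono (hle l)
    exact absurd hn (not_le.2 (Finset.sum_lt_sum (fun l _ => h1 l)
      ⟨l, Finset.mem_univ l, (h1 l).lt_of_ne hl⟩))
  | succ n ih =>
    have h1 : ∀ l, K₁.dim l ≤ K₂.dim l := fun l => Submodule.finrank_mono (hle l)
    obtain ⟨i, hi, hs⟩ := hA (fun l => (K₂.dim l : ℝ) - K₁.dim l)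
      (fun l => sub_nonneg.2 (Nat.cast_le.2 (h1 l)))
      (fun e => by
        obtain ⟨l, hl⟩ := hne
        exact hl (Nat.cast_injective (R := ℝ) (sub_eq_zero.1 (congrFun e l)).symm))
      fun l hl => by rw [heq l hl, sub_self]
    rcases PM.soc_or_top K₁ K₂ hle hs with ⟨v, hv, hv', hv''⟩ | ⟨W, w1, w2, w3⟩
    · obtain ⟨K, h2, h3⟩ := pmtr_upd K₁ i (K₁.K i ⊔ Submodule.span K2 {v}) (fun l w hw => by
        obtain ⟨x, hx, y, hy, rfl⟩ := Submodule.mem_sup.1 hw
        obtain ⟨c, rfl⟩ := Submodule.mem_span_singleton.1 hy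
        rw [map_add, map_smul]
        exact add_mem (K₁.map _ _ _ hx) (Submodule.smul_mem _ _ (hv'' l)))
        fun l w hw => Submodule.mem_sup_left (K₁.map _ _ _ hw)
      have h4 : K.dim i = K₁.dim i + 1 := by
        rw [PM.Sub.dim, h2, Submodule.finrank_sup_span_singleton hv']
        rfl
      have h5 : ∀ l, l ≠ i → K.dim l = K₁.dim l := fun l hl => by rw [PM.Sub.dim, h3 l hl]; rfl
      have h6 : ∀ l, K₁.K l ≤ K.K l := fun l => by
        by_cases hl : l = i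
        · subst hl
          exact h2 ▸ le_sup_left
        · exact (h3 l hl).ge
      by_cases h7 : ∃ l, K.dim l ≠ K₂.dim l
      · obtain ⟨K', j, hj, a1, a2⟩ := ih K (fun l => by
          by_cases hl : l = i
          · subst hl
            exact h2 ▸ sup_le (hle l) ((Submodule.span_singleton_le_iff_mem _ _).2 hv)
          · exact h3 l hl ▸ hle l) (fun l hl => (h5 l fun e => hl (e ▸ hi)).trans (heq l hl)) h7
          (by
            have := Finset.sum_lt_sum (s := Finset.univ) (f := K₁.dim) (g := K.dim)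
              (fun l _ => Submodule.finrank_mono (h6 l)) ⟨i, Finset.mem_univ i, by omega⟩
            omega)
        exact ⟨K', j, hj, fun l => (h6 l).trans (a1 l), a2⟩
      · push Not at h7
        exact ⟨K₁, i, hi, fun _ => le_rfl, hle, by rw [← h7, h4], fun l hl => by rw [← h7, h5 l hl]⟩
    · obtain ⟨W', b1, b2, b3⟩ := pmtr_hyp w2
      obtain ⟨K, h2, h3⟩ := pmtr_upd K₂ i W' (fun l w hw => K₂.map _ _ _ (b2 hw))
        fun l w hw => b1 (w3 l w hw)
      refine ⟨K, i, hi, fun l => ?_, fun l => ?_, by rw [PM.Sub.dim, h2]; exact b3,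
        fun l hl => by rw [PM.Sub.dim, h3 l hl]; rfl⟩
      · by_cases hl : l = i
        · subst hl
          exact h2 ▸ w1.trans b1
        · exact h3 l hl ▸ hle l
      · by_cases hl : l = i
        · subst hl
          exact h2 ▸ b2
        · exact (h3 l hl).le

/-- a submodule of codimension one concentrated at `i` in the full module contradicts `NoTop` -/
theorem PM.not_noTop_of_sub {Z : PM Γ} (K : Z.Sub) {i : I} (h : K.dim i + 1 = Z.dim i)
    (h' : ∀ l, l ≠ i → K.dim l = Z.dim l) : ¬ Z.NoTop i := by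
  intro ht
  have h1 : K.K i = ⊤ := eq_top_iff.2 fun v _ => by
    obtain ⟨u, rfl⟩ := ht v
    refine pmtr_β fun l => K.map _ _ _ ?_
    rw [Submodule.eq_top_of_finrank_eq (h' l.1 l.2.ne')]
    exact Submodule.mem_top
  rw [PM.Sub.dim, h1, finrank_top, PM.dim] at h
  omega

end Crest.R175
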