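import Crest.Agent.R175.PMstep

/-! Row 175: transport of submodules along a `Step1`. -/

set_option autoImplicit false
set_option linter.unusedSectionVars false

namespace Crest.R175

open Module

variable {I : Type} [Fintype I] {Γ : SimpleGraph I}

section LinAlg
variable {k V W X : Type} [Field k] [AddCommGroup V] [Module k V] [AddCommGroup W] [Module k W]
  [AddCommGroup X] [Module k X] [FiniteDimensional k V] [FiniteDimensional k W]
  [FiniteDimensional k X]

theorem pmtr1_map_ker (f : V →ₗ[k] W) (S : Submodule k V) :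
    finrank k (S.map f) + finrank k ↥(S ⊓ LinearMap.ker f) = finrank k S := by
  have h := LinearMap.finrank_range_add_finrank_ker (f.domRestrict S)
  rw [LinearMap.range_domRestrict, LinearMap.ker_domRestrict] at h
  rw [← h, ← Submodule.finrank_map_subtype_eq S (Submodule.comap S.subtype (LinearMap.ker f)),
    Submodule.map_comap_subtype]

theorem pmtr1_comap (f : V →ₗ[k] W) (S : Submodule k W) :
    finrank k (S.comap f) =
      finrank k ↥(LinearMap.range f ⊓ S) + finrank k (LinearMap.ker f) := by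
  have h := pmtr1_map_ker f (S.comap f)
  rw [Submodule.map_comap_eq, inf_eq_right.2 (LinearMap.ker_le_comap f)] at h
  exact h.symm

theorem pmtr1_comap_surj (f : V →ₗ[k] W) (hf : Function.Surjective f) (S : Submodule k W) :
    finrank k (S.comap f) + finrank k W = finrank k S + finrank k V := by
  have h1 := pmtr1_comap f S
  have h2 := LinearMap.finrank_range_add_finrank_ker f
  rw [LinearMap.range_eq_top.2 hf] at h1 h2
  rw [top_inf_eq] at h1
  rw [finrank_top] at h2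
  omega

theorem pmtr1_core1 (β : V →ₗ[k] W) (hβ : Function.Surjective β) (φ : X →ₗ[k] V)
    (hφ : LinearMap.range φ = LinearMap.ker β) (S : Submodule k V) (T : Submodule k X)
    (hT : T.map φ ≤ S) :
    finrank k V + finrank k (S.map β) + finrank k T ≤ finrank k S + finrank k W + finrank k X := by
  have h1 := LinearMap.finrank_range_add_finrank_ker β
  rw [LinearMap.range_eq_top.2 hβ, finrank_top] at h1
  have h2 := pmtr1_map_ker β S
  have h3 := LinearMap.finrank_range_add_finrank_ker φ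
  rw [hφ] at h3
  have h4 := pmtr1_map_ker φ T
  have h5 : finrank k (T.map φ) ≤ finrank k ↥(S ⊓ LinearMap.ker β) :=
    Submodule.finrank_mono (le_inf hT (hφ ▸ LinearMap.map_le_range))
  have h6 : finrank k ↥(T ⊓ LinearMap.ker φ) ≤ finrank k (LinearMap.ker φ) :=
    Submodule.finrank_mono inf_le_right
  omega

theorem pmtr1_core2 (β : V →ₗ[k] W) (hβ : Function.Surjective β) (φ : X →ₗ[k] V)
    (hφ : LinearMap.range φ = LinearMap.ker β) (S : Submodule k V) (T : Submodule k W)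
    (hT : S.map β ≤ T) :
    finrank k W + finrank k X + finrank k S ≤
      finrank k V + finrank k T + finrank k (S.comap φ) := by
  have h1 := LinearMap.finrank_range_add_finrank_ker β
  rw [LinearMap.range_eq_top.2 hβ, finrank_top] at h1
  have h2 := pmtr1_map_ker β S
  have h3 := LinearMap.finrank_range_add_finrank_ker φ
  have h4 := pmtr1_comap φ S
  rw [hφ] at h3 h4
  rw [inf_comm] at h4
  have h5 : finrank k (S.map β) ≤ finrank k T := Submodule.finrank_mono hT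
  omega

theorem pmtr1_pi {ι : Type} [Fintype ι] {M : ι → Type} [∀ i, AddCommGroup (M i)]
    [∀ i, Module k (M i)] [∀ i, FiniteDimensional k (M i)] (S : ∀ i, Submodule k (M i)) :
    finrank k (Submodule.pi Set.univ S) = ∑ i, finrank k (S i) := by
  let f : (∀ i, S i) →ₗ[k] (∀ i, M i) :=
    LinearMap.pi fun i => (S i).subtype ∘ₗ LinearMap.proj i
  have hf : Function.Injective f := fun u v h => funext fun i => Subtype.ext (congrFun h i)
  have hr : LinearMap.range f = Submodule.pi Set.univ S := by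
    ext u
    constructor
    · rintro ⟨v, rfl⟩ i _
      exact (v i).2
    · intro hu
      exact ⟨fun i => ⟨u i, hu i (Set.mem_univ i)⟩, rfl⟩
  rw [← hr, LinearMap.finrank_range_of_inj hf, Module.finrank_pi_fintype]

end LinAlg

theorem pmtr1_phi {J : Set I} {Z Z' : PM Γ} (g : PM.Hom Z Z')
    (hb : ∀ l, l ∉ J → Function.Bijective (g.f l))
    (hk : ∀ i ∈ J, ∀ u : Z.U i, Z.β i u = 0 ↔ ∃ v', Z'.α i v' = g.fU i u) (hJ : Indep Γ J)
    {i : I} (hi : i ∈ J) : ∃ φ : Z'.V i →ₗ[K2] Z.U i,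
      LinearMap.range φ = LinearMap.ker (Z.β i) ∧
        ∀ v (l : Nb Γ i), g.f l.1 (φ v l) = Z'.a l.1 i v := by
  let e : Z.U i ≃ₗ[K2] Z'.U i := LinearEquiv.piCongrRight fun l =>
    LinearEquiv.ofBijective (g.f l.1) (hb l.1 fun hl => hJ i hi l.1 hl l.2)
  have he : ∀ u, e u = g.fU i u := fun u => rfl
  refine ⟨e.symm.toLinearMap ∘ₗ Z'.α i, ?_, fun v l => ?_⟩
  · ext u
    rw [LinearMap.mem_ker, hk i hi, ← he]
    constructor
    · rintro ⟨v, rfl⟩
      exact ⟨v, by simp⟩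
    · rintro ⟨v, hv⟩
      exact ⟨v, by simp [hv]⟩
  · have h := congrFun (e.apply_symm_apply (Z'.α i v)) l
    exact h

theorem pmtr1_single (Z : PM Γ) {i j : I} (hij : Γ.Adj i j) (v : Z.V j) (S : ∀ l, Submodule K2 (Z.V l))
    (hv : v ∈ S j) :
    Z.a i j v ∈ (Submodule.pi Set.univ fun l : Nb Γ i => S l.1).map (Z.β i) := by
  classical
  refine ⟨Pi.single (M := fun l : Nb Γ i => Z.V l.1) ⟨j, hij⟩ v, fun l _ => ?_, ?_⟩
  · by_cases hl : l = ⟨j, hij⟩
    · subst hl
      rw [Pi.single_eq_same]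
      exact hv
    · rw [Pi.single_eq_of_ne hl]
      exact Submodule.zero_mem _
  · rw [PM.β_apply, Finset.sum_eq_single ⟨j, hij⟩]
    · rw [Pi.single_eq_same]
    · intro l _ hl
      rw [Pi.single_eq_of_ne hl, map_zero]
    · simp

theorem pmtr1_dimU (Z : PM Γ) (i : I) : finrank K2 (Z.U i) = ∑ l : Nb Γ i, Z.dim l.1 :=
  Module.finrank_pi_fintype K2

theorem PM.Sub.dim_le {Z : PM Γ} (K : Z.Sub) (i : I) : K.dim i ≤ Z.dim i :=
  Submodule.finrank_le _

theorem PM.Sub.cod_nonneg {Z : PM Γ} (K : Z.Sub) (i : I) : 0 ≤ K.cod i := by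
  have : (K.dim i : ℝ) ≤ Z.dim i := by exact_mod_cast K.dim_le i
  unfold PM.Sub.cod
  linarith

theorem PM.botSub_dim (Z : PM Γ) (i : I) : (PM.botSub Z).dim i = 0 :=
  finrank_bot K2 (Z.V i)

theorem PM.topSub_dim (Z : PM Γ) (i : I) : (PM.topSub Z).dim i = Z.dim i :=
  finrank_top K2 (Z.V i)

/-- **(TR1) pull back.**  `K_l = γ⁻¹ K'_l` off `J`, `K_i = β (U_K)` on `J` (a submodule since
`γ α β u = α' β' γ u`).  With `U_K = ∏ K_l ≤ U`: `Z_i / K_i ≅ U / (U_K + ker β)` and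
`(U_K + ker β) / U_K` is the image of `Z'_i / K'_i` under `α'`, so
`cod K i + cod K' i ≥ dim U / U_K`. -/
theorem Step1.pull {J : Set I} {Z Z' : PM Γ} (h : Step1 J Z Z') (hJ : Indep Γ J)
    (ht : ∀ i ∈ J, Z.NoTop i) (K' : Z'.Sub) :
    ∃ K : Z.Sub, (∀ l, l ∉ J → K.dim l = K'.dim l) ∧
      ∀ i ∈ J, ∑ l : Nb Γ i, K.cod l.1 ≤ K.cod i + K'.cod i := by
  classical
  obtain ⟨g, hb, hk⟩ := h
  let S : ∀ l, Submodule K2 (Z.V l) := fun l => (K'.K l).comap (g.f l)
  let T : ∀ l, Submodule K2 (Z.V l) := fun l =>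
    if l ∈ J then (Submodule.pi Set.univ fun m : Nb Γ l => S m.1).map (Z.β l) else S l
  have T1 : ∀ l, l ∈ J → T l = (Submodule.pi Set.univ fun m : Nb Γ l => S m.1).map (Z.β l) :=
    fun l hl => if_pos hl
  have T2 : ∀ l, l ∉ J → T l = S l := fun l hl => if_neg hl
  have hT : ∀ i j v, v ∈ T j → Z.a i j v ∈ T i := by
    intro i j v hv
    by_cases hij : Γ.Adj i j
    · by_cases hi : i ∈ J
      · rw [T2 j fun hj => hJ i hi j hj hij] at hv
        rw [T1 i hi]
        exact pmtr1_single Z hij v S hv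
      · rw [T2 i hi]
        change g.f i (Z.a i j v) ∈ K'.K i
        rw [g.comm]
        refine K'.map i j _ ?_
        by_cases hj : j ∈ J
        · rw [T1 j hj] at hv
          obtain ⟨u, hu, rfl⟩ := hv
          rw [← g.β_fU, PM.β_apply]
          exact Submodule.sum_mem _ fun l _ => K'.map _ _ _ (hu l (Set.mem_univ l))
        · rw [T2 j hj] at hv
          exact hv
    · rw [Z.a_zero i j hij]
      exact Submodule.zero_mem _
  have hd : ∀ l, l ∉ J → finrank K2 (T l) = K'.dim l := by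
    intro l hl
    have h1 := pmtr1_comap_surj (g.f l) (hb l hl).2 (K'.K l)
    have h2 := (LinearEquiv.ofBijective (g.f l) (hb l hl)).finrank_eq
    rw [T2 l hl]
    change finrank K2 ((K'.K l).comap (g.f l)) = finrank K2 (K'.K l)
    omega
  refine ⟨⟨T, hT⟩, hd, fun i hi => ?_⟩
  obtain ⟨φ, hφ, hφ'⟩ := pmtr1_phi g hb hk hJ hi
  have h1 := pmtr1_core1 (Z.β i) (ht i hi) φ hφ (Submodule.pi Set.univ fun m : Nb Γ i => S m.1)
    (K'.K i) (by
      rintro _ ⟨v, hv, rfl⟩ l _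
      change g.f l.1 (φ v l) ∈ K'.K l.1
      rw [hφ']
      exact K'.map _ _ _ hv)
  rw [pmtr1_pi, pmtr1_dimU, ← T1 i hi] at h1
  have h2 : ∑ l : Nb Γ i, finrank K2 (S l.1) = ∑ l : Nb Γ i, finrank K2 (T l.1) :=
    Finset.sum_congr rfl fun l _ => by rw [T2 l.1 fun hl => hJ i hi l.1 hl l.2]
  rw [h2] at h1
  have h3 : ((∑ l : Nb Γ i, Z.dim l.1 + finrank K2 (T i) + finrank K2 (K'.K i) : ℕ) : ℝ) ≤
      ((∑ l : Nb Γ i, finrank K2 (T l.1) + finrank K2 (Z.V i) + finrank K2 (Z'.V i) : ℕ) : ℝ) := by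
    exact_mod_cast h1
  push_cast at h3
  simp only [PM.Sub.cod, PM.Sub.dim, Finset.sum_sub_distrib]
  unfold PM.dim at h3 ⊢
  linarith

/-- **(TR2) push forward.**  `K'_l = γ K_l` off `J`, `K'_i = α'⁻¹ (γ U_K)` on `J`.
`Z'_i / K'_i ≅ ker β / (ker β ∩ U_K)`, of dimension `(U - d_i) - (U_K - dim β U_K)`, and
`dim β U_K ≤ dim K_i`. -/
theorem Step1.push {J : Set I} {Z Z' : PM Γ} (h : Step1 J Z Z') (hJ : Indep Γ J)
    (ht : ∀ i ∈ J, Z.NoTop i) (K : Z.Sub) :
    ∃ K' : Z'.Sub, (∀ l, l ∉ J → K.dim l = K'.dim l) ∧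
      ∀ i ∈ J, K.cod i + K'.cod i ≤ ∑ l : Nb Γ i, K.cod l.1 := by
  classical
  obtain ⟨g, hb, hk⟩ := h
  let S : ∀ l, Submodule K2 (Z'.V l) := fun l => (K.K l).map (g.f l)
  let T : ∀ l, Submodule K2 (Z'.V l) := fun l =>
    if l ∈ J then (Submodule.pi Set.univ fun m : Nb Γ l => S m.1).comap (Z'.α l) else S l
  have T1 : ∀ l, l ∈ J → T l = (Submodule.pi Set.univ fun m : Nb Γ l => S m.1).comap (Z'.α l) :=
    fun l hl => if_pos hl
  have T2 : ∀ l, l ∉ J → T l = S l := fun l hl => if_neg hl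
  have hT : ∀ i j v, v ∈ T j → Z'.a i j v ∈ T i := by
    intro i j v hv
    by_cases hij : Γ.Adj i j
    · by_cases hj : j ∈ J
      · rw [T1 j hj] at hv
        rw [T2 i fun hi => hJ i hi j hj hij]
        exact hv ⟨i, hij.symm⟩ (Set.mem_univ _)
      · rw [T2 j hj] at hv
        obtain ⟨w, hw, rfl⟩ := hv
        rw [← g.comm]
        by_cases hi : i ∈ J
        · rw [T1 i hi]
          intro l _
          rw [PM.α_apply, ← g.comm]
          exact ⟨_, K.map _ _ _ (K.map _ _ _ hw), rfl⟩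
        · rw [T2 i hi]
          exact ⟨_, K.map _ _ _ hw, rfl⟩
    · rw [Z'.a_zero i j hij]
      exact Submodule.zero_mem _
  have hd : ∀ l, l ∉ J → K.dim l = finrank K2 (T l) := by
    intro l hl
    rw [T2 l hl]
    exact (LinearEquiv.finrank_map_eq (LinearEquiv.ofBijective (g.f l) (hb l hl)) (K.K l)).symm
  refine ⟨⟨T, hT⟩, hd, fun i hi => ?_⟩
  obtain ⟨φ, hφ, hφ'⟩ := pmtr1_phi g hb hk hJ hi
  have h1 := pmtr1_core2 (Z.β i) (ht i hi) φ hφ (Submodule.pi Set.univ fun m : Nb Γ i => K.K m.1)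
    (K.K i) (by
      rintro _ ⟨u, hu, rfl⟩
      rw [PM.β_apply]
      exact Submodule.sum_mem _ fun l _ => K.map _ _ _ (hu l (Set.mem_univ l)))
  have e : (Submodule.pi Set.univ fun m : Nb Γ i => K.K m.1).comap φ = T i := by
    rw [T1 i hi]
    ext v
    refine forall_congr' fun l => forall_congr' fun _ => ?_
    change φ v l ∈ K.K l.1 ↔ Z'.a l.1 i v ∈ (K.K l.1).map (g.f l.1)
    rw [← hφ']
    constructor
    · intro hv
      exact ⟨_, hv, rfl⟩
    · rintro ⟨w, hw, hw'⟩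
      rw [← (hb l.1 fun hl => hJ i hi l.1 hl l.2).1 hw']
      exact hw
  rw [pmtr1_pi, pmtr1_dimU, e] at h1
  have h3 : ((finrank K2 (Z.V i) + finrank K2 (Z'.V i) + ∑ l : Nb Γ i, finrank K2 (K.K l.1) : ℕ) : ℝ) ≤
      ((∑ l : Nb Γ i, Z.dim l.1 + finrank K2 (K.K i) + finrank K2 (T i) : ℕ) : ℝ) := by
    exact_mod_cast h1
  push_cast at h3
  simp only [PM.Sub.cod, PM.Sub.dim, Finset.sum_sub_distrib]
  unfold PM.dim at h3 ⊢
  linarith

/-- if `Z'` has no top on `J` then `γ` is onto, and quotients of `Z'` are quotients of `Z` -/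
theorem Step1.comap {J : Set I} {Z Z' : PM Γ} (h : Step1 J Z Z') (hJ : Indep Γ J)
    (ht : ∀ i ∈ J, Z'.NoTop i) (K' : Z'.Sub) :
    ∃ K : Z.Sub, (∀ l, l ∉ J → K.dim l = K'.dim l) ∧ ∀ l, K.cod l = K'.cod l := by
  obtain ⟨g, hb, hk⟩ := h
  have hs : ∀ l, Function.Surjective (g.f l) := by
    intro l
    by_cases hl : l ∈ J
    · intro v'
      obtain ⟨u', rfl⟩ := ht l hl v'
      choose u hu using fun m : Nb Γ l => (hb m.1 fun hm => hJ l hl m.1 hm m.2).2 (u' m)
      refine ⟨Z.β l u, ?_⟩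
      rw [← g.β_fU]
      congr 1
      exact funext hu
    · exact (hb l hl).2
  refine ⟨⟨fun l => (K'.K l).comap (g.f l), fun i j v hv => ?_⟩, fun l hl => ?_, fun l => ?_⟩
  · change g.f i (Z.a i j v) ∈ K'.K i
    rw [g.comm]
    exact K'.map i j _ hv
  · have h1 := pmtr1_comap_surj (g.f l) (hs l) (K'.K l)
    have h2 := (LinearEquiv.ofBijective (g.f l) (hb l hl)).finrank_eq
    change finrank K2 ((K'.K l).comap (g.f l)) = finrank K2 (K'.K l)
    omega
  · have h1 := pmtr1_comap_surj (g.f l) (hs l) (K'.K l)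
    have h2 : ((finrank K2 ((K'.K l).comap (g.f l)) + finrank K2 (Z'.V l) : ℕ) : ℝ) =
        ((finrank K2 (K'.K l) + finrank K2 (Z.V l) : ℕ) : ℝ) := by exact_mod_cast h1
    push_cast at h2
    simp only [PM.Sub.cod, PM.Sub.dim, PM.dim]
    linarith

theorem PM.Iso.sub {Z Z' : PM Γ} (h : PM.Iso Z Z') (K : Z.Sub) :
    ∃ K' : Z'.Sub, ∀ l, K.dim l = K'.dim l := by
  obtain ⟨g, hb⟩ := h
  refine ⟨⟨fun l => (K.K l).map (g.f l), fun i j v hv => ?_⟩, fun l => ?_⟩
  · obtain ⟨w, hw, rfl⟩ := hv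
    rw [← g.comm]
    exact ⟨_, K.map _ _ _ hw, rfl⟩
  · exact (LinearEquiv.finrank_map_eq (LinearEquiv.ofBijective (g.f l) (hb l)) (K.K l)).symm

end Crest.R175
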