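import Crest.Agent.R175.Inv

/-! Row 175: weak order, rank two facts, parabolic subgroups of the Coxeter group. -/

set_option autoImplicit false
set_option linter.unusedSectionVars false

namespace Crest.R175

variable {S : Type} [Fintype S] [DecidableEq S] (M : CoxeterMatrix S)

theorem wπ_eq_wp (l : List S) : wπ M l = wp (sr M) l := rfl

theorem rank2_reverse_alt (k : ℕ) : ∀ s t : S,
    (alt s t k).reverse = CoxeterSystem.alternatingWord t s k := by
  induction k with
  | zero => intro s t; rfl
  | succ k ih => intro s t; simp [CoxeterSystem.alternatingWord_succ, ih]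

theorem rank2_alt_eq (s t : S) (k : ℕ) :
    alt s t k = if Even k then CoxeterSystem.alternatingWord s t k
      else CoxeterSystem.alternatingWord t s k := by
  induction k generalizing s t with
  | zero => rfl
  | succ k ih =>
    rw [alt_succ, ih, CoxeterSystem.alternatingWord_succ', CoxeterSystem.alternatingWord_succ']
    by_cases h : Even k <;> simp [h, Nat.even_add_one]

theorem rank2_alt_concat (k : ℕ) : ∀ s t : S,
    alt s t (k + 1) = alt s t k ++ [if Even k then s else t] := by
  induction k with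
  | zero => intro s t; rfl
  | succ k ih =>
    intro s t
    rw [alt_succ, ih t s, alt_succ]
    by_cases h : Even k <;> simp [h, Nat.even_add_one]

theorem rank2_len_altW {w : M.Group} (k : ℕ) : ∀ {s t : S}, s ≠ t →
    ℓ M w < ℓ M (w * sr M s) → ℓ M w < ℓ M (w * sr M t) → (M s t ≠ 0 → k ≤ M s t) →
    ℓ M (w * wπ M (CoxeterSystem.alternatingWord s t k)) = ℓ M w + k := by
  induction k with
  | zero => intro s t _ _ _ _; simp [CoxeterSystem.alternatingWord]
  | succ k ih =>
    intro s t hst hs ht hk
    have hk' : M t s ≠ 0 → k + 1 ≤ M t s := by rw [M.symmetric t s]; exact hk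
    have h1 := ih hst.symm ht hs (fun h => by have := hk' h; omega)
    have e0 : wπ M (CoxeterSystem.alternatingWord s t (k + 1)) =
        wπ M (CoxeterSystem.alternatingWord t s k) * sr M t := by
      rw [CoxeterSystem.alternatingWord_succ]
      exact CoxeterSystem.wordProd_concat _ _ _
    rw [e0, ← mul_assoc]
    set x := w * wπ M (CoxeterSystem.alternatingWord t s k) with hx
    have hN : Crest.Agent.R061.Geom.N
        (Crest.Agent.R061.Geom.rho (cs M) x (Crest.Agent.R061.Geom.al t)) := by
      rw [hx, Crest.Agent.R061.Geom.rho_mul, Crest.Agent.R061.Geom.alt_al, map_add, map_smul,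
        map_smul]
      have hm : M t s ≠ 1 := M.off_diagonal _ _ hst.symm
      have a1 := Crest.Agent.R061.Geom.key (cs M) w s hs
      have a2 := Crest.Agent.R061.Geom.key (cs M) w t ht
      refine Crest.Agent.R061.Geom.N.add (Crest.Agent.R061.Geom.N.smul ?_
        (Crest.Agent.R061.Geom.gu_nonneg hm hk')) (Crest.Agent.R061.Geom.N.smul ?_
        (Crest.Agent.R061.Geom.gu_nonneg hm (fun h => by have := hk' h; omega)))
      · split_ifs <;> assumption
      · split_ifs <;> assumption
    rcases (cs M).length_mul_simple x t with h | h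
    · change (cs M).length (x * (cs M).simple t) = _
      change (cs M).length x = _ at h1
      omega
    · exfalso
      have h2 := Crest.Agent.R061.Geom.key' (cs M) (w := x) (i := t) (by omega)
      exact ((Crest.Agent.R061.Geom.isRoot_al (cs := cs M) t).conj x).ne_zero (hN.eq_zero h2)

/-- the folding condition -/
theorem rank2_fold {w : M.Group} {a s : S} (h : ℓ M w < ℓ M (w * sr M s))
    (h' : ℓ M (sr M a * w * sr M s) < ℓ M (sr M a * w)) : sr M a * w * sr M s = w := by
  have h2 := Crest.Agent.R061.Geom.key (cs M) w s h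
  have h3 := Crest.Agent.R061.Geom.key' (cs M) h'
  have h4 := (Crest.Agent.R061.Geom.isRoot_al (cs := cs M) s).conj w
  rw [Crest.Agent.R061.Geom.rho_mul, Crest.Agent.R061.Geom.rho_simple,
    Crest.Agent.R061.Geom.sg_apply] at h3
  set γ := Crest.Agent.R061.Geom.rho (cs M) w (Crest.Agent.R061.Geom.al s) with hγ
  have h5 : γ = γ.1 a • Crest.Agent.R061.Geom.al a := by
    refine Prod.ext (Finsupp.ext fun b => ?_) (by simp [Crest.Agent.R061.Geom.al, h2.1])
    by_cases hb : a = b
    · simp [Crest.Agent.R061.Geom.al, hb]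
    · have := h3.2 b
      simp [Crest.Agent.R061.Geom.al, hb] at this ⊢
      exact le_antisymm this (h2.2 b)
  have h6 : w * (cs M).simple s * w⁻¹ = (cs M).simple a := by
    rcases Crest.Agent.R061.Geom.eq_or_neg h4.norm (Crest.Agent.R061.Geom.fm_al_self a) h5
      with e | e
    · exact h4.inj (e ▸ Crest.Agent.R061.Geom.isRoot_al a)
    · exact h4.inj (e ▸ (Crest.Agent.R061.Geom.isRoot_al a).neg)
  have h7 : w * (cs M).simple s = (cs M).simple a * w := by rw [← h6]; group
  change (cs M).simple a * w * (cs M).simple s = w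
  rw [mul_assoc, h7, CoxeterSystem.simple_mul_simple_cancel_left]

/-- the exchange condition -/
theorem rank2_exchange (s : S) : ∀ l : List S, ℓ M (wπ M l * sr M s) < ℓ M (wπ M l) →
    ∃ l' : List S, (∀ r ∈ l', r ∈ l) ∧ l'.length + 1 = l.length ∧ wπ M l' = wπ M l * sr M s := by
  intro l
  induction l with
  | nil => intro h; simp at h
  | cons a l ih =>
    intro h
    rcases ((cs M).length_mul_simple_ne (wπ M l) s).lt_or_gt with h1 | h1
    · obtain ⟨l', h2, h3, h4⟩ := ih h1
      refine ⟨a :: l', fun r hr => ?_, by simp [h3], ?_⟩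
      · rcases List.mem_cons.1 hr with rfl | hr
        · exact List.mem_cons_self
        · exact List.mem_cons_of_mem _ (h2 r hr)
      · change (cs M).wordProd _ = (cs M).wordProd _ * _
        rw [CoxeterSystem.wordProd_cons, CoxeterSystem.wordProd_cons, mul_assoc]
        exact congrArg _ h4
    · refine ⟨l, fun r hr => List.mem_cons_of_mem _ hr, by simp, ?_⟩
      have e : wπ M (a :: l) = sr M a * wπ M l := CoxeterSystem.wordProd_cons _ _ _
      rw [e] at h ⊢
      exact (rank2_fold M h1 h).symm

theorem rank2_sr_mem {X : Set S} {s : S} (h : s ∈ X) : sr M s ∈ WX M X :=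
  Subgroup.subset_closure ⟨s, h, rfl⟩

theorem rank2_wπ_mem {X : Set S} : ∀ l : List S, (∀ s ∈ l, s ∈ X) → wπ M l ∈ WX M X := by
  intro l
  induction l with
  | nil => intro _; exact (WX M X).one_mem
  | cons a l ih =>
    intro h
    have e : wπ M (a :: l) = sr M a * wπ M l := CoxeterSystem.wordProd_cons _ _ _
    rw [e]
    exact (WX M X).mul_mem (rank2_sr_mem M (h a List.mem_cons_self))
      (ih fun s hs => h s (List.mem_cons_of_mem _ hs))

theorem braidRel_sr : BraidRel M (sr M) := by
  intro s t
  have h := (cs M).wordProd_braidWord_eq s t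
  simp only [CoxeterSystem.braidWord] at h
  rw [M.symmetric t s] at h
  rw [← wπ_eq_wp, ← wπ_eq_wp, rank2_alt_eq s t, rank2_alt_eq t s]
  split_ifs
  · exact h
  · exact h.symm

theorem WLe.refl (w : M.Group) : WLe M w w := by
  simp [WLe]

theorem one_wle (w : M.Group) : WLe M 1 w := by
  simp [WLe]

theorem WLe.trans {M : CoxeterMatrix S} {u v w : M.Group} (h : WLe M u v) (h' : WLe M v w) :
    WLe M u w := by
  unfold WLe at *
  have h1 := (cs M).length_mul_le (u⁻¹ * v) (v⁻¹ * w)
  have h2 := (cs M).length_mul_le u (u⁻¹ * w)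
  rw [mul_inv_cancel_left] at h2
  rw [mul_assoc, mul_inv_cancel_left] at h1
  simp only [ℓ] at *
  omega

theorem WLe.eq_of_length {M : CoxeterMatrix S} {u w : M.Group} (h : WLe M u w)
    (h' : ℓ M w ≤ ℓ M u) : u = w := by
  unfold WLe at h
  have h1 : (cs M).length (u⁻¹ * w) = 0 := by
    simp only [ℓ] at *
    omega
  exact inv_mul_eq_one.1 ((cs M).length_eq_zero_iff.1 h1)

theorem wle_mul_iff (u v : M.Group) : WLe M u (u * v) ↔ ℓ M (u * v) = ℓ M u + ℓ M v := by
  rw [WLe, inv_mul_cancel_left, eq_comm]

theorem sr_wle_iff (s : S) (w : M.Group) : WLe M (sr M s) w ↔ ℓ M (sr M s * w) < ℓ M w := by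
  have h := (cs M).length_simple_mul w s
  simp only [WLe, ℓ, sr, CoxeterSystem.inv_simple, CoxeterSystem.length_simple]
  omega

/-- factorisation into covers -/
theorem WLe.eq_or_step {M : CoxeterMatrix S} {u w : M.Group} (h : WLe M u w) :
    u = w ∨ ∃ s, ℓ M u < ℓ M (u * sr M s) ∧ WLe M (u * sr M s) w := by
  by_cases h0 : u⁻¹ * w = 1
  · exact Or.inl (inv_mul_eq_one.1 h0)
  obtain ⟨s, hs⟩ := (cs M).exists_leftDescent_of_ne_one h0
  have hs' := (cs M).isLeftDescent_iff.1 hs
  have e : (u * sr M s)⁻¹ * w = (cs M).simple s * (u⁻¹ * w) := by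
    rw [mul_inv_rev, CoxeterSystem.inv_simple, mul_assoc]
  have h1 := (cs M).length_mul_le (u * sr M s) ((u * sr M s)⁻¹ * w)
  rw [mul_inv_cancel_left, e] at h1
  have h2 := (cs M).length_mul_simple u s
  refine Or.inr ⟨s, ?_, ?_⟩
  · simp only [WLe, ℓ, sr] at *
    omega
  · rw [WLe, e]
    simp only [WLe, ℓ, sr] at *
    omega

/-- If `w` has no right descent among `s ≠ t`, then `w` times an alternating word of length
`k ≤ M s t` is reduced.  (`rho (wπ (alt s t k)) (al r)`, `r` the next letter, is a nonnegative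
combination of `α_s, α_t` by the Chebyshev formula `Geom.alt_al`/`gu_nonneg`; apply `w`.) -/
theorem length_mul_alt {w : M.Group} {s t : S} (hst : s ≠ t) (hs : ℓ M w < ℓ M (w * sr M s))
    (ht : ℓ M w < ℓ M (w * sr M t)) {k : ℕ} (hk : M s t ≠ 0 → k ≤ M s t) :
    ℓ M (w * wπ M (alt s t k)) = ℓ M w + k := by
  rw [rank2_alt_eq]
  split_ifs
  · exact rank2_len_altW M k hst hs ht hk
  · exact rank2_len_altW M k hst.symm ht hs (by rw [M.symmetric t s]; exact hk)

theorem alt_reduced {s t : S} (hst : s ≠ t) {k : ℕ} (hk : M s t ≠ 0 → k ≤ M s t) :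
    (cs M).IsReduced (alt s t k) := by
  have h := length_mul_alt M (w := 1) hst (by simp) (by simp) hk
  simpa [CoxeterSystem.IsReduced] using h

theorem rank2_alt_mul {u : M.Group} {s t : S} (hst : s ≠ t) (hs : ℓ M u < ℓ M (sr M s * u))
    (ht : ℓ M u < ℓ M (sr M t * u)) {k : ℕ} (hk : M s t ≠ 0 → k ≤ M s t) :
    ℓ M (wπ M (alt s t k) * u) = ℓ M u + k := by
  have e : ∀ r : S, ℓ M (u⁻¹ * sr M r) = ℓ M (sr M r * u) := fun r => by
    rw [ℓ, ← (cs M).length_inv, mul_inv_rev, inv_inv, CoxeterSystem.inv_simple]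
  have e0 : ℓ M u⁻¹ = ℓ M u := (cs M).length_inv u
  have h := rank2_len_altW M (w := u⁻¹) k hst.symm (by rw [e, e0]; exact ht)
    (by rw [e, e0]; exact hs) (by rw [M.symmetric t s]; exact hk)
  rw [← rank2_reverse_alt, wπ, CoxeterSystem.wordProd_reverse, ← mul_inv_rev, ℓ,
    (cs M).length_inv, e0] at h
  exact h

theorem rank2_alt_wle {w : M.Group} {s t : S} (hst : s ≠ t)
    (hs : ℓ M (sr M s * w) < ℓ M w) (ht : ℓ M (sr M t * w) < ℓ M w) (k : ℕ)
    (hk : M s t ≠ 0 → k ≤ M s t) : WLe M (wπ M (alt s t k)) w := by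
  induction k with
  | zero => exact one_wle M w
  | succ k ih =>
    have ih' := ih (fun h => by have := hk h; omega)
    rcases k with _ | j
    · have : wπ M (alt s t (0 + 1)) = sr M s := CoxeterSystem.wordProd_singleton _ _
      rw [this]
      exact (sr_wle_iff M s w).2 hs
    have len : ∀ n, (M s t ≠ 0 → n ≤ M s t) → ℓ M (wπ M (alt s t n)) = n := fun n hn => by
      have := alt_reduced M hst hn
      simpa [CoxeterSystem.IsReduced] using this
    have cat : ∀ n, wπ M (alt s t (n + 1)) =
        wπ M (alt s t n) * sr M (if Even n then s else t) := fun n => by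
      rw [rank2_alt_concat, wπ, CoxeterSystem.wordProd_append, CoxeterSystem.wordProd_singleton]
    set u := (wπ M (alt s t (j + 1)))⁻¹ * w with hu
    have hw : w = wπ M (alt s t (j + 1)) * u := by rw [hu, mul_inv_cancel_left]
    have l1 := len (j + 1) (fun h => by have := hk h; omega)
    have l2 := len (j + 1 + 1) hk
    have l0 := len j (fun h => by have := hk h; omega)
    have e2 : (wπ M (alt s t (j + 1 + 1)))⁻¹ * w = sr M (if Even (j + 1) then s else t) * u := by
      rw [cat (j + 1), mul_inv_rev, CoxeterSystem.inv_simple, mul_assoc]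
    unfold WLe at ih' ⊢
    rw [← hu, l1] at ih'
    rw [e2, l2]
    rcases (cs M).length_simple_mul u (if Even (j + 1) then s else t) with h | h
    · exfalso
      have a1 : ℓ M u < ℓ M (sr M (if Even (j + 1) then s else t) * u) := by
        simp only [ℓ, sr] at *
        omega
      have a0 : ℓ M u < ℓ M (sr M (if Even j then s else t) * u) := by
        have := (cs M).length_mul_le (wπ M (alt s t j)) (sr M (if Even j then s else t) * u)
        rw [← mul_assoc, ← cat, ← hw] at this
        simp only [ℓ, sr] at *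
        omega
      have b : ℓ M u < ℓ M (sr M s * u) ∧ ℓ M u < ℓ M (sr M t * u) := by
        by_cases hj : Even j
        · simp only [hj, Nat.even_add_one, not_true_eq_false, if_true, if_false] at a0 a1
          exact ⟨a0, a1⟩
        · simp only [hj, Nat.even_add_one, not_false_eq_true, if_true, if_false] at a0 a1
          exact ⟨a1, a0⟩
      have c := rank2_alt_mul M hst.symm b.2 b.1 (k := j + 1 + 1)
        (by rw [M.symmetric t s]; exact hk)
      have e3 : wπ M (alt t s (j + 1 + 1)) * u = sr M t * w := by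
        rw [alt_succ, wπ, CoxeterSystem.wordProd_cons, mul_assoc, ← hw]
      rw [e3] at c
      omega
    · simp only [ℓ, sr] at *
      omega

/-- If `s ≠ t` are left descents of `w` then `M s t ≠ 0` and the braid word is a prefix of `w`.
(Strip left descents in `{s,t}` as long as possible: `w = v u` with `v` an alternating word and `u`
without left descent in `{s,t}`; by the mirror of `length_mul_alt`, `s, t` are descents of `v`.) -/
theorem alt_wle_of_descents {w : M.Group} {s t : S} (hst : s ≠ t)
    (hs : ℓ M (sr M s * w) < ℓ M w) (ht : ℓ M (sr M t * w) < ℓ M w) :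
    M s t ≠ 0 ∧ WLe M (wπ M (alt s t (M s t))) w := by
  have h0 : M s t ≠ 0 := fun h0 => by
    have h1 := rank2_alt_wle M hst hs ht (ℓ M w + 1) (fun h => absurd h0 h)
    have h2 := alt_reduced M hst (k := ℓ M w + 1) (fun h => absurd h0 h)
    unfold WLe at h1
    simp only [CoxeterSystem.IsReduced, length_alt] at h2
    simp only [ℓ, wπ] at *
    omega
  exact ⟨h0, rank2_alt_wle M hst hs ht _ (fun _ => le_rfl)⟩

/-- Every element of `W_X` has a reduced word with letters in `X`.  (Induction on a word; if
`ℓ (w s) < ℓ w` with `w` given by a reduced word in `X`, exchange: `-w α_s` is an inversion of `w`,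
the inversions are listed by `Inv_mul_sr`, delete that letter.) -/
theorem exists_reduced_of_mem_WX {X : Set S} {w : M.Group} (hw : w ∈ WX M X) :
    ∃ l : List S, (∀ s ∈ l, s ∈ X) ∧ (cs M).IsReduced l ∧ wπ M l = w := by
  have step : ∀ s ∈ X, ∀ x : M.Group,
      (∃ l : List S, (∀ s ∈ l, s ∈ X) ∧ (cs M).IsReduced l ∧ wπ M l = x) →
      ∃ l : List S, (∀ s ∈ l, s ∈ X) ∧ (cs M).IsReduced l ∧ wπ M l = x * sr M s := by
    rintro s hs x ⟨l, h1, h2, rfl⟩
    unfold CoxeterSystem.IsReduced at h2
    rcases (cs M).length_mul_simple (wπ M l) s with h | h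
    · have e : wπ M (l ++ [s]) = wπ M l * sr M s := by
        rw [wπ, CoxeterSystem.wordProd_append, CoxeterSystem.wordProd_singleton]
      refine ⟨l ++ [s], fun r hr => ?_, ?_, e⟩
      · rcases List.mem_append.1 hr with hr | hr
        · exact h1 r hr
        · rw [List.mem_singleton.1 hr]; exact hs
      · unfold CoxeterSystem.IsReduced
        simp only [wπ, sr] at e h
        rw [e, h, h2]
        simp
    · obtain ⟨l', a1, a2, a3⟩ := rank2_exchange M s l (by simp only [ℓ, sr]; omega)
      refine ⟨l', fun r hr => h1 r (a1 r hr), ?_, a3⟩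
      unfold CoxeterSystem.IsReduced
      simp only [wπ, sr] at a3 h
      rw [a3]
      omega
  induction hw using Subgroup.closure_induction_right with
  | one => exact ⟨[], by simp, by simp [CoxeterSystem.IsReduced], rfl⟩
  | mul_right x _ y hy ih =>
    obtain ⟨s, hs, rfl⟩ := hy
    exact step s hs x ih
  | mul_inv_cancel x _ y hy ih =>
    obtain ⟨s, hs, rfl⟩ := hy
    rw [CoxeterSystem.inv_simple]
    exact step s hs x ih

theorem rank2_length_one {X : Set S} {y : M.Group} (hy : y ∈ WX M X) (h : ℓ M y = 1) :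
    ∃ s ∈ X, y = sr M s := by
  obtain ⟨l, h1, h2, rfl⟩ := exists_reduced_of_mem_WX M hy
  unfold CoxeterSystem.IsReduced at h2
  obtain ⟨s, rfl⟩ := List.length_eq_one_iff.1 (h2.symm.trans h)
  exact ⟨s, h1 s (by simp), CoxeterSystem.wordProd_singleton _ _⟩

theorem rank2_sr_inj {s t : S} (h : sr M s = sr M t) : s = t := by
  by_contra hst
  have h1 := alt_reduced M hst (k := 2) (fun h0 => by
    have := M.off_diagonal s t hst
    omega)
  have e : (cs M).wordProd (alt s t 2) = 1 := by
    change (cs M).wordProd [s, t] = 1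
    rw [CoxeterSystem.wordProd_cons, CoxeterSystem.wordProd_singleton]
    change sr M s * sr M t = 1
    rw [h]
    exact (cs M).simple_mul_simple_self t
  rw [CoxeterSystem.IsReduced, e] at h1
  simp at h1

theorem rank2_mem_of_sr_mem {X : Set S} {s : S} (h : sr M s ∈ WX M X) : s ∈ X := by
  obtain ⟨t, ht, e⟩ := rank2_length_one M h ((cs M).length_simple s)
  rwa [rank2_sr_inj M e]

/-- all letters of any reduced word of an element of `W_X` lie in `X` -/
theorem mem_of_reduced_of_mem_WX {X : Set S} {l : List S} (hl : (cs M).IsReduced l)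
    (hw : wπ M l ∈ WX M X) : ∀ s ∈ l, s ∈ X := by
  induction l using List.reverseRecOn with
  | nil => simp
  | append_singleton l s ih =>
    have e : wπ M (l ++ [s]) = wπ M l * sr M s := by
      rw [wπ, CoxeterSystem.wordProd_append, CoxeterSystem.wordProd_singleton]
    have hl0 : (cs M).IsReduced l := by simpa using hl.take l.length
    obtain ⟨l', h1, h2, h3⟩ := exists_reduced_of_mem_WX M hw
    have e' : wπ M l' * sr M s = wπ M l := by
      rw [h3, e, CoxeterSystem.simple_mul_simple_cancel_right]
    obtain ⟨l'', a1, -, a3⟩ := rank2_exchange M s l' (by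
      rw [e', h3]
      unfold CoxeterSystem.IsReduced at hl hl0
      simp only [ℓ, wπ]
      rw [hl, hl0]
      simp)
    have m1 : wπ M l ∈ WX M X := by
      rw [← e', ← a3]
      exact rank2_wπ_mem M l'' fun r hr => h1 r (a1 r hr)
    have m2 : sr M s ∈ WX M X := by
      have := (WX M X).mul_mem ((WX M X).inv_mem m1) hw
      rwa [e, inv_mul_cancel_left] at this
    intro r hr
    rcases List.mem_append.1 hr with hr | hr
    · exact ih hl0 m1 r hr
    · rw [List.mem_singleton.1 hr]; exact rank2_mem_of_sr_mem M m2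

/-- if every `s ∈ X` is a left descent of `x` then every element of `W_X` is a prefix of `x` -/
theorem rank2_wle_of_descents {X : Set S} {x : M.Group}
    (hx : ∀ s ∈ X, ℓ M (sr M s * x) < ℓ M x) {u : M.Group} (hu : u ∈ WX M X) : WLe M u x := by
  obtain ⟨l, h1, h2, rfl⟩ := exists_reduced_of_mem_WX M hu
  clear hu
  induction l using List.reverseRecOn with
  | nil => exact one_wle M x
  | append_singleton l s ih =>
    have e : wπ M (l ++ [s]) = wπ M l * sr M s := by
      rw [wπ, CoxeterSystem.wordProd_append, CoxeterSystem.wordProd_singleton]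
    have hl0 : (cs M).IsReduced l := by simpa using h2.take l.length
    have hX : ∀ r ∈ l, r ∈ X := fun r hr => h1 r (List.mem_append_left _ hr)
    have hs : s ∈ X := h1 s (by simp)
    have ih' := ih hX hl0
    have hlen : ℓ M (wπ M l * sr M s) = ℓ M (wπ M l) + 1 := by
      rw [← e]
      unfold CoxeterSystem.IsReduced at h2 hl0
      simp only [ℓ, wπ]
      rw [h2, hl0]
      simp
    have p1 : 0 ≤ rho M (wπ M l) (al s) := rho_al_nonneg M (by omega)
    have p2 : rho M (x⁻¹ * wπ M l) (al s) ≤ 0 := by
      rw [rho_mul, rho_eq_sum]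
      refine Finset.sum_nonpos fun t _ => ?_
      by_cases ht : t ∈ X
      · refine smul_nonpos_of_nonneg_of_nonpos (p1 t) (rho_al_nonpos M ?_)
        have := hx t ht
        rwa [ℓ, ℓ, ← (cs M).length_inv, ← (cs M).length_inv x, mul_inv_rev,
          CoxeterSystem.inv_simple] at this
      · have hts : t ≠ s := fun h => ht (h ▸ hs)
        rw [rho_apply_of_mem_WX M (rank2_wπ_mem M l hX) _ ht]
        simp [al, hts]
    have p3 : ¬ ℓ M (x⁻¹ * wπ M l) < ℓ M (x⁻¹ * wπ M l * sr M s) := fun h =>
      rho_al_ne_zero M _ s (le_antisymm p2 (rho_al_nonneg M h))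
    have p4 := (cs M).length_mul_simple (x⁻¹ * wπ M l) s
    have q1 : ℓ M ((wπ M l)⁻¹ * x) = ℓ M (x⁻¹ * wπ M l) := by
      rw [ℓ, ← (cs M).length_inv, mul_inv_rev, inv_inv]
    have q2 : ℓ M ((wπ M l * sr M s)⁻¹ * x) = ℓ M (x⁻¹ * wπ M l * sr M s) := by
      rw [ℓ, ← (cs M).length_inv, mul_inv_rev, inv_inv, mul_assoc]
    unfold WLe at ih' ⊢
    rw [e, q2, hlen]
    rw [q1] at ih'
    simp only [ℓ, sr] at *
    omega

/-- the longest element of a finite parabolic subgroup -/
theorem exists_longest [Finite M.Group] (X : Set S) :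
    ∃ w0 ∈ WX M X, w0 * w0 = 1 ∧ (∀ u ∈ WX M X, WLe M u w0) ∧
      (∀ s ∈ X, ℓ M (w0 * sr M s) < ℓ M w0) ∧
      ∀ s ∈ X, ∃ s' ∈ X, sr M s * w0 = w0 * sr M s' := by
  obtain ⟨w0, h0, hmax⟩ := Set.exists_max_image (WX M X : Set M.Group) (ℓ M) (Set.toFinite _)
    ⟨1, (WX M X).one_mem⟩
  have h0' : w0 ∈ WX M X := h0
  have hL : ∀ s ∈ X, ℓ M (sr M s * w0) + 1 = ℓ M w0 := fun s hs => by
    have a := hmax _ ((WX M X).mul_mem (rank2_sr_mem M hs) h0')
    have b := (cs M).length_simple_mul w0 s
    simp only [ℓ, sr] at *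
    omega
  have hR : ∀ s ∈ X, ℓ M (w0 * sr M s) < ℓ M w0 := fun s hs => by
    have a := hmax _ ((WX M X).mul_mem h0' (rank2_sr_mem M hs))
    have b := (cs M).length_mul_simple w0 s
    simp only [ℓ, sr] at *
    omega
  have hW : ∀ u ∈ WX M X, WLe M u w0 := fun u hu =>
    rank2_wle_of_descents M (fun s hs => by have := hL s hs; omega) hu
  refine ⟨w0, h0', ?_, hW, hR, fun s hs => ?_⟩
  · have a := hW _ ((WX M X).inv_mem h0')
    unfold WLe at a
    rw [inv_inv, ℓ, (cs M).length_inv] at a
    apply (cs M).length_eq_zero_iff.1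
    simp only [ℓ] at a
    omega
  · have m := (WX M X).mul_mem (rank2_sr_mem M hs) h0'
    have a := hW _ m
    unfold WLe at a
    have b := hL s hs
    obtain ⟨s', hs', e⟩ := rank2_length_one M
      ((WX M X).mul_mem ((WX M X).inv_mem m) h0') (by omega)
    refine ⟨s', hs', ?_⟩
    rw [← e, mul_inv_rev, CoxeterSystem.inv_simple, mul_assoc, mul_inv_cancel_left]

end Crest.R175
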