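import Crest.Agent.R175.Defs

/-! Row 175: the geometric representation on `S → ℝ`, roots and inversion sets.
Everything is transported from `Crest.Agent.R061.Geom` (`rho`, `sg_apply`, `fm_rho`, `key`, `key'`,
`faithful`); note `fm (al i) (al j) = -cos (π / M i j) = Bm i j / 2` and that `rho` preserves the
vectors with second component `0`. -/

set_option autoImplicit false
set_option linter.unusedSectionVars false

namespace Crest.R175

variable {S : Type} [Fintype S] [DecidableEq S] (M : CoxeterMatrix S)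

theorem Bm_self (s : S) : Bm M s s = 2 := by
  simp [Bm]

theorem Bm_symm (s t : S) : Bm M s t = Bm M t s := by
  rw [Bm, Bm, M.symmetric]

theorem Bm_eq_neg_cc (s t : S) : Bm M s t = -cc M s t := by
  rw [Bm, cc, neg_mul]

theorem cc_symm (s t : S) : cc M s t = cc M t s := by
  rw [cc, cc, M.symmetric]

theorem root_angle {s t : S} (h : s ≠ t) :
    0 ≤ Real.pi / M s t ∧ Real.pi / M s t ≤ Real.pi / 2 := by
  refine ⟨by positivity, ?_⟩
  rcases Nat.eq_zero_or_pos (M s t) with h0 | h0
  · rw [h0, Nat.cast_zero, div_zero]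
    positivity
  · have h1 := M.off_diagonal s t h
    have h2 : (2 : ℝ) ≤ M s t := by exact_mod_cast (by omega : 2 ≤ M s t)
    exact div_le_div_of_nonneg_left Real.pi_pos.le two_pos h2

theorem cc_nonneg {s t : S} (h : s ≠ t) : 0 ≤ cc M s t := by
  obtain ⟨h1, h2⟩ := root_angle M h
  exact mul_nonneg two_pos.le (Real.cos_nonneg_of_neg_pi_div_two_le_of_le
    (by linarith [Real.pi_pos]) h2)

theorem cc_eq_zero_iff {s t : S} (h : s ≠ t) : cc M s t = 0 ↔ M s t = 2 := by
  obtain ⟨h1, h2⟩ := root_angle M h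
  refine ⟨fun h0 => ?_, fun h0 => by simp [cc, h0]⟩
  have h3 : Real.pi / M s t = Real.pi / 2 := by
    refine h2.antisymm (not_lt.1 fun h4 => ?_)
    have := Real.cos_pos_of_mem_Ioo ⟨(by linarith [Real.pi_pos] : -(Real.pi / 2) < _), h4⟩
    rw [cc] at h0
    linarith
  rw [div_eq_mul_inv, div_eq_mul_inv, mul_right_inj' Real.pi_ne_zero, inv_inj] at h3
  exact_mod_cast h3

theorem Bf_symm (u v : S → ℝ) : Bf M u v = Bf M v u := by
  rw [Bf, Bf, Finset.sum_comm]
  exact Finset.sum_congr rfl fun s _ => Finset.sum_congr rfl fun t _ => by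
    rw [Bm_symm M t s]; ring

theorem Bf_al_left (s : S) (v : S → ℝ) : Bf M (al s) v = ∑ t, Bm M s t * v t := by
  rw [Bf, Finset.sum_eq_single s]
  · simp [al]
  · intro t _ ht
    simp [al, ht]
  · simp

/-- `(B v)_s = 2 v_s - ∑_{t ≠ s} c_{st} v_t` -/
theorem Bf_al_left' (s : S) (v : S → ℝ) :
    Bf M (al s) v = 2 * v s - ∑ t ∈ Finset.univ.erase s, cc M s t * v t := by
  rw [Bf_al_left, ← Finset.add_sum_erase _ _ (Finset.mem_univ s), Bm_self, sub_eq_add_neg,
    ← Finset.sum_neg_distrib]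
  simp only [Bm_eq_neg_cc, neg_mul]

theorem Bf_eq_sum (u v : S → ℝ) : Bf M u v = ∑ s, u s * Bf M (al s) v := by
  simp only [Bf_al_left, Finset.mul_sum, ← mul_assoc]
  rfl

theorem PosDefOn.mono {M : CoxeterMatrix S} {T T' : Set S} (h : PosDefOn M T') (hT : T ⊆ T') :
    PosDefOn M T := by
  exact fun v hv h0 => h v (fun s hs => hv s fun h' => hs (hT h')) h0

theorem posDef_sub {T : Set S} [Fintype T] (h : PosDefOn M T) : PosDef (sub M (incl T)) := by
  classical
  intro v _ h0
  have key : ∀ f : S → ℝ, (∀ s, s ∉ T → f s = 0) → ∑ s, f s = ∑ t : T, f t := fun f hf => by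
    rw [← Finset.sum_subtype T.toFinset (fun _ => Set.mem_toFinset) f]
    exact (Finset.sum_subset (Finset.subset_univ _) fun s _ hs => hf s (by simpa using hs)).symm
  let u : S → ℝ := fun s => if hs : s ∈ T then v ⟨s, hs⟩ else 0
  have hu : ∀ t : T, u t = v t := fun t => dif_pos t.2
  have hu0 : ∀ s, s ∉ T → u s = 0 := fun s hs => dif_neg hs
  have h1 := h u hu0 fun e => h0 (funext fun t => by rw [← hu, e]; rfl)
  rw [Bf, key _ fun s hs => by simp [hu0 s hs]] at h1
  refine h1.trans_eq (Finset.sum_congr rfl fun s _ => ?_)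
  rw [key _ fun t ht => by simp [hu0 t ht]]
  simp only [hu]
  rfl

/-- the embedding into the space of row 61 -/
noncomputable def root_emb (v : S → ℝ) : Crest.Agent.R061.VV S :=
  (Finsupp.equivFunOnFinite.symm v, 0)

theorem root_emb_add (u v : S → ℝ) : root_emb (u + v) = root_emb u + root_emb v :=
  Prod.ext (Finsupp.ext fun _ => rfl) (add_zero _).symm

theorem root_emb_smul (c : ℝ) (v : S → ℝ) : root_emb (c • v) = c • root_emb v :=
  Prod.ext (Finsupp.ext fun _ => rfl) (smul_zero _).symm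

theorem root_emb_al (s : S) : root_emb (al s) = Crest.Agent.R061.Geom.al s :=
  Prod.ext (Finsupp.equivFunOnFinite_symm_single s 1) rfl

theorem root_rho_def (w : M.Group) (v : S → ℝ) (s : S) :
    rho M w v s = (Crest.Agent.R061.Geom.rho (cs M) w (root_emb v)).1 s := rfl

theorem root_snd (w : M.Group) (v : S → ℝ) :
    (Crest.Agent.R061.Geom.rho (cs M) w (root_emb v)).2 = 0 := by
  refine (cs M).simple_induction_left w
    (p := fun w => (Crest.Agent.R061.Geom.rho (cs M) w (root_emb v)).2 = 0) ?_ fun w s h => ?_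
  · rw [Crest.Agent.R061.Geom.rho_one]
    rfl
  · rw [Crest.Agent.R061.Geom.rho_mul, Crest.Agent.R061.Geom.rho_simple,
      Crest.Agent.R061.Geom.sg_apply, Prod.snd_sub, h]
    simp [Crest.Agent.R061.Geom.al]

theorem root_key (w : M.Group) (v : S → ℝ) :
    root_emb (rho M w v) = Crest.Agent.R061.Geom.rho (cs M) w (root_emb v) :=
  Prod.ext (Finsupp.ext fun _ => rfl) (root_snd M w v).symm

theorem root_fm (u v : S → ℝ) :
    2 * Crest.Agent.R061.Geom.fm M (root_emb u) (root_emb v) = Bf M u v := by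
  simp only [Crest.Agent.R061.Geom.fm_apply, root_emb, map_zero, add_zero, LinearMap.zero_apply,
    Crest.Agent.R061.Geom.bil, Bf, Bm]
  rw [Finsupp.linearCombination_apply, Finsupp.sum_fintype _ _ (by simp), LinearMap.sum_apply,
    Finset.mul_sum]
  refine Finset.sum_congr rfl fun s _ => ?_
  rw [LinearMap.smul_apply, Finsupp.linearCombination_apply, Finsupp.sum_fintype _ _ (by simp),
    smul_eq_mul, Finset.mul_sum, Finset.mul_sum]
  refine Finset.sum_congr rfl fun t _ => ?_
  simp only [Finsupp.equivFunOnFinite_symm_apply_apply, smul_eq_mul]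
  ring

theorem rho_one (v : S → ℝ) : rho M 1 v = v := by
  funext s
  rw [root_rho_def, Crest.Agent.R061.Geom.rho_one]
  rfl

theorem rho_mul (x y : M.Group) (v : S → ℝ) : rho M (x * y) v = rho M x (rho M y v) := by
  funext s
  rw [root_rho_def, root_rho_def, root_key, Crest.Agent.R061.Geom.rho_mul]

theorem rho_sr (s : S) (v : S → ℝ) : rho M (sr M s) v = v - Bf M (al s) v • al s := by
  funext t
  rw [root_rho_def, Crest.Agent.R061.Geom.rho_simple, Crest.Agent.R061.Geom.sg_apply,
    ← root_emb_al, root_fm]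
  rfl

theorem rho_add (w : M.Group) (u v : S → ℝ) : rho M w (u + v) = rho M w u + rho M w v := by
  funext t
  rw [root_rho_def, root_emb_add, map_add]
  rfl

theorem rho_smul (w : M.Group) (c : ℝ) (v : S → ℝ) : rho M w (c • v) = c • rho M w v := by
  funext t
  rw [root_rho_def, root_emb_smul, map_smul]
  rfl

theorem rho_neg (w : M.Group) (v : S → ℝ) : rho M w (-v) = -rho M w v := by
  rw [← neg_one_smul ℝ v, rho_smul, neg_one_smul]

theorem rho_eq_sum (w : M.Group) (v : S → ℝ) : rho M w v = ∑ s, v s • rho M w (al s) := by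
  let L : (S → ℝ) →ₗ[ℝ] (S → ℝ) := ⟨⟨rho M w, rho_add M w⟩, rho_smul M w⟩
  have h := L.pi_apply_eq_sum_univ v
  refine h.trans (Finset.sum_congr rfl fun s _ => congrArg (fun u => v s • rho M w u) ?_)
  funext t
  simp [al, Pi.single_apply, eq_comm]

theorem Bf_rho (w : M.Group) (u v : S → ℝ) : Bf M (rho M w u) (rho M w v) = Bf M u v := by
  rw [← root_fm, ← root_fm, root_key, root_key, Crest.Agent.R061.Geom.fm_rho]

theorem rho_al_ne_zero (w : M.Group) (s : S) : rho M w (al s) ≠ 0 := by
  intro h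
  have h1 := Bf_rho M w (al s) (al s)
  rw [h, Bf_al_left', Finset.sum_eq_zero fun t ht => by
    simp [al, Finset.ne_of_mem_erase ht]] at h1
  simp [Bf, al] at h1

theorem rho_al_nonneg {w : M.Group} {s : S} (h : ℓ M w < ℓ M (w * sr M s)) :
    0 ≤ rho M w (al s) := by
  intro t
  rw [root_rho_def, root_emb_al]
  exact (Crest.Agent.R061.Geom.key (cs M) w s h).2 t

theorem rho_al_nonpos {w : M.Group} {s : S} (h : ℓ M (w * sr M s) < ℓ M w) :
    rho M w (al s) ≤ 0 := by
  intro t
  rw [root_rho_def, root_emb_al]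
  simpa using (Crest.Agent.R061.Geom.key' (cs M) h).2 t

theorem lt_iff_rho_nonneg (w : M.Group) (s : S) :
    ℓ M w < ℓ M (w * sr M s) ↔ 0 ≤ rho M w (al s) := by
  refine ⟨rho_al_nonneg M, fun h => ((cs M).length_mul_simple_ne w s).lt_or_gt.resolve_left
    fun h' => rho_al_ne_zero M w s (le_antisymm (rho_al_nonpos M h') h)⟩

/-- elements of `W_X` change a vector only in the coordinates of `X` -/
theorem rho_apply_of_mem_WX {X : Set S} {w : M.Group} (hw : w ∈ WX M X) (v : S → ℝ) {s : S}
    (hs : s ∉ X) : rho M w v s = v s := by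
  induction hw using Subgroup.closure_induction_left generalizing v with
  | one => rw [rho_one]
  | mul_left x hx y _ ih =>
    obtain ⟨t, ht, rfl⟩ := hx
    have : s ≠ t := fun e => hs (e ▸ ht)
    rw [rho_mul, rho_sr, Pi.sub_apply, ih]
    simp [al, this]
  | inv_mul_cancel x hx y _ ih =>
    obtain ⟨t, ht, rfl⟩ := hx
    have : s ≠ t := fun e => hs (e ▸ ht)
    rw [(cs M).inv_simple, rho_mul, rho_sr, Pi.sub_apply, ih]
    simp [al, this]

theorem rhoD_one (lam : S → ℝ) : rhoD M 1 lam = lam := by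
  funext s
  rw [rhoD, inv_one, rho_one, al, dotProduct_single, mul_one]

theorem rhoD_dot (w : M.Group) (lam v : S → ℝ) : rhoD M w lam ⬝ᵥ v = lam ⬝ᵥ rho M w⁻¹ v := by
  rw [rho_eq_sum, dotProduct_sum, dotProduct]
  exact Finset.sum_congr rfl fun s _ => by rw [dotProduct_smul, smul_eq_mul, mul_comm, rhoD]

theorem rhoD_mul (x y : M.Group) (lam : S → ℝ) :
    rhoD M (x * y) lam = rhoD M x (rhoD M y lam) := by
  funext s
  rw [rhoD, rhoD, rhoD_dot, mul_inv_rev, rho_mul]

theorem rhoD_sr (s : S) (lam : S → ℝ) (t : S) :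
    rhoD M (sr M s) lam t = lam t - lam s * Bm M s t := by
  rw [rhoD, (cs M).inv_simple, rho_sr, dotProduct_sub, dotProduct_smul, Bf_symm, Bf_al_left,
    Finset.sum_eq_single s]
  · simp [al, Bm_symm M t s, mul_comm]
  · intro r _ hr
    simp [al, hr]
  · simp

theorem rhoD_add (w : M.Group) (a b : S → ℝ) : rhoD M w (a + b) = rhoD M w a + rhoD M w b := by
  funext s
  exact add_dotProduct _ _ _

theorem rhoD_smul (w : M.Group) (c : ℝ) (a : S → ℝ) : rhoD M w (c • a) = c • rhoD M w a := by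
  funext s
  exact smul_dotProduct _ _ _

/-- an element of `W_X` fixes a covector vanishing on `X` -/
theorem rhoD_of_mem_WX {X : Set S} {w : M.Group} (hw : w ∈ WX M X) {lam : S → ℝ}
    (h : ∀ s ∈ X, lam s = 0) : rhoD M w lam = lam := by
  funext s
  have h1 : lam ⬝ᵥ rho M w⁻¹ (al s) = lam ⬝ᵥ al s := Finset.sum_congr rfl fun t _ => by
    by_cases ht : t ∈ X
    · rw [h t ht, zero_mul, zero_mul]
    · rw [rho_apply_of_mem_WX M (inv_mem hw) _ ht]
  rw [rhoD, h1, al, dotProduct_single, mul_one]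

/-- If `w ≠ 1` it has a left descent `s`; then `rho w⁻¹ (al s) ≤ 0` is nonzero, so a covector with
positive coordinates is negative on it. -/
theorem eq_one_of_rhoD_pos {w : M.Group} {lam : S → ℝ} (h : ∀ s, 0 < lam s)
    (h' : ∀ s, 0 ≤ rhoD M w lam s) : w = 1 := by
  by_contra hw
  obtain ⟨s, hs⟩ := (cs M).exists_rightDescent_of_ne_one (inv_ne_one.2 hw)
  have h1 := rho_al_nonpos M hs
  have h2 : ∀ t, lam t * rho M w⁻¹ (al s) t ≤ 0 := fun t =>
    mul_nonpos_of_nonneg_of_nonpos (h t).le (h1 t)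
  have h3 := (Finset.sum_eq_zero_iff_of_nonpos fun t _ => h2 t).1
    (le_antisymm (Finset.sum_nonpos fun t _ => h2 t) (h' s))
  exact rho_al_ne_zero M w⁻¹ s (funext fun t =>
    (mul_eq_zero.1 (h3 t (Finset.mem_univ t))).resolve_left (h t).ne')

end Crest.R175
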