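import Crest.Agent.R175.Lat

/-! Row 175: if a reduced positive element `ρ` divides `y ρ`, every letter of `y` slides through `ρ`. -/

set_option autoImplicit false
set_option linter.unusedSectionVars false

namespace Crest.R175

open Crest.GroupTheory

variable {S : Type} [Fintype S] [DecidableEq S] (M : CoxeterMatrix S)

/-- number of inversions not supported in `Y` -/
noncomputable def nOut (Y : Set S) (w : M.Group) : ℕ := {β ∈ Inv M w | ¬ Supp Y β}.ncard

theorem nOut_mono (Y : Set S) {u w : M.Group} (h : WLe M u w) : nOut M Y u ≤ nOut M Y w :=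
  Set.ncard_le_ncard (fun _ hβ => ⟨(wle_iff_Inv_subset M u w).1 h hβ.1, hβ.2⟩)
    ((Inv_finite M w).subset fun _ hβ => hβ.1)

theorem sp_rho_sr_sr (s : S) (v : S → ℝ) : rho M (sr M s) (rho M (sr M s) v) = v := by
  rw [← rho_mul, (cs M).simple_mul_simple_self, rho_one]

theorem sp_supp_sr {Y : Set S} {s : S} (hs : s ∈ Y) (v : S → ℝ) :
    Supp Y (rho M (sr M s) v) ↔ Supp Y v := by
  have h : ∀ t, t ∉ Y → rho M (sr M s) v t = v t := fun t ht =>
    rho_apply_of_mem_WX M (Subgroup.subset_closure ⟨s, hs, rfl⟩) v ht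
  exact forall_congr' fun t => forall_congr' fun ht => by rw [h t ht]

theorem sp_supp_al {Y : Set S} {s : S} (hs : s ∈ Y) : Supp Y (al s) := fun t ht => by
  have : t ≠ s := fun h => ht (h ▸ hs)
  simp [al, this]

theorem sp_sr_sr (s : S) (w : M.Group) : sr M s * (sr M s * w) = w := by
  rw [← mul_assoc, (cs M).simple_mul_simple_self, one_mul]

theorem sp_lt_or (s : S) (w : M.Group) :
    ℓ M w < ℓ M (sr M s * w) ∨ ℓ M (sr M s * w) < ℓ M w :=
  ((cs M).length_simple_mul_ne w s).symm.lt_or_gt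

theorem sp_nOut_up {Y : Set S} {s : S} (hs : s ∈ Y) {w : M.Group}
    (h : ℓ M w < ℓ M (sr M s * w)) : nOut M Y (sr M s * w) = nOut M Y w := by
  have h1 : {β ∈ Inv M (sr M s * w) | ¬ Supp Y β} =
      rho M (sr M s) '' {β ∈ Inv M w | ¬ Supp Y β} := by
    rw [Inv_sr_mul M h]
    ext β
    constructor
    · rintro ⟨rfl | ⟨γ, hγ, rfl⟩, h2⟩
      · exact absurd (sp_supp_al hs) h2
      · exact ⟨γ, ⟨hγ, fun h3 => h2 ((sp_supp_sr M hs γ).2 h3)⟩, rfl⟩
    · rintro ⟨γ, ⟨hγ, h2⟩, rfl⟩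
      exact ⟨Or.inr ⟨γ, hγ, rfl⟩, fun h3 => h2 ((sp_supp_sr M hs γ).1 h3)⟩
  rw [nOut, h1, Set.ncard_image_of_injective _
    (Function.LeftInverse.injective (sp_rho_sr_sr M s)), nOut]

/-- `s ∈ Y` permutes the positive roots not supported in `Y` -/
theorem nOut_sr_mul {Y : Set S} {s : S} (hs : s ∈ Y) (w : M.Group) :
    nOut M Y (sr M s * w) = nOut M Y w := by
  rcases sp_lt_or M s w with h | h
  · exact sp_nOut_up M hs h
  · have h1 := sp_nOut_up M hs (w := sr M s * w) (by rwa [sp_sr_sr])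
    rw [sp_sr_sr] at h1
    exact h1.symm

/-- biclosedness: if `v ≥ s, w` has no more outer inversions than the `Y`-reduced `w`, then
`s w = w s'`.  (The outer inversions of `v` are exactly `Inv w`.  For `β ∈ Inv w`, `s β = β + k α_s`:
if `k ≥ 0` then `s β ∈ Inv v` is outer; if `k < 0` then `β = s β + |k| α_s` and `α_s ∉ Inv w` force
`s β ∈ Inv w`.  So `s Inv w = Inv w ⊆ Inv (s w)`, i.e. `w ≤ s w`.) -/
theorem slide_of_nOut {Y : Set S} {s : S} (hs : s ∈ Y) {v w : M.Group} (hw : LRed M Y w)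
    (hsv : WLe M (sr M s) v) (hwv : WLe M w v) (h : nOut M Y v ≤ nOut M Y w) :
    ∃ s', sr M s * w = w * sr M s' := by
  have hsub := (wle_iff_Inv_subset M w v).1 hwv
  have hW : {β ∈ Inv M w | ¬ Supp Y β} = Inv M w :=
    Set.Subset.antisymm (fun _ hβ => hβ.1) fun _ hβ => ⟨hβ, hw.not_supp hβ⟩
  have hO : Inv M w = {β ∈ Inv M v | ¬ Supp Y β} := by
    refine Set.eq_of_subset_of_ncard_le (fun β hβ => ⟨hsub hβ, hw.not_supp hβ⟩) ?_
      ((Inv_finite M v).subset fun _ hβ => hβ.1)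
    rw [nOut, nOut, hW] at h
    exact h
  have hav : al s ∈ Inv M v := (al_mem_Inv_iff M v s).2 ((sr_wle_iff M s v).1 hsv)
  have haw : al s ∉ Inv M w := fun h1 => hw.not_supp h1 (sp_supp_al hs)
  have haw' : 0 ≤ rho M w⁻¹ (al s) :=
    ((hav.1.rho w⁻¹).nonneg_or).resolve_right fun h1 => haw ⟨hav.1, hav.2.1, h1⟩
  have key : ∀ β ∈ Inv M w, rho M (sr M s) β ∈ Inv M w := by
    intro β hβ
    have h1 : β ≠ al s := fun h2 => haw (h2 ▸ hβ)
    have h2 := hβ.1.sr_nonneg hβ.2.1 h1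
    have h3 := hβ.1.rho (sr M s)
    have h4 : ∀ x : M.Group, rho M x (rho M (sr M s) β) =
        rho M x β + (-Bf M (al s) β) • rho M x (al s) := fun x => by
      rw [rho_sr, sub_eq_add_neg, ← neg_smul, rho_add, rho_smul]
    rcases le_total 0 (-Bf M (al s) β) with hk | hk
    · rw [hO]
      refine ⟨⟨h3, h2, ?_⟩, fun h5 => hw.not_supp hβ ((sp_supp_sr M hs β).1 h5)⟩
      rw [h4]
      exact add_nonpos (hsub hβ).2.2 (smul_nonpos_of_nonneg_of_nonpos hk hav.2.2)
    · refine ⟨h3, h2, ?_⟩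
      rw [h4]
      exact add_nonpos hβ.2.2 (smul_nonpos_of_nonpos_of_nonneg hk haw')
  have hlt := hw s hs
  have hle : WLe M w (sr M s * w) := by
    rw [wle_iff_Inv_subset, Inv_sr_mul M hlt]
    exact fun β hβ => Or.inr ⟨_, key β hβ, sp_rho_sr_sr M s β⟩
  have h1 : ℓ M (w⁻¹ * (sr M s * w)) = 1 := by
    have h2 : ℓ M w + ℓ M (w⁻¹ * (sr M s * w)) = ℓ M (sr M s * w) := hle
    rcases (cs M).length_simple_mul w s with h3 | h3
    · have h4 : ℓ M (sr M s * w) = ℓ M w + 1 := h3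
      omega
    · have h4 : ℓ M (sr M s * w) + 1 = ℓ M w := h3
      omega
  obtain ⟨s', hs'⟩ := (cs M).length_eq_one_iff.1 h1
  exact ⟨s', inv_mul_eq_iff_eq_mul.1 hs'⟩

theorem sp_q_sr (s : S) : q M (sr M s) = σ M s := qq_sr M _ (braidRel_σ M) s

theorem sp_pos_iff (x : ArtinGroup M) : Pre M 1 x ↔ x ∈ Pos M := by
  rw [Pre, inv_one, one_mul]

theorem sp_wp_pos (l : List S) : wp (σ M) l ∈ Pos M :=
  (mem_posOn_iff M _ _).2 ⟨l, fun _ _ => Set.mem_univ _, rfl⟩

variable [Finite M.Group]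

/-- the join of two simple elements is simple -/
theorem sp_join (u u' : M.Group) : ∃ v, ∀ z, Pre M (q M v) z ↔ Pre M (q M u) z ∧ Pre M (q M u') z := by
  obtain ⟨m, hm⟩ := exists_lcm M (q M u) (q M u')
  obtain ⟨w0, hw0, -⟩ := exists_garside M
  have h1 : m ∈ Pos M := (sp_pos_iff M m).1
    (((sp_pos_iff M _).2 (q_mem_pos M u)).trans ((hm m).1 (Pre.refl M m)).1)
  obtain ⟨v, rfl⟩ := simple_of_pre M h1
    ((hm _).2 ⟨pre_q_of_wle M (hw0 u), pre_q_of_wle M (hw0 u')⟩)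
  exact ⟨v, hm⟩

/-- Induction on `l`: for `l = s :: l'` let `q v = lcm (σ s) (q u)` (simple, below `Δ`); then
`q (s v) ≼ l' q w` and `nOut u ≤ nOut v = nOut (s v)`. -/
theorem nOut_le_of_pre {Y : Set S} (w : M.Group) : ∀ (l : List S), (∀ s ∈ l, s ∈ Y) →
    ∀ u, Pre M (q M u) (wp (σ M) l * q M w) → nOut M Y u ≤ nOut M Y w := by
  intro l
  induction l with
  | nil =>
    intro _ u hu
    rw [wp_nil, one_mul] at hu
    exact nOut_mono M Y ((pre_q_iff M u w).1 hu)
  | cons s l ih =>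
    intro hl u hu
    have hs := hl s List.mem_cons_self
    obtain ⟨v, hv⟩ := sp_join M (sr M s) u
    obtain ⟨h1, h2⟩ := (hv _).1 (Pre.refl M _)
    have h3 := (sr_wle_iff M s v).1 ((pre_q_iff M _ _).1 h1)
    have h4 : q M v = σ M s * q M (sr M s * v) := by
      rw [← q_sr_mul M (by rwa [sp_sr_sr]), sp_sr_sr]
    rw [wp_cons, mul_assoc] at hu
    have h5 := (hv _).2 ⟨by
      rw [sp_q_sr]
      exact pre_mul_right M _ (mul_mem (sp_wp_pos M l) (q_mem_pos M w)), hu⟩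
    rw [h4, pre_mul_iff] at h5
    have h6 := ih (fun t ht => hl t (List.mem_cons_of_mem _ ht)) _ h5
    rw [nOut_sr_mul M hs] at h6
    exact (nOut_mono M Y ((pre_q_iff M _ _).1 h2)).trans h6

/-- the simple case: induction on `l`; for `l = s :: l'` and `q v = lcm (σ s) (q w)` the two previous
lemmas give `s w = w s'`, so `v = s w` and `q w ≼ l' q w`. -/
theorem slide_simple {Y : Set S} {w : M.Group} (hw : LRed M Y w) : ∀ (l : List S),
    (∀ s ∈ l, s ∈ Y) → Pre M (q M w) (wp (σ M) l * q M w) →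
      ∀ s ∈ l, ∃ s', σ M s * q M w = q M w * σ M s' := by
  intro l
  induction l with
  | nil => intro _ _ s hs; simp at hs
  | cons s l ih =>
    intro hl hu
    have hs := hl s List.mem_cons_self
    obtain ⟨v, hv⟩ := sp_join M (sr M s) w
    obtain ⟨h1, h2⟩ := (hv _).1 (Pre.refl M _)
    have h5 : Pre M (q M v) (wp (σ M) (s :: l) * q M w) := (hv _).2 ⟨by
      rw [sp_q_sr, wp_cons, mul_assoc]
      exact pre_mul_right M _ (mul_mem (sp_wp_pos M l) (q_mem_pos M w)), hu⟩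
    obtain ⟨s', hs'⟩ := slide_of_nOut M hs hw ((pre_q_iff M _ _).1 h1) ((pre_q_iff M _ _).1 h2)
      (nOut_le_of_pre M w _ hl v h5)
    have hlt := hw s hs
    have e1 : q M (sr M s * w) = σ M s * q M w := q_sr_mul M hlt
    have e2 : q M (sr M s * w) = q M w * σ M s' := by
      rw [hs']
      exact q_mul_sr M (hs' ▸ hlt)
    have h6 : Pre M (q M v) (q M (sr M s * w)) := (hv _).2
      ⟨by rw [e1, sp_q_sr]; exact pre_mul_right M _ (q_mem_pos M w), by
        rw [e2]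
        exact pre_mul_right M _ (Submonoid.subset_closure ⟨s', Set.mem_univ _, rfl⟩)⟩
    have h7 : q M v = q M (sr M s * w) := by
      refine h6.eq_of_len ?_
      have h8 := h2.len_le
      have h9 : len M (q M w) ≠ len M (q M v) := fun h9 => by
        rw [← h2.eq_of_len h9.ge] at h1
        exact lt_asymm hlt ((sr_wle_iff M s w).1 ((pre_q_iff M _ _).1 h1))
      rw [e1, len_mul, len_σ]
      omega
    rw [h7, e1, wp_cons, mul_assoc, pre_mul_iff] at h5
    intro t ht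
    rcases List.mem_cons.1 ht with rfl | ht
    · exact ⟨s', e1.symm.trans e2⟩
    · exact ih (fun t ht => hl t (List.mem_cons_of_mem _ ht)) h5 t ht

/-- **(SP)**  Induction on `len ρ` (for all `Y`, `l`).  `c = gcd ρ Δ = q w ≠ 1`; `c ≼ gcd (yρ) Δ ≼
gcd (yρ) (yΔ) = y c`; `slide_simple`; write `ρ = c ρ'`, `y c = c y'` with `y'` the word of the `s'`,
and `ρ'` is reduced for the set of letters of `y'`. -/
theorem slide {Y : Set S} {ρ : ArtinGroup M} (hρ : ρ ∈ Pos M)
    (hred : ∀ s ∈ Y, ¬ Pre M (σ M s) ρ) {l : List S} (hl : ∀ s ∈ l, s ∈ Y)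
    (h : Pre M ρ (wp (σ M) l * ρ)) :
    ∃ f : S → S, ∀ s ∈ l, σ M s * ρ = ρ * σ M (f s) := by
  obtain ⟨w0, hw0, hΔ, -⟩ := exists_garside M
  obtain ⟨n, hn⟩ : ∃ n : ℕ, len M ρ < n := ⟨(len M ρ).toNat + 1, by omega⟩
  induction n generalizing Y ρ l with
  | zero =>
    have h1 := ((sp_pos_iff M ρ).2 hρ).len_le
    rw [len_one] at h1
    omega
  | succ n ih =>
    rcases ((sp_pos_iff M ρ).2 hρ).eq_or_step with rfl | ⟨r, hr⟩
    · exact ⟨id, fun s _ => by simp⟩
    rw [one_mul] at hr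
    obtain ⟨c, hc⟩ := exists_gcd M ρ (q M w0)
    obtain ⟨c1, c2⟩ := (hc c).1 (Pre.refl M c)
    obtain ⟨w, rfl⟩ := simple_of_pre M ((sp_pos_iff M c).1
      ((hc 1).2 ⟨(sp_pos_iff M ρ).2 hρ, (sp_pos_iff M _).2 (q_mem_pos M w0)⟩)) c2
    have hlen := ((hc _).2 ⟨hr, sp_q_sr M r ▸ pre_q_of_wle M (hw0 (sr M r))⟩).len_le
    rw [len_σ] at hlen
    have hw : LRed M Y w := fun s hs => (sp_lt_or M s w).resolve_right fun h1 =>
      hred s hs (Pre.trans (sp_q_sr M s ▸ pre_q_of_wle M ((sr_wle_iff M s w).2 h1)) c1)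
    have hy : Pre M (q M w) (wp (σ M) l * q M w) := by
      have h1 := hΔ _ (sp_wp_pos M l) 1
      rw [pow_one] at h1
      have h2 : ∀ z, Pre M (q M w) (wp (σ M) l * z) ↔ Pre M ((wp (σ M) l)⁻¹ * q M w) z :=
        fun z => by rw [← pre_mul_iff M (wp (σ M) l)⁻¹, inv_mul_cancel_left]
      rw [h2, hc, ← h2, ← h2]
      exact ⟨c1.trans h, c2.trans h1⟩
    choose! g hg using slide_simple M hw l hl hy
    have hyy : ∀ l' : List S, (∀ s ∈ l', s ∈ l) →
        wp (σ M) l' * q M w = q M w * wp (σ M) (l'.map g) := by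
      intro l'
      induction l' with
      | nil => intro _; simp
      | cons s l' ih' =>
        intro h1
        rw [List.map_cons, wp_cons, wp_cons, mul_assoc,
          ih' fun t ht => h1 t (List.mem_cons_of_mem _ ht), ← mul_assoc,
          hg s (h1 s List.mem_cons_self), mul_assoc]
    obtain ⟨ρ', rfl⟩ : ∃ ρ', ρ = q M w * ρ' := ⟨(q M w)⁻¹ * ρ, by rw [mul_inv_cancel_left]⟩
    have hρ' : ρ' ∈ Pos M := by
      have h1 : (q M w)⁻¹ * (q M w * ρ') ∈ Pos M := c1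
      rwa [inv_mul_cancel_left] at h1
    rw [← mul_assoc, hyy l fun _ h1 => h1, mul_assoc, pre_mul_iff] at h
    rw [len_mul] at hn
    obtain ⟨f, hf⟩ := ih (Y := {t | t ∈ l.map g}) hρ' (fun t ht h1 => by
      obtain ⟨s, hs, rfl⟩ := List.mem_map.1 ht
      rw [← pre_mul_iff M (q M w), ← hg s hs] at h1
      exact hred s (hl s hs) ((pre_mul_right M _ (q_mem_pos M w)).trans h1))
      (fun _ h1 => h1) h (by push_cast at hn; omega)
    refine ⟨f ∘ g, fun s hs => ?_⟩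
    rw [← mul_assoc, hg s hs, mul_assoc, hf _ (List.mem_map_of_mem hs), mul_assoc]
    rfl

end Crest.R175
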