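import Crest.Agent.R175.PMtr
import Crest.Agent.R175.Root

/-! Row 175: basic facts on setups; restriction to a sub-diagram. -/

set_option autoImplicit false
set_option linter.unusedSectionVars false

namespace Crest.R175

open Crest.GroupTheory

namespace Setup

variable {S : Type} [Fintype S] [DecidableEq S] {M : CoxeterMatrix S} (𝒮 : Setup M)

theorem setupb_mf {α : Type} {F : Fintype α} {p : α → Prop} {inst : DecidablePred p} {a : α} :
    a ∈ @Finset.filter α p inst (@Finset.univ α F) ↔ p a := by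
  simp

open Classical in
theorem setupb_wsum_eq (f : 𝒮.I → ℝ) (s : S) :
    𝒮.wsum f s = ∑ i, if 𝒮.proj i = some s then 𝒮.π i * f i else 0 := by
  unfold wsum
  rw [Finset.sum_filter]
  exact Finset.sum_congr rfl fun i _ => by split_ifs <;> rfl

open Classical in
theorem setupb_nb_sum (f : 𝒮.I → ℝ) (i : 𝒮.I) :
    ∑ l : Nb 𝒮.Γ i, f l.1 = ∑ l, if 𝒮.Γ.Adj i l then f l else 0 := by
  rw [← Finset.sum_filter]
  exact (Finset.sum_subtype (Finset.univ.filter fun l => 𝒮.Γ.Adj i l) (by simp) f).symm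

theorem wsum_nonneg {f : 𝒮.I → ℝ} (hf : ∀ i, 0 ≤ f i) (s : S) : 0 ≤ 𝒮.wsum f s := by
  exact Finset.sum_nonneg fun i _ => mul_nonneg (𝒮.π_pos i).le (hf i)

theorem wsum_congr {f g : 𝒮.I → ℝ} {s : S} (h : ∀ i ∈ 𝒮.fib s, f i = g i) :
    𝒮.wsum f s = 𝒮.wsum g s := by
  exact Finset.sum_congr rfl fun i hi => by rw [h i (setupb_mf.1 hi)]

theorem wsum_mono {f g : 𝒮.I → ℝ} {s : S} (h : ∀ i ∈ 𝒮.fib s, f i ≤ g i) :
    𝒮.wsum f s ≤ 𝒮.wsum g s := by
  exact Finset.sum_le_sum fun i hi =>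
    mul_le_mul_of_nonneg_left (h i (setupb_mf.1 hi)) (𝒮.π_pos i).le

theorem wsum_add (f g : 𝒮.I → ℝ) (s : S) :
    𝒮.wsum (fun i => f i + g i) s = 𝒮.wsum f s + 𝒮.wsum g s := by
  simp only [wsum, mul_add, Finset.sum_add_distrib]

theorem wsum_sub (f g : 𝒮.I → ℝ) (s : S) :
    𝒮.wsum (fun i => f i - g i) s = 𝒮.wsum f s - 𝒮.wsum g s := by
  simp only [wsum, mul_sub, Finset.sum_sub_distrib]

theorem wsum_smul (c : ℝ) (f : 𝒮.I → ℝ) (s : S) :
    𝒮.wsum (fun i => c * f i) s = c * 𝒮.wsum f s := by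
  simp only [wsum, Finset.mul_sum]
  exact Finset.sum_congr rfl fun i _ => by ring

theorem wsum_eq_zero_iff {f : 𝒮.I → ℝ} {s : S} (hf : ∀ i ∈ 𝒮.fib s, 0 ≤ f i) :
    𝒮.wsum f s = 0 ↔ ∀ i ∈ 𝒮.fib s, f i = 0 := by
  unfold wsum
  refine (Finset.sum_eq_zero_iff_of_nonneg fun i hi =>
    mul_nonneg (𝒮.π_pos i).le (hf i (setupb_mf.1 hi))).trans ?_
  constructor
  · intro h i hi
    exact (mul_eq_zero.1 (h i (setupb_mf.2 hi))).resolve_left
      (𝒮.π_pos i).ne'
  · intro h i hi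
    rw [h i (setupb_mf.1 hi), mul_zero]

theorem finp_congr {f g : 𝒮.I → ℝ} (h : ∀ l, 𝒮.proj l = none → f l = g l) (s : S) :
    𝒮.finp f s = 𝒮.finp g s := by
  exact 𝒮.wsum_congr fun i _ => Finset.sum_congr rfl fun l hl => h l (setupb_mf.1 hl).1

theorem finp_nonneg {f : 𝒮.I → ℝ} (hf : ∀ i, 0 ≤ f i) (s : S) : 0 ≤ 𝒮.finp f s := by
  exact 𝒮.wsum_nonneg (fun i => Finset.sum_nonneg fun l _ => hf l) s

theorem finp_eq_zero_iff {f : 𝒮.I → ℝ} (hf : ∀ i, 0 ≤ f i) (s : S) :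
    𝒮.finp f s = 0 ↔ ∀ i ∈ 𝒮.fib s, ∀ l, 𝒮.proj l = none → 𝒮.Γ.Adj i l → f l = 0 := by
  unfold finp
  rw [𝒮.wsum_eq_zero_iff fun i _ => Finset.sum_nonneg fun l _ => hf l]
  refine forall₂_congr fun i _ => ?_
  rw [Finset.sum_eq_zero_iff_of_nonneg fun l _ => hf l]
  simp only [Finset.mem_filter, Finset.mem_univ, true_and, and_imp]

/-- the folded form of the neighbour sum (exchange the sums, `pf`, `nadj`) -/
theorem wsum_nb (f : 𝒮.I → ℝ) (s : S) :
    𝒮.wsum (fun i => ∑ l : Nb 𝒮.Γ i, f l.1) s =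
      𝒮.finp f s + ∑ t ∈ Finset.univ.erase s, cc M s t * 𝒮.wsum f t := by
  classical
  have hA : ∀ (P : 𝒮.I → Prop) [DecidablePred P],
      𝒮.wsum (fun i => ∑ l, if P l ∧ 𝒮.Γ.Adj i l then f l else 0) s =
      ∑ l, if P l then (∑ i ∈ Finset.univ.filter
        (fun i => 𝒮.proj i = some s ∧ 𝒮.Γ.Adj l i), 𝒮.π i) * f l else 0 := by
    intro P _
    rw [setupb_wsum_eq]
    have e1 : ∀ i, (if 𝒮.proj i = some s then
        𝒮.π i * ∑ l, (if P l ∧ 𝒮.Γ.Adj i l then f l else 0) else 0) =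
        ∑ l, if P l ∧ 𝒮.proj i = some s ∧ 𝒮.Γ.Adj l i then 𝒮.π i * f l else 0 := by
      intro i
      by_cases hi : 𝒮.proj i = some s
      · simp only [hi, if_true, true_and, Finset.mul_sum]
        refine Finset.sum_congr rfl fun l _ => ?_
        rw [𝒮.Γ.adj_comm l i]
        split_ifs <;> simp
      · simp [hi]
    simp only [e1]
    rw [Finset.sum_comm]
    refine Finset.sum_congr rfl fun l _ => ?_
    by_cases hl : P l
    · simp only [hl, true_and, if_true, Finset.sum_mul, Finset.sum_filter]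
      refine Finset.sum_congr rfl fun i _ => ?_
      split_ifs <;> simp
    · simp [hl]
  have h1 := hA (fun _ => True)
  have h2 := hA (fun l => 𝒮.proj l = none)
  have e1 : 𝒮.wsum (fun i => ∑ l : Nb 𝒮.Γ i, f l.1) s =
      𝒮.wsum (fun i => ∑ l, if True ∧ 𝒮.Γ.Adj i l then f l else 0) s :=
    𝒮.wsum_congr fun i _ => by
      rw [setupb_nb_sum]
      simp only [true_and]
  have e2 : 𝒮.finp f s =
      𝒮.wsum (fun i => ∑ l, if 𝒮.proj l = none ∧ 𝒮.Γ.Adj i l then f l else 0) s :=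
    𝒮.wsum_congr fun i _ => by
      rw [Finset.sum_filter]
  rw [e1, e2, h1, h2]
  simp only [setupb_wsum_eq, Finset.mul_sum]
  rw [Finset.sum_comm, ← Finset.sum_add_distrib]
  refine Finset.sum_congr rfl fun l _ => ?_
  rcases hl : 𝒮.proj l with _ | t
  · simp
  · by_cases hts : t = s
    · subst hts
      have h0 : Finset.univ.filter (fun i => 𝒮.proj i = some t ∧ 𝒮.Γ.Adj l i) = ∅ :=
        Finset.filter_eq_empty_iff.2 fun i _ hi => 𝒮.nadj t l hl i hi.1 hi.2
      rw [h0, Finset.sum_eq_zero (s := Finset.univ.erase t)]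
      · simp
      · intro r hr
        rw [if_neg, mul_zero]
        intro hh
        exact (Finset.mem_erase.1 hr).1 (Option.some.inj hh).symm
    · have h0 := 𝒮.pf l t s hl (Ne.symm hts)
      rw [Finset.sum_eq_single t]
      · simp only [if_true, reduceCtorEq, if_false, zero_add]
        rw [← mul_assoc, ← h0]
        congr 2
        ext i
        simp
      · intro r _ hr
        rw [if_neg, mul_zero]
        intro hh
        exact hr (Option.some.inj hh).symm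
      · intro hh
        exact absurd (Finset.mem_erase.2 ⟨hts, Finset.mem_univ _⟩) hh

/-- commuting generators have non-adjacent fibres -/
theorem not_adj_of_cc {s t : S} (hst : s ≠ t) (hc : cc M s t = 0) {i j : 𝒮.I} (hi : i ∈ 𝒮.fib s)
    (hj : j ∈ 𝒮.fib t) : ¬ 𝒮.Γ.Adj i j := by
  intro hadj
  have h0 := 𝒮.pf j t s hj hst
  rw [hc, zero_mul, Finset.sum_eq_zero_iff_of_nonneg fun i _ => (𝒮.π_pos i).le] at h0
  exact (𝒮.π_pos i).ne' (h0 i (setupb_mf.2 ⟨hi, hadj.symm⟩))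

/-- the hypothesis of `PM.exists_codim_one` for the vertices above a positive definite set:
`0 < B(E,E) = ∑_s E_s ∑_{i over s} π_i (2 e_i - ∑ e_l)` with `E = wsum e`. -/
theorem exists_slope_pos {T : Set S} (hT : PosDefOn M T) (e : 𝒮.I → ℝ) (h0 : 0 ≤ e) (hne : e ≠ 0)
    (hs : ∀ l, l ∉ 𝒮.abv T → e l = 0) : ∃ i ∈ 𝒮.abv T, ∑ l : Nb 𝒮.Γ i, e l.1 < 2 * e i := by
  have hE0 : ∀ s, s ∉ T → 𝒮.wsum e s = 0 := by
    intro s hsT
    refine (𝒮.wsum_eq_zero_iff fun i _ => h0 i).2 fun i hi => hs i ?_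
    rintro ⟨r, hr, hir⟩
    have : r = s := Option.some.inj (hir.symm.trans hi)
    exact hsT (this ▸ hr)
  have hEne : 𝒮.wsum e ≠ 0 := by
    intro hE
    apply hne
    funext l
    by_cases hl : l ∈ 𝒮.abv T
    · obtain ⟨r, -, hlr⟩ := hl
      exact (𝒮.wsum_eq_zero_iff fun i _ => h0 i).1 (congrFun hE r) l hlr
    · exact hs l hl
  have hpos := hT _ hE0 hEne
  rw [Bf_eq_sum] at hpos
  obtain ⟨s, -, hs1⟩ : ∃ s ∈ Finset.univ, 0 < 𝒮.wsum e s * Bf M (al s) (𝒮.wsum e) := by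
    by_contra hcon
    push Not at hcon
    exact absurd (Finset.sum_nonpos hcon) (not_le.2 hpos)
  have hnn : 0 ≤ 𝒮.wsum e s := 𝒮.wsum_nonneg h0 s
  have hsT : s ∈ T := by
    by_contra hsT
    rw [hE0 s hsT, zero_mul] at hs1
    exact lt_irrefl _ hs1
  have h2 : 0 < Bf M (al s) (𝒮.wsum e) := by
    by_contra hcon
    exact absurd (mul_nonpos_of_nonneg_of_nonpos hnn (not_lt.1 hcon)) (not_le.2 hs1)
  have h3 : 𝒮.finp e s = 0 := by
    refine (𝒮.finp_eq_zero_iff h0 s).2 fun i _ l hl _ => hs l ?_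
    rintro ⟨r, -, hlr⟩
    rw [hl] at hlr
    cases hlr
  have h4 := 𝒮.wsum_nb e s
  rw [Bf_al_left'] at h2
  by_contra hcon
  push Not at hcon
  have h5 := 𝒮.wsum_mono (f := fun i => 2 * e i) (g := fun i => ∑ l : Nb 𝒮.Γ i, e l.1) (s := s)
    fun i hi => hcon i ⟨s, hsT, hi⟩
  rw [wsum_smul] at h5
  linarith

theorem dimS_nonneg (x : ArtinGroup M) (k : ℤ) (s : S) : 0 ≤ 𝒮.dimS x k s := by
  exact 𝒮.wsum_nonneg (fun i => Nat.cast_nonneg _) s

theorem inp_nonneg (x : ArtinGroup M) (k : ℤ) (s : S) : 0 ≤ 𝒮.inp x k s := by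
  exact 𝒮.finp_nonneg (fun i => Nat.cast_nonneg _) s

theorem dimS_eq_zero_iff (x : ArtinGroup M) (k : ℤ) (s : S) :
    𝒮.dimS x k s = 0 ↔ ∀ i ∈ 𝒮.fib s, (𝒮.H x k).dim i = 0 := by
  unfold dimS
  rw [𝒮.wsum_eq_zero_iff fun i _ => Nat.cast_nonneg _]
  simp only [Nat.cast_eq_zero]

theorem dimS_mem_closure (x : ArtinGroup M) (k : ℤ) (s : S) :
    𝒮.dimS x k s ∈ AddSubmonoid.closure (Set.range 𝒮.π) := by
  refine AddSubmonoid.sum_mem _ fun i _ => ?_
  rw [mul_comm, ← nsmul_eq_mul]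
  exact AddSubmonoid.nsmul_mem _ (AddSubmonoid.subset_closure (Set.mem_range_self i)) _

/-- moves in `A_T` do not change the dimensions at vertices not above `T` -/
theorem dim_mul_of_AX {T : Set S} {a : ArtinGroup M} (ha : a ∈ AX M T) (x : ArtinGroup M) (k : ℤ)
    {l : 𝒮.I} (hl : l ∉ 𝒮.abv T) : (𝒮.H (x * a) k).dim l = (𝒮.H x k).dim l := by
  induction ha using Subgroup.closure_induction generalizing x with
  | mem a ha =>
    obtain ⟨s, hs, rfl⟩ := ha
    exact (((𝒮.step x s).1 k).dim_eq (l := l) fun h => hl ⟨s, hs, h⟩).symm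
  | one => rw [mul_one]
  | mul a b _ _ iha ihb => rw [← mul_assoc, ihb, iha]
  | inv a _ iha => rw [← iha (x * a⁻¹), inv_mul_cancel_right]

theorem dimS_mul_of_AX {T : Set S} {a : ArtinGroup M} (ha : a ∈ AX M T) (x : ArtinGroup M) (k : ℤ)
    {s : S} (hs : s ∉ T) : 𝒮.dimS (x * a) k s = 𝒮.dimS x k s := by
  refine 𝒮.wsum_congr fun i hi => ?_
  rw [𝒮.dim_mul_of_AX ha x k (l := i)]
  rintro ⟨r, hr, hir⟩
  have : r = s := Option.some.inj (hir.symm.trans hi)
  exact hs (this ▸ hr)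

theorem inp_eq (x : ArtinGroup M) (k : ℤ) (s : S) : 𝒮.inp x k s = 𝒮.inp 1 k s := by
  refine 𝒮.finp_congr (fun l hl => ?_) s
  have hx : x ∈ AX M Set.univ := by rw [AX_univ]; trivial
  have := 𝒮.dim_mul_of_AX hx 1 k (l := l) (by
    rintro ⟨r, -, hlr⟩
    rw [hl] at hlr
    cases hlr)
  rw [one_mul] at this
  rw [this]

theorem exists_bound (x : ArtinGroup M) :
    ∃ K : ℤ, ∀ k, K ≤ k → ∀ s, 𝒮.dimS x k s = 0 ∧ 𝒮.inp x k s = 0 := by
  obtain ⟨K, hK⟩ := 𝒮.bdd x
  refine ⟨K, fun k hk s => ⟨(𝒮.dimS_eq_zero_iff x k s).2 fun i _ => hK k hk i, ?_⟩⟩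
  refine (𝒮.finp_eq_zero_iff (fun i => Nat.cast_nonneg _) s).2 fun i _ l _ _ => ?_
  rw [hK k hk l, Nat.cast_zero]

/-- the wall inequality -/
theorem wall (x : ArtinGroup M) (k : ℤ) (s : S) :
    𝒮.inp 1 k s + ∑ t ∈ Finset.univ.erase s, cc M s t * 𝒮.dimS x k t ≤
      𝒮.dimS x k s + 𝒮.dimS (x * σ M s) k s := by
  rw [← 𝒮.inp_eq x k s]
  have h1 := 𝒮.wsum_nb (fun i => ((𝒮.H x k).dim i : ℝ)) s
  have h2 := 𝒮.wsum_mono (f := fun i => ∑ l : Nb 𝒮.Γ i, ((𝒮.H x k).dim l.1 : ℝ))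
    (g := fun i => ((𝒮.H x k).dim i : ℝ) + ((𝒮.H (x * σ M s) k).dim i : ℝ)) (s := s)
    fun i hi => by
      have := ((𝒮.step x s).1 k).sum_le (𝒮.nadj s) (i := i) hi
      exact_mod_cast this
  rw [wsum_add, h1] at h2
  exact h2

/-- perpendicularity above `s` is preserved by moves commuting with `s` -/
theorem perp_mul_of_AX {s : S} {a : ArtinGroup M} (ha : a ∈ AX M {r | M s r = 2})
    (x : ArtinGroup M) (k : ℤ) {i : 𝒮.I} (hi : i ∈ 𝒮.fib s) :
    (𝒮.H (x * a) k).Perp i ↔ (𝒮.H x k).Perp i := by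
  induction ha using Subgroup.closure_induction generalizing x with
  | mem a ha =>
    obtain ⟨r, hr, rfl⟩ := ha
    have hr2 : M s r = 2 := hr
    have hne : s ≠ r := by
      rintro rfl
      rw [M.diagonal] at hr2
      omega
    refine (((𝒮.step x r).1 k).perp_iff (i := i) (fun h => ?_) fun l hl h => ?_).symm
    · exact hne (Option.some.inj (hi.symm.trans h))
    · exact 𝒮.not_adj_of_cc hne ((cc_eq_zero_iff M hne).2 hr2) hi h hl
  | one => rw [mul_one]
  | mul a b _ _ iha ihb => rw [← mul_assoc, ihb, iha]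
  | inv a _ iha => rw [← iha (x * a⁻¹), inv_mul_cancel_right]

section restrict
variable {T : Type} (e : T ↪ S)

open Classical in
/-- the projection of the restricted setup -/
noncomputable def rproj (i : 𝒮.I) : Option T :=
  if h : ∃ t, 𝒮.proj i = some (e t) then some h.choose else none

theorem rproj_eq_some (i : 𝒮.I) (t : T) : 𝒮.rproj e i = some t ↔ 𝒮.proj i = some (e t) := by
  unfold rproj
  split_ifs with h
  · have := h.choose_spec
    constructor
    · intro h'; rw [this, Option.some.inj h']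
    · intro h'; exact congrArg some (e.injective (Option.some.inj (this.symm.trans h')))
  · simpa using fun h' => h ⟨t, h'⟩

theorem rproj_eq_none (i : 𝒮.I) : 𝒮.rproj e i = none ↔ ∀ t, 𝒮.proj i ≠ some (e t) := by
  unfold rproj
  split_ifs with h
  · simpa using h
  · simpa using h

/-- restriction to the coset `g A_T`, pulled back to the Artin group of `T` -/
noncomputable def restrict (g : ArtinGroup M) : Setup (sub M e) where
  I := 𝒮.I
  Γ := 𝒮.Γ
  proj := 𝒮.rproj e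
  π := 𝒮.π
  π_pos := 𝒮.π_pos
  nadj := fun t => by simpa only [rproj_eq_some] using 𝒮.nadj (e t)
  pf := fun j t s hj hst => by
    have := 𝒮.pf j (e t) (e s) ((𝒮.rproj_eq_some e j t).1 hj) (e.injective.ne hst)
    refine Eq.trans ?_ this
    congr 1
    ext i
    simp only [Finset.mem_filter, rproj_eq_some]
  H := fun x => 𝒮.H (g * artinMap M e x)
  step := fun x t => by
    have := 𝒮.step (g * artinMap M e x) (e t)
    simpa only [rproj_eq_some, map_mul, artinMap_σ, mul_assoc] using this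
  bdd := fun x => 𝒮.bdd _

variable [Fintype T] [DecidableEq T]

theorem setupb_restrict_wsum (g : ArtinGroup M) (f : 𝒮.I → ℝ) (t : T) :
    (𝒮.restrict e g).wsum f t = 𝒮.wsum f (e t) := by
  unfold wsum
  refine Finset.sum_congr ?_ fun _ _ => rfl
  ext i
  exact setupb_mf.trans ((𝒮.rproj_eq_some e i t).trans
    (setupb_mf (p := fun i => 𝒮.proj i = some (e t))).symm)

theorem restrict_dimS (g : ArtinGroup M) (x : ArtinGroup (sub M e)) (k : ℤ) (t : T) :
    (𝒮.restrict e g).dimS x k t = 𝒮.dimS (g * artinMap M e x) k (e t) := by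
  exact 𝒮.setupb_restrict_wsum e g _ t

open Classical in
theorem restrict_inp (g : ArtinGroup M) (k : ℤ) (t : T) :
    (𝒮.restrict e g).inp 1 k t = 𝒮.inp 1 k (e t) +
      ∑ s ∈ Finset.univ.filter (fun s => s ∉ Set.range e), cc M (e t) s * 𝒮.dimS g k s := by
  set f : 𝒮.I → ℝ := fun i => ((𝒮.H g k).dim i : ℝ) with hf
  have e0 : (𝒮.restrict e g).inp 1 k t = (𝒮.restrict e g).finp f t := by
    refine (𝒮.restrict e g).finp_congr (fun l _ => ?_) t
    show (((𝒮.H (g * artinMap M e 1) k).dim l : ℕ) : ℝ) = _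
    rw [map_one, mul_one]
  have h1 := (𝒮.restrict e g).wsum_nb f t
  have h2 := 𝒮.wsum_nb f (e t)
  have h3 : (𝒮.restrict e g).wsum (fun i => ∑ l : Nb (𝒮.restrict e g).Γ i, f l.1) t =
      𝒮.wsum (fun i => ∑ l : Nb 𝒮.Γ i, f l.1) (e t) := 𝒮.setupb_restrict_wsum e g _ t
  have h4 : ∑ r ∈ Finset.univ.erase t, cc (sub M e) t r * (𝒮.restrict e g).wsum f r =
      ∑ r ∈ Finset.univ.erase t, cc M (e t) (e r) * 𝒮.wsum f (e r) :=
    Finset.sum_congr rfl fun r _ => by rw [𝒮.setupb_restrict_wsum e g f r]; rfl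
  have h5 : ∑ s ∈ Finset.univ.erase (e t), cc M (e t) s * 𝒮.wsum f s =
      ∑ s ∈ Finset.univ.filter (fun s => s ∉ Set.range e), cc M (e t) s * 𝒮.wsum f s +
      ∑ r ∈ Finset.univ.erase t, cc M (e t) (e r) * 𝒮.wsum f (e r) := by
    rw [← Finset.sum_map (Finset.univ.erase t) e (fun s => cc M (e t) s * 𝒮.wsum f s),
      ← Finset.sum_union]
    · congr 1
      ext s
      simp only [Finset.mem_erase, Finset.mem_univ, and_true, Finset.mem_union, Finset.mem_filter,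
        true_and, Finset.mem_map, Set.mem_range]
      constructor
      · intro hs
        by_cases h : ∃ r, e r = s
        · obtain ⟨r, rfl⟩ := h
          exact Or.inr ⟨r, fun hh => hs (by rw [hh]), rfl⟩
        · exact Or.inl h
      · rintro (h | ⟨r, hr, rfl⟩)
        · exact fun hh => h ⟨t, hh.symm⟩
        · exact e.injective.ne hr
    · rw [Finset.disjoint_left]
      intro s hs hs'
      obtain ⟨r, -, rfl⟩ := Finset.mem_map.1 hs'
      exact (Finset.mem_filter.1 hs).2 ⟨r, rfl⟩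
  have h6 : 𝒮.inp 1 k (e t) = 𝒮.finp f (e t) := (𝒮.inp_eq g k (e t)).symm
  have h7 : ∀ s, 𝒮.dimS g k s = 𝒮.wsum f s := fun s => rfl
  simp only [h7]
  rw [e0, h6]
  linarith

end restrict

end Setup

end Crest.R175
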