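import Crest.Agent.R175.Term1
import Crest.Agent.R175.LocP

/-! Row 175: descents: the local lemmas in terms of heights. -/

set_option autoImplicit false
set_option linter.unusedSectionVars false

namespace Crest.R175

open Crest.GroupTheory

namespace Setup

variable {S : Type} [Fintype S] [DecidableEq S] {M : CoxeterMatrix S} (𝒮 : Setup M)

theorem term_mem {T : Set S} (y : ArtinGroup (sub M (incl T))) : artinMap M (incl T) y ∈ AX M T := by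
  have h : y ∈ AX (sub M (incl T)) Set.univ := by rw [AX_univ]; trivial
  refine AX_mono M ?_ (map_AX M _ _ ▸ Subgroup.mem_map_of_mem _ h)
  rintro _ ⟨r, -, rfl⟩
  exact r.2

theorem term_surj {T : Set S} {a : ArtinGroup M} (ha : a ∈ AX M T) :
    ∃ y, artinMap M (incl T) y = a := by
  have h : a ∈ (AX (sub M (incl T)) Set.univ).map (artinMap M (incl T)) := by
    rw [map_AX]
    refine AX_mono M (fun s hs => ?_) ha
    exact ⟨⟨s, hs⟩, trivial, rfl⟩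
  obtain ⟨y, -, e⟩ := h
  exact ⟨y, e⟩

theorem term_sub {Y : Set S} {x : ArtinGroup M} {k : ℕ} : 𝒮.Tm Y x k ⊆ Y :=
  fun _ hs => 𝒮.Tb_subset Y x (𝒮.Tn_subset_Tb Y x hs.1)

theorem term_mk {Y : Set S} {x : ArtinGroup M} {k : ℕ} {t : S} (ht : t ∈ 𝒮.Tm Y x k) :
    LT.mk k (𝒮.ht Y x t).co = 𝒮.ht Y x t := by
  rw [← ht.2]; rfl

theorem term_pos {Y : Set S} {x : ArtinGroup M} {k : ℕ} {t : S} (ht : t ∈ 𝒮.Tm Y x k) :
    0 < (𝒮.ht Y x t).co :=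
  ((hgt_data (𝒮.data x)).2 t).co_pos ht.1.2

theorem term_noHi {T : Type} [Fintype T] [DecidableEq T] (e : T ↪ S) (g : ArtinGroup M) (k : ℕ)
    (y : ArtinGroup (sub M e)) (t : T) : (𝒮.restrict e g).NoHi k y t ↔
      ∀ j : ℕ, k < j → 𝒮.dimS (g * artinMap M e y) j (e t) = 0 := by
  simp only [NoHi, restrict_dimS]
  refine ⟨fun h j hj => h j (by exact_mod_cast hj), fun h j hj => ?_⟩
  obtain ⟨n, rfl⟩ := Int.eq_ofNat_of_zero_le (show 0 ≤ j by omega)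
  exact h n (by exact_mod_cast hj)

theorem term_key {Y : Set S} {x : ArtinGroup M} {k : ℕ} {g : ArtinGroup M}
    (hg : x⁻¹ * g ∈ AX M (𝒮.Tm Y x k)) {t s : S} (ht : t ∈ 𝒮.Tm Y x k) (hs : s ∉ 𝒮.Tm Y x k)
    {j : ℕ} (hj : k ≤ j) : cc M t s * 𝒮.dimS g j s = cc M t s * (𝒮.ht Y x s).emb j := by
  by_cases hc : cc M t s = 0
  · rw [hc, zero_mul, zero_mul]
  have hst : s ≠ t := fun e => hs (e ▸ ht)
  have hH : t ∈ Harm M 𝒮.uu Y (hgt M 𝒮.uu Y (𝒮.DD x)) := 𝒮.Tn_subset_Tb Y x ht.1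
  have h1 : (𝒮.ht Y x s).lev ≤ k :=
    (Harm.lev_le (hgt_data (𝒮.data x)) hH hst hc).trans ht.2.le
  rcases (hgt_le (M := M) (Y := Y) (𝒮.data x) s).eq_or_lt with e | e
  · have e' : 𝒮.ht Y x s = 𝒮.DD x s := e
    have h2 := 𝒮.dimS_mul_of_AX hg x j hs
    rw [mul_inv_cancel_left] at h2
    rw [e'] at h1 ⊢
    rw [h2, DD, emb_lead_of_le (𝒮.adm_dimS x s) (h1.trans hj)]
  · have h2 := lev_eq_of_nontight (𝒮.data x) hH (mem_harm_of_lt (𝒮.data x) e) hst hc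
    exact absurd ⟨⟨e, fun h0 => ht.1.2 (h2.2.1 h0)⟩, h2.1.trans ht.2⟩ hs

theorem term_inp {Y : Set S} {x : ArtinGroup M} {k : ℕ} [Fintype (𝒮.Tm Y x k)] {g : ArtinGroup M}
    (hg : x⁻¹ * g ∈ AX M (𝒮.Tm Y x k)) {j : ℕ} (hj : k ≤ j) (t : 𝒮.Tm Y x k) :
    (𝒮.restrict (incl (𝒮.Tm Y x k)) g).inp 1 j t = 2 * (𝒮.ht Y x t.1).emb j -
      ∑ r ∈ Finset.univ.erase t, cc M t.1 r.1 * (𝒮.ht Y x r.1).emb j := by
  classical
  have hH : t.1 ∈ Harm M 𝒮.uu Y (hgt M 𝒮.uu Y (𝒮.DD x)) := 𝒮.Tn_subset_Tb Y x t.2.1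
  have h1 : nbf M 𝒮.uu (𝒮.ht Y x) t.1 j = 2 * (𝒮.ht Y x t.1).emb j :=
    Harm.nbf_eq (hgt_data (𝒮.data x)) hH (t.2.2.le.trans hj)
  have hr : ∀ s, s ∈ Set.range (incl (𝒮.Tm Y x k)) ↔ s ∈ 𝒮.Tm Y x k := fun s =>
    ⟨fun ⟨r, e⟩ => e ▸ r.2, fun hs => ⟨⟨s, hs⟩, rfl⟩⟩
  rw [restrict_inp, ← h1, nbf,
    ← Finset.sum_filter_add_sum_filter_not (Finset.univ.erase t.1) (· ∈ 𝒮.Tm Y x k)]
  have h2 : ∑ s ∈ (Finset.univ.erase t.1).filter (· ∈ 𝒮.Tm Y x k),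
      cc M t.1 s * (𝒮.ht Y x s).emb j =
      ∑ r ∈ Finset.univ.erase t, cc M t.1 r.1 * (𝒮.ht Y x r.1).emb j := by
    symm
    refine Finset.sum_bij (fun r _ => r.1) (fun r hr => ?_) (fun _ _ _ _ e => Subtype.ext e)
      (fun s hs => ?_) fun _ _ => rfl
    · simp only [Finset.mem_filter, Finset.mem_erase, Finset.mem_univ, and_true] at hr ⊢
      exact ⟨fun e => hr (Subtype.ext e), r.2⟩
    · simp only [Finset.mem_filter, Finset.mem_erase, Finset.mem_univ, and_true] at hs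
      exact ⟨⟨s, hs.2⟩, by simpa using fun e => hs.1 (congrArg Subtype.val e), rfl⟩
  rw [h2, add_comm (∑ r ∈ Finset.univ.erase t, _), ← add_assoc, add_sub_cancel_right]
  congr 1
  refine Finset.sum_congr ?_ fun s hs => 𝒮.term_key hg t.2 (Finset.mem_filter.1 hs).2 hj
  ext s
  simp only [Finset.mem_filter, Finset.mem_erase, Finset.mem_univ, true_and, and_true, hr]
  exact ⟨fun h => ⟨fun e => h (e ▸ t.2), h⟩, fun h => h.2⟩

theorem term_coset {Y : Set S} {x y : ArtinGroup M} {k k' : ℕ} (hk : k ≠ k') (h : 𝒮.Low Y x k y)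
    {a : ArtinGroup M} (ha : a ∈ AX M (𝒮.Tm Y x k')) :
    Conn M Y (fun z => 𝒮.ht Y z < 𝒮.ht Y x) y (y * a) := by
  obtain ⟨h1, s, hs, hlt⟩ := h
  refine (conn_of_coset (P := fun z => 𝒮.ht Y z < 𝒮.ht Y x) (fun b hb => ?_) ha).mono 𝒮.term_sub
    fun _ => id
  refine 𝒮.ht_lt_of_mem (s := s) ?_ ?_
  · rw [← mul_assoc]
    exact mul_mem (AX_mono M (fun _ h => h.1) h1) (AX_mono M (fun _ h => h.1) hb)
  · rwa [𝒮.DD_mul_of_AX hb y fun h' => hk (hs.2.symm.trans h'.2)]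

/-- The restriction to `T = Tm Y x k` based at any `g ∈ x A_T` is a local situation.  A vertex
`s ∉ T` adjacent to `t ∈ T` is tight of level `≤ k` (`Harm.lev_le`, `lev_eq_of_nontight`), so
`dimS g j s = (ht s).emb j` for `j ≥ k` (`emb_lead_of_le`); then `Harm.nbf_eq`. -/
theorem loc_Tm {Y : Set S} {x : ArtinGroup M} {k : ℕ} [Fintype (𝒮.Tm Y x k)] {g : ArtinGroup M}
    (hg : x⁻¹ * g ∈ AX M (𝒮.Tm Y x k)) :
    (𝒮.restrict (incl (𝒮.Tm Y x k)) g).Loc k (fun t => (𝒮.ht Y x t.1).co) := by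
  refine ⟨posDef_sub M ((posDefOn_nontight (𝒮.data x)).mono fun s hs => hs.1.1), fun j hj t => ?_,
    fun t => ?_⟩
  · obtain ⟨n, rfl⟩ := Int.eq_ofNat_of_zero_le (show 0 ≤ j by omega)
    have hn : k < n := by exact_mod_cast hj
    have h0 : ∀ r : 𝒮.Tm Y x k, (𝒮.ht Y x r.1).emb n = 0 := fun r =>
      if_neg (by rw [r.2.2]; omega)
    rw [𝒮.term_inp hg hn.le]
    simp [h0]
  · have h0 : ∀ r : 𝒮.Tm Y x k, (𝒮.ht Y x r.1).emb k = (𝒮.ht Y x r.1).co := fun r =>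
      if_pos r.2.2.symm
    rw [𝒮.term_inp hg le_rfl, Bf_al_left']
    simp only [h0]
    rfl

/-- negativity in the restricted setup (`lead_lt_mk_iff`) -/
theorem neg_iff_low {Y : Set S} {x : ArtinGroup M} {k : ℕ} [Fintype (𝒮.Tm Y x k)]
    {g : ArtinGroup M} (hg : x⁻¹ * g ∈ AX M (𝒮.Tm Y x k))
    (y : ArtinGroup (sub M (incl (𝒮.Tm Y x k)))) :
    (𝒮.restrict (incl (𝒮.Tm Y x k)) g).Neg k (fun t => (𝒮.ht Y x t.1).co) y ↔
      𝒮.Low Y x k (g * artinMap M _ y) := by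
  have hm : x⁻¹ * (g * artinMap M (incl (𝒮.Tm Y x k)) y) ∈ AX M (𝒮.Tm Y x k) := by
    rw [← mul_assoc]
    exact mul_mem hg (term_mem y)
  have key : ∀ t : 𝒮.Tm Y x k,
      (𝒮.restrict (incl (𝒮.Tm Y x k)) g).NegAt k (fun t => (𝒮.ht Y x t.1).co) y t ↔
        𝒮.DD (g * artinMap M _ y) t.1 < 𝒮.ht Y x t.1 := fun t => by
    rw [← 𝒮.term_mk t.2, DD, lead_lt_mk_iff (𝒮.adm_dimS _ _) (𝒮.term_pos t.2), NegAt,
      term_noHi, restrict_dimS]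
    rfl
  exact ⟨fun ⟨t, ht⟩ => ⟨hm, t.1, t.2, (key t).1 ht⟩, fun ⟨_, t, ht, h⟩ => ⟨⟨t, ht⟩, (key _).2 h⟩⟩

/-- **Local Lemma**, relative form (`conn_neg` pushed forward along `artinMap`) -/
theorem conn_low {Y : Set S} {x y y' : ArtinGroup M} {k : ℕ} (h : 𝒮.Low Y x k y)
    (h' : 𝒮.Low Y x k y') : Conn M Y (𝒮.Low Y x k) y y' := by
  classical
  let _ : Fintype (𝒮.Tm Y x k) := Fintype.ofFinite _
  have hx : x⁻¹ * x ∈ AX M (𝒮.Tm Y x k) := by simp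
  obtain ⟨a, ha⟩ := term_surj h.1
  obtain ⟨a', ha'⟩ := term_surj h'.1
  obtain rfl : y = x * artinMap M _ a := by rw [ha, mul_inv_cancel_left]
  obtain rfl : y' = x * artinMap M _ a' := by rw [ha', mul_inv_cancel_left]
  refine Relation.ReflTransGen.lift (fun b => x * artinMap M (incl (𝒮.Tm Y x k)) b) ?_ _ _
    (conn_neg (𝒮.loc_Tm hx) ((𝒮.neg_iff_low hx a).2 h) ((𝒮.neg_iff_low hx a').2 h'))
  rintro b c ⟨hc, t, -, e⟩
  refine ⟨(𝒮.neg_iff_low hx c).1 hc, t.1, 𝒮.term_sub t.2, ?_⟩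
  rcases e with rfl | rfl
  · exact Or.inl (by beta_reduce; rw [map_mul, artinMap_σ, mul_assoc]; rfl)
  · exact Or.inr (by beta_reduce; rw [map_mul, artinMap_σ, mul_assoc]; rfl)

/-- all descents of `x` are connected through chambers of smaller height (for different levels pass
through `x a a'`, using `Tm_comm`, `commute_of_AX`, `conn_of_coset`, `ht_lt_of_mem`) -/
theorem conn_low' {Y : Set S} {x y y' : ArtinGroup M} {k k' : ℕ} (h : 𝒮.Low Y x k y)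
    (h' : 𝒮.Low Y x k' y') : Conn M Y (fun z => 𝒮.ht Y z < 𝒮.ht Y x) y y' := by
  by_cases hk : k = k'
  · subst hk
    exact (𝒮.conn_low h h').mono subset_rfl fun _ hz => hz.lt
  have hc : Commute (x⁻¹ * y) (x⁻¹ * y') :=
    commute_of_AX M (fun s hs t ht => 𝒮.Tm_comm hk hs ht) h.1 h'.1
  have e : y * (x⁻¹ * y') = y' * (x⁻¹ * y) := by
    have := congrArg (x * ·) hc.eq
    simpa only [mul_assoc, mul_inv_cancel_left] using this
  have h1 := 𝒮.term_coset hk h h'.1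
  have h2 := 𝒮.term_coset (Ne.symm hk) h' h.1
  rw [e] at h1
  exact h1.trans (h2.symm h'.lt)

/-- **Tie lemma**, relative form: `x'` lies in `x A_T`, `T = Tm Y x k`, is tight at `s ∈ T` and has no
descent along `T ∖ s` (`not_neg_of_stable` in the restriction based at `x'`, `lead_eq_mk_iff`). -/
theorem not_low_of_tie {Y : Set S} {x x' : ArtinGroup M} {k : ℕ} {s : S}
    (hx' : x⁻¹ * x' ∈ AX M (𝒮.Tm Y x k)) (hs : 𝒮.DD x' s = 𝒮.ht Y x s)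
    (h : ∀ a ∈ AX M (𝒮.Tm Y x k \ {s}), ∀ t ∈ 𝒮.Tm Y x k, ¬ 𝒮.DD (x' * a) t < 𝒮.ht Y x t)
    (y : ArtinGroup M) : ¬ 𝒮.Low Y x k y := by
  classical
  let _ : Fintype (𝒮.Tm Y x k) := Fintype.ofFinite _
  intro hy
  have hm : x'⁻¹ * y ∈ AX M (𝒮.Tm Y x k) := by
    have := mul_mem (inv_mem hx') hy.1
    simpa only [mul_inv_rev, inv_inv, mul_assoc, mul_inv_cancel_left] using this
  obtain ⟨b, hb⟩ := term_surj hm
  obtain rfl : y = x' * artinMap M _ b := by rw [hb, mul_inv_cancel_left]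
  refine not_neg_of_stable (𝒮.loc_Tm hx') (T₀ := {t | t.1 ≠ s}) (x := 1) (fun t ht => ?_)
    (fun a ha hn => ?_) b ((𝒮.neg_iff_low hx' b).2 hy)
  · obtain rfl : t.1 = s := not_not.1 ht
    rw [← 𝒮.term_mk t.2, DD, lead_eq_mk_iff (𝒮.adm_dimS _ _) (𝒮.term_pos t.2)] at hs
    rw [Tight, term_noHi, restrict_dimS, map_one, mul_one]
    exact hs
  · rw [one_mul, 𝒮.neg_iff_low hx'] at hn
    obtain ⟨-, t, ht, hlt⟩ := hn
    refine h _ (AX_mono M ?_ (map_AX M _ _ ▸ Subgroup.mem_map_of_mem _ ha)) t ht hlt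
    rintro _ ⟨r, hr, rfl⟩
    exact ⟨r.2, hr⟩

end Setup

end Crest.R175
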