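import Crest.Agent.R175.TermDefs
import Crest.Agent.R175.LocL

/-! Row 175: descents: the local lemmas in terms of heights. -/

set_option autoImplicit false
set_option linter.unusedSectionVars false

namespace Crest.R175

open Crest.GroupTheory

namespace Setup

variable {S : Type} [Fintype S] [DecidableEq S] {M : CoxeterMatrix S} (𝒮 : Setup M)

theorem adm_dimS (x : ArtinGroup M) (s : S) : Adm fun k : ℕ => 𝒮.dimS x k s := by
  obtain ⟨K, hK⟩ := 𝒮.exists_bound x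
  exact ⟨fun k => 𝒮.dimS_nonneg x k s, K.toNat, fun k hk => (hK k (Int.toNat_le.1 hk) s).1⟩

theorem term1_adm_uu (s : S) : Adm (𝒮.uu s) := by
  obtain ⟨K, hK⟩ := 𝒮.exists_bound 1
  exact ⟨fun k => 𝒮.inp_nonneg 1 k s, K.toNat, fun k hk => (hK k (Int.toNat_le.1 hk) s).2⟩

theorem data (x : ArtinGroup M) : Data 𝒮.uu (𝒮.DD x) :=
  ⟨𝒮.term1_adm_uu, fun s => lead_valid (𝒮.adm_dimS x s)⟩

theorem DD_mul_of_AX {T : Set S} {a : ArtinGroup M} (ha : a ∈ AX M T) (x : ArtinGroup M) {s : S}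
    (hs : s ∉ T) : 𝒮.DD (x * a) s = 𝒮.DD x s := by
  simp only [DD, 𝒮.dimS_mul_of_AX ha x _ hs]

/-- `wall`, `nb_lead`, `lead_mono`, `lead_add_le`, `lead_add_lt` -/
theorem edge (x : ArtinGroup M) (s : S) : Edge M 𝒮.uu s (𝒮.DD x) (𝒮.DD (x * σ M s)) := by
  have h1 := 𝒮.adm_dimS x s
  have h2 := 𝒮.adm_dimS (x * σ M s) s
  have hsum : Adm fun k : ℕ => 𝒮.dimS x k s + 𝒮.dimS (x * σ M s) k s := by
    obtain ⟨a1, K1, b1⟩ := h1
    obtain ⟨a2, K2, b2⟩ := h2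
    exact ⟨fun k => add_nonneg (a1 k) (a2 k), max K1 K2, fun k hk => by
      simp only [b1 k (le_of_max_le_left hk), b2 k (le_of_max_le_right hk), add_zero]⟩
  have key : nb M 𝒮.uu (𝒮.DD x) s ≤
      lead fun k : ℕ => 𝒮.dimS x k s + 𝒮.dimS (x * σ M s) k s := by
    refine (nb_lead 𝒮.term1_adm_uu (fun t => 𝒮.adm_dimS x t) s).trans_le
      (lead_mono ⟨fun k => ?_, ?_⟩ hsum fun k => 𝒮.wall x k s)
    · exact add_nonneg (𝒮.inp_nonneg 1 k s) (Finset.sum_nonneg fun t ht => mul_nonneg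
        (cc_nonneg M (Finset.ne_of_mem_erase ht).symm) (𝒮.dimS_nonneg x k t))
    · obtain ⟨K, hK⟩ := 𝒮.exists_bound x
      refine ⟨K.toNat, fun k hk => ?_⟩
      have h := hK k (Int.toNat_le.1 hk)
      simp only [uu, ← 𝒮.inp_eq x, (h s).2, fun t => (h t).1, mul_zero, Finset.sum_const_zero,
        add_zero]
  refine ⟨𝒮.data _, 𝒮.data _, fun t ht => 𝒮.DD_mul_of_AX (σ_mem M (X := {s}) rfl) x ht,
    fun v hv a b => key.trans (lead_add_le h1 h2 hv a b),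
    fun v hv a b => key.trans_lt (lead_add_lt h1 h2 hv a b), fun v hv a b => key.trans_lt ?_⟩
  simpa only [add_comm] using lead_add_lt h2 h1 hv b a

theorem edge_of_adj {x y : ArtinGroup M} {s : S} (h : y = x * σ M s ∨ x = y * σ M s) :
    Edge M 𝒮.uu s (𝒮.DD x) (𝒮.DD y) := by
  rcases h with rfl | rfl
  · exact 𝒮.edge x s
  · exact (𝒮.edge y s).symm

/-- `hgt_wf`, `isWF_lead`, `dimS_mem_closure` -/
theorem ht_wf (Y : Set S) : WellFounded fun x y : ArtinGroup M => 𝒮.ht Y x < 𝒮.ht Y y := by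
  have h := hgt_wf (M := M) 𝒮.term1_adm_uu Y (isWF_lead (Set.finite_range 𝒮.π)
    (by rintro _ ⟨i, rfl⟩; exact (𝒮.π_pos i).le))
  exact InvImage.wf (fun x => (⟨𝒮.ht Y x, 𝒮.DD x, fun s => ⟨(𝒮.data x).2 s,
    𝒮.dimS_mem_closure x _ s⟩, rfl⟩ : {δ | ∃ D : S → LT, (∀ s, (D s).Valid ∧
      D s ∈ {v : LT | v.co ∈ AddSubmonoid.closure (Set.range 𝒮.π)}) ∧ δ = hgt M 𝒮.uu Y D})) h

theorem Tn_subset_Tb (Y : Set S) (x : ArtinGroup M) : 𝒮.Tn Y x ⊆ 𝒮.Tb Y x :=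
  fun _ hs => mem_harm_of_lt (𝒮.data x) hs.1

theorem Tb_subset (Y : Set S) (x : ArtinGroup M) : 𝒮.Tb Y x ⊆ Y :=
  fun _ hs => hs.1

/-- in the coset of the non-tight vertices the height does not go up, and goes down as soon as some
`D` drops below it -/
theorem ht_lt_of_mem {Y : Set S} {x y : ArtinGroup M} (h : x⁻¹ * y ∈ AX M (𝒮.Tn Y x)) {s : S}
    (hs : 𝒮.DD y s < 𝒮.ht Y x s) : 𝒮.ht Y y < 𝒮.ht Y x := by
  have e : ∀ t, t ∉ 𝒮.Tn Y x → 𝒮.DD y t = 𝒮.DD x t := fun t ht => by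
    rw [← 𝒮.DD_mul_of_AX h x ht, mul_inv_cancel_left]
  refine lt_of_le_of_ne (hgt_le_of_eq_on_tight (𝒮.data x) (𝒮.data y)
    (fun t ht => e t fun h' => h'.1.ne ht)
    fun t ht => e t fun h' => ht (𝒮.Tb_subset Y x (𝒮.Tn_subset_Tb Y x h'))) fun e' => ?_
  exact hs.not_ge (e' ▸ hgt_le (𝒮.data y) s)

theorem Low.lt {𝒮 : Setup M} {Y : Set S} {x y : ArtinGroup M} {k : ℕ} (h : 𝒮.Low Y x k y) :
    𝒮.ht Y y < 𝒮.ht Y x := by
  obtain ⟨h1, s, -, hs⟩ := h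
  exact 𝒮.ht_lt_of_mem (AX_mono M (fun t ht => ht.1) h1) hs

theorem exists_terminal (Y : Set S) (x : ArtinGroup M) :
    ∃ y, x⁻¹ * y ∈ AX M Y ∧ 𝒮.Terminal Y y ∧ 𝒮.ht Y y ≤ 𝒮.ht Y x := by
  obtain ⟨y, hy, hmin⟩ := (𝒮.ht_wf Y).has_min {y | x⁻¹ * y ∈ AX M Y ∧ 𝒮.ht Y y ≤ 𝒮.ht Y x}
    ⟨x, by simp, le_rfl⟩
  refine ⟨y, hy.1, fun k z hz => hmin z ⟨?_, hz.lt.le.trans hy.2⟩ hz.lt, hy.2⟩
  have := (AX M Y).mul_mem hy.1 (AX_mono M
    (fun t ht => 𝒮.Tb_subset Y y (𝒮.Tn_subset_Tb Y y ht.1)) hz.1)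
  rwa [mul_assoc, mul_inv_cancel_left] at this

/-- different levels commute (`lev_eq_of_nontight`, `cc_eq_zero_iff`) -/
theorem Tm_comm {Y : Set S} {x : ArtinGroup M} {k k' : ℕ} (hk : k ≠ k') {s t : S}
    (hs : s ∈ 𝒮.Tm Y x k) (ht : t ∈ 𝒮.Tm Y x k') : M s t = 2 := by
  have hst : s ≠ t := fun e => hk (hs.2.symm.trans (e ▸ ht.2))
  by_contra h
  have := (lev_eq_of_nontight (𝒮.data x) (𝒮.Tn_subset_Tb Y x hs.1) (𝒮.Tn_subset_Tb Y x ht.1)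
    hst.symm fun h0 => h ((cc_eq_zero_iff M hst).1 h0)).1
  exact hk (hs.2.symm.trans (this.symm.trans ht.2))

end Setup

end Crest.R175
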