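import Crest.Agent.R175.LocDefs
import Crest.Agent.R175.HgtD

/-! Row 175: heights of chambers, terminal chambers (definitions). -/

set_option autoImplicit false
set_option linter.unusedSectionVars false

namespace Crest.R175

open Crest.GroupTheory

namespace Setup

variable {S : Type} [Fintype S] [DecidableEq S] {M : CoxeterMatrix S} (𝒮 : Setup M)

/-- frozen input in the levels `≥ 0` -/
noncomputable def uu (s : S) (k : ℕ) : ℝ := 𝒮.inp 1 k s

/-- leading term of the weighted dimensions in the levels `≥ 0` -/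
noncomputable def DD (x : ArtinGroup M) (s : S) : LT := lead fun k : ℕ => 𝒮.dimS x k s

/-- the `Y`-height of the chamber `x` -/
noncomputable def ht (Y : Set S) (x : ArtinGroup M) : S → LT := hgt M 𝒮.uu Y (𝒮.DD x)

/-- the harmonic set -/
def Tb (Y : Set S) (x : ArtinGroup M) : Set S := Harm M 𝒮.uu Y (𝒮.ht Y x)

/-- non-tight vertices of nonzero height -/
def Tn (Y : Set S) (x : ArtinGroup M) : Set S :=
  {s | 𝒮.ht Y x s < 𝒮.DD x s ∧ 𝒮.ht Y x s ≠ LT.zero}

/-- those of level `k` -/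
def Tm (Y : Set S) (x : ArtinGroup M) (k : ℕ) : Set S := {s | s ∈ 𝒮.Tn Y x ∧ (𝒮.ht Y x s).lev = k}

/-- `y` is a descent of `x` in level `k` -/
def Low (Y : Set S) (x : ArtinGroup M) (k : ℕ) (y : ArtinGroup M) : Prop :=
  x⁻¹ * y ∈ AX M (𝒮.Tm Y x k) ∧ ∃ s ∈ 𝒮.Tm Y x k, 𝒮.DD y s < 𝒮.ht Y x s

/-- terminal chambers -/
def Terminal (Y : Set S) (x : ArtinGroup M) : Prop := ∀ k y, ¬ 𝒮.Low Y x k y

end Setup

end Crest.R175
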