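import Crest.Agent.R175.Term

/-! Row 175: uniqueness of the terminal class in a coset. -/

set_option autoImplicit false
set_option linter.unusedSectionVars false

namespace Crest.R175

open Crest.GroupTheory

namespace Setup

variable {S : Type} [Fintype S] [DecidableEq S] {M : CoxeterMatrix S} (𝒮 : Setup M)

/-- same height and same coset of the harmonic parabolic -/
def Cls (Y : Set S) (x y : ArtinGroup M) : Prop :=
  𝒮.ht Y x = 𝒮.ht Y y ∧ x⁻¹ * y ∈ AX M (𝒮.Tb Y x)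

theorem Cls.equivalence (Y : Set S) : Equivalence (𝒮.Cls Y) := by
  refine ⟨fun x => ⟨rfl, by simp⟩, ?_, ?_⟩
  · rintro x y ⟨h1, h2⟩
    refine ⟨h1.symm, ?_⟩
    have hT : 𝒮.Tb Y y = 𝒮.Tb Y x := by simp only [Tb, h1]
    rw [hT]
    simpa using (AX M _).inv_mem h2
  · rintro x y z ⟨h1, h2⟩ ⟨h3, h4⟩
    refine ⟨h1.trans h3, ?_⟩
    have hT : 𝒮.Tb Y y = 𝒮.Tb Y x := by simp only [Tb, h1]
    rw [hT] at h4
    simpa [mul_assoc] using (AX M _).mul_mem h2 h4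

/-- `x₀` is a terminal chamber reached from `x` by descents -/
inductive Reach (Y : Set S) : ArtinGroup M → ArtinGroup M → Prop
  | refl (x : ArtinGroup M) : 𝒮.Terminal Y x → Reach Y x x
  | step (x y x₀ : ArtinGroup M) (k : ℕ) : 𝒮.Low Y x k y → Reach Y y x₀ → Reach Y x x₀

theorem exists_reach (Y : Set S) (x : ArtinGroup M) : ∃ x₀, 𝒮.Reach Y x x₀ := by
  induction x using (𝒮.ht_wf Y).induction with
  | _ x ih =>
    by_cases hx : 𝒮.Terminal Y x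
    · exact ⟨x, Reach.refl x hx⟩
    · simp only [Terminal, not_forall, not_not] at hx
      obtain ⟨k, y, hy⟩ := hx
      obtain ⟨x₀, h₀⟩ := ih y hy.lt
      exact ⟨x₀, Reach.step x y x₀ k hy h₀⟩

theorem uniq_mem_of_adj {x x' : ArtinGroup M} {s : S} (h : x' = x * σ M s ∨ x = x' * σ M s)
    {T : Set S} (hs : s ∈ T) : x⁻¹ * x' ∈ AX M T := by
  rcases h with h | h
  · rw [h]; simpa using σ_mem M hs
  · rw [h]; simpa using (AX M T).inv_mem (σ_mem M hs)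

theorem uniq_mem_Tb {Y : Set S} {x x' : ArtinGroup M} {s : S} (hs : s ∈ Y)
    (h : x' = x * σ M s ∨ x = x' * σ M s) (heq : 𝒮.ht Y x' = 𝒮.ht Y x) : s ∈ 𝒮.Tb Y x := by
  by_contra hn
  have := (𝒮.edge_of_adj h).lt_of_not_harm hs hn
  exact this.ne heq.symm

/-- a strict descent along an edge is a descent (`Edge.of_lt`) -/
theorem low_of_adj_lt {Y : Set S} {x x' : ArtinGroup M} (h : Adj M Y x x')
    (hlt : 𝒮.ht Y x' < 𝒮.ht Y x) : ∃ k, 𝒮.Low Y x k x' := by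
  obtain ⟨s, hs, h⟩ := h
  obtain ⟨h1, h2, h3⟩ := (𝒮.edge_of_adj h).of_lt hs hlt
  have hm : s ∈ 𝒮.Tm Y x (𝒮.ht Y x s).lev := ⟨⟨h1, h2⟩, rfl⟩
  exact ⟨_, uniq_mem_of_adj h hm, s, hm, h3⟩

/-- A neutral edge labelled `s`: `s ∈ Tb` (`Edge.lt_of_not_harm`), and every descent `y` of `x` is
equal or adjacent to ... a descent of `x'`: precisely, if `x` has a descent then there are descents
`y` of `x` and `y'` of `x'` with `y = y'` or `y, y'` adjacent along `Y`.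
`Tm Y x k` and `Tm Y x' k` agree off `s`.  Cases: (a) `s` commutes with all of `Tm Y x k` and lies in
neither set (height zero: `Harm.eq_zero`; other level: `lev_eq_of_nontight`; tight at both ends:
`Edge.tight_of_neutral`): take `y' = y σ_s^{±1}`.  (b) `s ∈ Tm Y x' k`: `Low x k y → Low x' k y`.
(c) `s ∈ Tm Y x k`, tight at `x'`: by `not_low_of_tie` there is a descent `y'` of `x'` in level `k`,
and it is also a descent of `x`. -/
theorem low_of_adj_eq {Y : Set S} {x x' : ArtinGroup M} (h : Adj M Y x x')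
    (heq : 𝒮.ht Y x' = 𝒮.ht Y x) {k : ℕ} {y₀ : ArtinGroup M} (hy : 𝒮.Low Y x k y₀) :
    ∃ y y', 𝒮.Low Y x k y ∧ 𝒮.Low Y x' k y' ∧ (y = y' ∨ Adj M Y y y') := by
  obtain ⟨s, hs, h⟩ := h
  have hE := 𝒮.edge_of_adj h
  have h' : x = x' * σ M s ∨ x' = x * σ M s := h.symm
  have hoff : ∀ t, t ≠ s → (t ∈ 𝒮.Tm Y x' k ↔ t ∈ 𝒮.Tm Y x k) := by
    intro t ht
    simp only [Tm, Tn, Set.mem_ofPred_eq, heq, hE.eq t ht]
  have hle : ∀ t, 𝒮.ht Y x t ≤ 𝒮.DD x t := fun t => hgt_le (𝒮.data x) t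
  have hle' : ∀ t, 𝒮.ht Y x t ≤ 𝒮.DD x' t := fun t => by
    rw [← heq]; exact hgt_le (𝒮.data x') t
  by_cases hs' : s ∈ 𝒮.Tm Y x' k
  · -- the descent of `x` is a descent of `x'`
    have hsub : 𝒮.Tm Y x k ⊆ 𝒮.Tm Y x' k := by
      intro t ht
      by_cases hts : t = s
      · exact hts ▸ hs'
      · exact (hoff t hts).2 ht
    refine ⟨y₀, y₀, hy, ⟨?_, ?_⟩, Or.inl rfl⟩
    · have := (AX M _).mul_mem (uniq_mem_of_adj h' hs') (AX_mono M hsub hy.1)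
      simpa [mul_assoc] using this
    · obtain ⟨t, ht, hlt⟩ := hy.2
      exact ⟨t, hsub ht, by rw [heq]; exact hlt⟩
  by_cases hsx : s ∈ 𝒮.Tm Y x k
  · -- tie
    have htight : 𝒮.DD x' s = 𝒮.ht Y x s := by
      refine le_antisymm (not_lt.1 fun hlt => hs' ?_) (hle' s)
      refine ⟨⟨?_, ?_⟩, ?_⟩
      · rw [heq]; exact hlt
      · rw [heq]; exact hsx.1.2
      · rw [heq]; exact hsx.2
    have hx' := uniq_mem_of_adj h hsx
    have hnot : ¬ ∀ a ∈ AX M (𝒮.Tm Y x k \ {s}), ∀ t ∈ 𝒮.Tm Y x k,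
        ¬ 𝒮.DD (x' * a) t < 𝒮.ht Y x t := fun hh => 𝒮.not_low_of_tie hx' htight hh y₀ hy
    push Not at hnot
    obtain ⟨a, ha, t, ht, hlt⟩ := hnot
    have hts : t ≠ s := by
      rintro rfl
      rw [𝒮.DD_mul_of_AX ha x' (by simp), htight] at hlt
      exact lt_irrefl _ hlt
    have hsub : 𝒮.Tm Y x k \ {s} ⊆ 𝒮.Tm Y x' k := fun r hr => (hoff r hr.2).2 hr.1
    refine ⟨x' * a, x' * a, ⟨?_, t, ht, hlt⟩, ⟨?_, t, (hoff t hts).2 ht, ?_⟩, Or.inl rfl⟩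
    · have := (AX M _).mul_mem hx' (AX_mono M Set.sdiff_subset ha)
      simpa [mul_assoc] using this
    · simpa using AX_mono M hsub ha
    · rw [heq]; exact hlt
  · -- `s` commutes with the level set
    have hsb : s ∈ 𝒮.Tb Y x := 𝒮.uniq_mem_Tb hs h heq
    have hcomm : ∀ t ∈ 𝒮.Tm Y x k, M s t = 2 := by
      intro t ht
      have hts : t ≠ s := fun e => hsx (e ▸ ht)
      rw [← cc_eq_zero_iff M hts.symm]
      by_contra hc
      have htb : t ∈ 𝒮.Tb Y x := 𝒮.Tn_subset_Tb Y x ht.1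
      obtain ⟨hl, hz⟩ := lev_eq_of_nontight (𝒮.data x) hsb htb hts hc
      have hs0 : 𝒮.ht Y x s ≠ LT.zero := fun e => ht.1.2 (hz.2 e)
      have hsk : (𝒮.ht Y x s).lev = k := hl.symm.trans ht.2
      have h1 : 𝒮.ht Y x s = 𝒮.DD x s :=
        le_antisymm (hle s) (not_lt.1 fun hlt => hsx ⟨⟨hlt, hs0⟩, hsk⟩)
      have h2 : 𝒮.ht Y x s = 𝒮.DD x' s := by
        refine le_antisymm (hle' s) (not_lt.1 fun hlt => hs' ⟨⟨?_, ?_⟩, ?_⟩)
        · rw [heq]; exact hlt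
        · rw [heq]; exact hs0
        · rw [heq]; exact hsk
      rcases hE.tight_of_neutral hsb h1 (h2.symm.trans h1) hts hc with h3 | h3
      · exact ht.1.1.ne h3
      · exact ht.1.2 h3
    have hTT : 𝒮.Tm Y x' k = 𝒮.Tm Y x k := by
      ext t
      by_cases hts : t = s
      · subst hts; exact ⟨fun e => absurd e hs', fun e => absurd e hsx⟩
      · exact hoff t hts
    have hb : x⁻¹ * x' ∈ AX M {s} := uniq_mem_of_adj h rfl
    have hcm : Commute (x⁻¹ * x') (x⁻¹ * y₀) :=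
      commute_of_AX M (fun r hr t ht => by rw [Set.mem_singleton_iff.1 hr]; exact hcomm t ht) hb hy.1
    have hy' : x' * (x⁻¹ * y₀) = y₀ * (x⁻¹ * x') := by
      have e1 : x' * (x⁻¹ * y₀) = x * ((x⁻¹ * x') * (x⁻¹ * y₀)) := by group
      rw [e1, hcm.eq]; group
    refine ⟨y₀, x' * (x⁻¹ * y₀), hy, ⟨?_, ?_⟩, Or.inr ⟨s, hs, ?_⟩⟩
    · rw [hTT]; simpa using hy.1
    · obtain ⟨t, ht, hlt⟩ := hy.2
      have hts : t ∉ ({s} : Set S) := fun e => hsx (Set.mem_singleton_iff.1 e ▸ ht)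
      refine ⟨t, hTT ▸ ht, ?_⟩
      rw [hy', 𝒮.DD_mul_of_AX hb y₀ hts, heq]
      exact hlt
    · rw [hy']
      rcases h with h | h
      · left; rw [h]; group
      · right; rw [h]; group

theorem cls_of_adj_eq {Y : Set S} {x x' : ArtinGroup M} (h : Adj M Y x x')
    (heq : 𝒮.ht Y x' = 𝒮.ht Y x) : 𝒮.Cls Y x x' := by
  obtain ⟨s, hs, h⟩ := h
  exact ⟨heq.symm, uniq_mem_of_adj h (𝒮.uniq_mem_Tb hs h heq)⟩

/-- the statement proved by well-founded induction -/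
def uniqP (Y : Set S) (x : ArtinGroup M) : Prop :=
  (∀ x₀ x₀', 𝒮.Reach Y x x₀ → 𝒮.Reach Y x x₀' → 𝒮.Cls Y x₀ x₀') ∧
    ∀ x', Adj M Y x x' → 𝒮.ht Y x' ≤ 𝒮.ht Y x →
      ∀ x₀ x₀', 𝒮.Reach Y x x₀ → 𝒮.Reach Y x' x₀' → 𝒮.Cls Y x₀ x₀'

theorem uniq_step {Y : Set S} {a b : ArtinGroup M} (ha : 𝒮.uniqP Y a) (hb : 𝒮.uniqP Y b)
    (h : a = b ∨ Adj M Y a b) {a₀ b₀ : ArtinGroup M} (h₀ : 𝒮.Reach Y a a₀) (h₀' : 𝒮.Reach Y b b₀) :
    𝒮.Cls Y a₀ b₀ := by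
  rcases h with rfl | h
  · exact ha.1 _ _ h₀ h₀'
  · obtain ⟨s, hs, hh⟩ := id h
    rcases (𝒮.edge_of_adj hh).le_total Y with hle | hle
    · exact (Cls.equivalence 𝒮 Y).symm (hb.2 a h.symm hle _ _ h₀' h₀)
    · exact ha.2 b h hle _ _ h₀ h₀'

theorem uniq_gallery {Y : Set S} {P : ArtinGroup M → Prop} (hP : ∀ z, P z → 𝒮.uniqP Y z)
    {y y' : ArtinGroup M} (hy : P y) (h : Conn M Y P y y') :
    P y' ∧ ∀ a₀ b₀, 𝒮.Reach Y y a₀ → 𝒮.Reach Y y' b₀ → 𝒮.Cls Y a₀ b₀ := by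
  induction h with
  | refl => exact ⟨hy, (hP y hy).1⟩
  | @tail b c _ hbc ih =>
    refine ⟨hbc.1, fun a₀ c₀ ha hc => ?_⟩
    obtain ⟨b₀, hb⟩ := 𝒮.exists_reach Y b
    exact (Cls.equivalence 𝒮 Y).trans (ih.2 _ _ ha hb)
      (𝒮.uniq_step (hP b ih.1) (hP c hbc.1) (Or.inr hbc.2) hb hc)

theorem uniq_eq_of_terminal {Y : Set S} {x x₀ : ArtinGroup M} (hx : 𝒮.Terminal Y x)
    (h : 𝒮.Reach Y x x₀) : x₀ = x := by
  cases h with
  | refl => rfl
  | step _ y _ k hy _ => exact absurd hy (hx k y)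

theorem uniq_A {Y : Set S} {x : ArtinGroup M}
    (ih : ∀ z, 𝒮.ht Y z < 𝒮.ht Y x → 𝒮.uniqP Y z) {x₀ x₀' : ArtinGroup M}
    (h₀ : 𝒮.Reach Y x x₀) (h₀' : 𝒮.Reach Y x x₀') : 𝒮.Cls Y x₀ x₀' := by
  cases h₀ with
  | refl _ hx =>
    rw [𝒮.uniq_eq_of_terminal hx h₀']
    exact (Cls.equivalence 𝒮 Y).refl _
  | step _ y _ k hy hr =>
    cases h₀' with
    | refl _ hx => exact absurd hy (hx k y)
    | step _ y' _ k' hy' hr' =>
      exact (𝒮.uniq_gallery ih hy.lt (𝒮.conn_low' hy hy')).2 _ _ hr hr'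

theorem uniq_P (Y : Set S) (x : ArtinGroup M) : 𝒮.uniqP Y x := by
  induction x using (𝒮.ht_wf Y).induction with
  | _ x ih =>
    refine ⟨fun _ _ => 𝒮.uniq_A ih, fun x' h hle x₀ x₀' h₀ h₀' => ?_⟩
    rcases hle.lt_or_eq with hlt | heq
    · obtain ⟨k, hk⟩ := 𝒮.low_of_adj_lt h hlt
      exact 𝒮.uniq_A ih h₀ (Reach.step x x' x₀' k hk h₀')
    · have ih' : ∀ z, 𝒮.ht Y z < 𝒮.ht Y x' → 𝒮.uniqP Y z := fun z hz => ih z (heq ▸ hz)
      by_cases hx : 𝒮.Terminal Y x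
      · have hx' : 𝒮.Terminal Y x' := by
          intro k y hy
          obtain ⟨_, y', _, hy', _⟩ := 𝒮.low_of_adj_eq h.symm heq.symm hy
          exact hx k y' hy'
        rw [𝒮.uniq_eq_of_terminal hx h₀, 𝒮.uniq_eq_of_terminal hx' h₀']
        exact 𝒮.cls_of_adj_eq h heq
      · simp only [Terminal, not_forall, not_not] at hx
        obtain ⟨k, y₀, hy₀⟩ := hx
        obtain ⟨y, y', hy, hy', hyy⟩ := 𝒮.low_of_adj_eq h heq hy₀
        obtain ⟨z, hz⟩ := 𝒮.exists_reach Y y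
        obtain ⟨z', hz'⟩ := 𝒮.exists_reach Y y'
        have e1 := 𝒮.uniq_A ih h₀ (Reach.step x y z k hy hz)
        have e2 := 𝒮.uniq_A ih' (Reach.step x' y' z' k hy' hz') h₀'
        have e3 := 𝒮.uniq_step (ih y hy.lt) (ih' y' hy'.lt) hyy hz hz'
        exact (Cls.equivalence 𝒮 Y).trans e1 ((Cls.equivalence 𝒮 Y).trans e3 e2)

/-- Well-founded induction on `ht Y x` of: (a) any two chambers reached from `x` are in one class;
(b) for `x'` adjacent to `x` with `ht x' ≤ ht x` the chambers reached from `x` and `x'` are in one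
class.  For (a) use `conn_low'` and `Edge.le_total` along the gallery; for (b) `low_of_adj_lt`,
`low_of_adj_eq` (in both directions), `cls_of_adj_eq`. -/
theorem cls_of_reach {Y : Set S} {x x' x₀ x₀' : ArtinGroup M} (h : x = x' ∨ Adj M Y x x')
    (h₀ : 𝒮.Reach Y x x₀) (h₀' : 𝒮.Reach Y x' x₀') : 𝒮.Cls Y x₀ x₀' := by
  rcases h with rfl | h
  · exact (𝒮.uniq_P Y x).1 _ _ h₀ h₀'
  · obtain ⟨s, hs, hh⟩ := id h
    rcases (𝒮.edge_of_adj hh).le_total Y with hle | hle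
    · exact (Cls.equivalence 𝒮 Y).symm ((𝒮.uniq_P Y x').2 x h.symm hle _ _ h₀' h₀)
    · exact (𝒮.uniq_P Y x).2 x' h hle _ _ h₀ h₀'

/-- **Uniqueness of the terminal class.** -/
theorem terminal_unique {Y : Set S} {x y : ArtinGroup M} (h : x⁻¹ * y ∈ AX M Y)
    (hx : 𝒮.Terminal Y x) (hy : 𝒮.Terminal Y y) : 𝒮.Cls Y x y := by
  have hc : Conn M Y (fun _ => True) x (x * (x⁻¹ * y)) := conn_of_coset (fun _ _ => trivial) h
  rw [mul_inv_cancel_left] at hc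
  exact (𝒮.uniq_gallery (fun z _ => 𝒮.uniq_P Y z) trivial hc).2 _ _ (Reach.refl x hx)
    (Reach.refl y hy)

theorem terminal_of_ht_zero {Y : Set S} {x : ArtinGroup M} (h : ∀ s, 𝒮.ht Y x s = LT.zero) :
    𝒮.Terminal Y x := by
  rintro k y ⟨_, s, hs, _⟩
  exact hs.1.2 (h s)

theorem ht_zero_of_dimS {Y : Set S} {x : ArtinGroup M} (h : ∀ k s, 𝒮.dimS x k s = 0) (s : S) :
    𝒮.ht Y x s = LT.zero := by
  have h1 : 𝒮.DD x s = LT.zero := (lead_eq_zero_iff (𝒮.adm_dimS x s)).2 fun k => h k s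
  have h2 : 𝒮.ht Y x s ≤ 𝒮.DD x s := hgt_le (𝒮.data x) s
  exact le_antisymm (h1 ▸ h2) ((hgt_data (𝒮.data x)).2 s).zero_le

/-- at height zero the harmonic set is where the input vanishes -/
theorem mem_Tb_iff_of_zero {Y : Set S} {x : ArtinGroup M} (h : ∀ s, 𝒮.ht Y x s = LT.zero) (s : S) :
    s ∈ 𝒮.Tb Y x ↔ s ∈ Y ∧ ∀ k : ℕ, 𝒮.inp 1 k s = 0 := by
  have h1 : nbf M 𝒮.uu (𝒮.ht Y x) s = 𝒮.uu s := by
    funext k
    simp [nbf, h, LT.emb, LT.zero]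
  have h2 : (𝒮.ht Y x s).dbl = LT.zero := by simp [h, LT.dbl, LT.zero]
  simp only [Tb, Harm, Set.mem_ofPred_eq, nb, h1, h2]
  rw [eq_comm, lead_eq_zero_iff ((𝒮.data x).1 s)]
  rfl

end Setup

end Crest.R175
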