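import Crest.Agent.R175.Frame
import Crest.Agent.R175.Uniq

/-! Row 175: van der Lek's theorem. -/

set_option autoImplicit false

namespace Crest.R175

open Crest.GroupTheory

/-- **van der Lek.**  Proof: take the setup framed along `X = ∅`, restrict it along `e` with base
point `1` (`Setup.restrict`).  If `artinMap M e g = 1` then `g` and `1` have all weighted dimensions
`0`, so both have height `0` and are terminal for `Y = univ`; by uniqueness (`Setup.terminal_unique`)
`g` lies in the parabolic of the harmonic set at `1`, which is empty because the input is positive. -/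
theorem vanDerLek {S T : Type} [Fintype S] [DecidableEq S] [Fintype T] [DecidableEq T]
    (M : CoxeterMatrix S) (e : T ↪ S) : Function.Injective (artinMap M e) := by
  rw [injective_iff_map_eq_one]
  intro g hg
  obtain ⟨𝒮, hF⟩ := exists_setup M ∅
  have hd : ∀ x, artinMap M e x = 1 → ∀ k t, (𝒮.restrict e 1).dimS x k t = 0 := by
    intro x hx k t
    rw [𝒮.restrict_dimS e, hx, mul_one]
    exact hF.dim_one k (e t)
  have h1 : ∀ s, (𝒮.restrict e 1).ht Set.univ 1 s = LT.zero :=
    (𝒮.restrict e 1).ht_zero_of_dimS (hd 1 (map_one _))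
  have h2 : ∀ s, (𝒮.restrict e 1).ht Set.univ g s = LT.zero :=
    (𝒮.restrict e 1).ht_zero_of_dimS (hd g hg)
  have hc := (𝒮.restrict e 1).terminal_unique (Y := Set.univ) (x := 1) (y := g)
    (by rw [AX_univ]; trivial) ((𝒮.restrict e 1).terminal_of_ht_zero h1)
    ((𝒮.restrict e 1).terminal_of_ht_zero h2)
  have hT : (𝒮.restrict e 1).Tb Set.univ 1 = ∅ := by
    ext t
    rw [(𝒮.restrict e 1).mem_Tb_iff_of_zero h1]
    simp only [Set.mem_univ, true_and, Set.mem_empty_iff_false, iff_false, not_forall]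
    refine ⟨0, ?_⟩
    rw [𝒮.restrict_inp e]
    have := hF.inp_pos (e t) (Set.notMem_empty _)
    simp only [hF.dim_one, mul_zero, Finset.sum_const_zero, add_zero, Nat.cast_zero]
    exact this.ne'
  have h3 := hc.2
  rw [hT] at h3
  simpa [AX, stdParabolic] using h3

theorem vdl_map_cj {G H : Type*} [Group G] [Group H] (φ : G →* H) (g : G) (P : Subgroup G) :
    (cj g P).map φ = cj (φ g) (P.map φ) := by
  simp only [cj, Subgroup.map_map]
  congr 1
  ext x
  simp

/-- transfer of the intersection property from `A(M|T)` to parabolic subgroups inside `g A_T g⁻¹` -/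
theorem parIn_of_sub {S : Type} [Fintype S] [DecidableEq S] (M : CoxeterMatrix S) {T : Set S}
    (hT : InterProp (sub M (incl T))) {X Y : Set S} (hX : X ⊆ T) (hY : Y ⊆ T) {h : ArtinGroup M}
    (hh : h ∈ AX M T) : ParIn M X (AX M X ⊓ cj h (AX M Y)) := by
  classical
  have : Fintype T := Fintype.ofFinite T
  have him : ∀ {Z : Set S}, Z ⊆ T → (incl T) '' ((incl T) ⁻¹' Z) = Z := by
    intro Z hZ
    ext s
    constructor
    · rintro ⟨t, ht, rfl⟩; exact ht
    · intro hs; exact ⟨⟨s, hZ hs⟩, hs, rfl⟩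
  rw [← him (subset_refl T), ← map_AX] at hh
  obtain ⟨h', -, rfl⟩ := hh
  obtain ⟨b, hb, Z, hZ, hP⟩ := hT ((incl T) ⁻¹' X) ((incl T) ⁻¹' Y) h'
  have hP' := congrArg (Subgroup.map (artinMap M (incl T))) hP
  rw [Subgroup.map_inf _ _ _ (vanDerLek M (incl T)), vdl_map_cj, vdl_map_cj, map_AX, map_AX, map_AX,
    him hX, him hY] at hP'
  refine ⟨artinMap M (incl T) b, ?_, incl T '' Z, ?_, hP'⟩
  · rw [← him hX, ← map_AX]
    exact Subgroup.mem_map_of_mem _ hb
  · rintro _ ⟨t, ht, rfl⟩
    exact hZ ht

end Crest.R175
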